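import Crest.Agent.R075.Osc

/-! Gluing segments into a unimodular function, Fourier inversion and Parseval. -/

set_option autoImplicit false

namespace Crest.Agent.R075

open Real intervalIntegral Crest.Agent.R210 ComplexConjugate Finset Filter Topology

theorem prod_eq_sum_ite {ι : Type*} [Fintype ι] (p : ι → Prop) [DecidablePred p] (f : ι → ℂ)
    (h : ∑ i, (if p i then 1 else 0 : ℕ) = 1) (hf : ∀ i, ¬ p i → f i = 1) :
    ∏ i, f i = ∑ i, if p i then f i else 0 := by
  rw [← card_filter] at h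
  obtain ⟨i₀, h0⟩ := card_eq_one.1 h
  have hp : ∀ i, p i ↔ i = i₀ := fun i => by
    rw [← mem_singleton, ← h0, mem_filter]; simp
  rw [prod_eq_single i₀ (fun i _ hi => hf i (fun h => hi ((hp i).1 h))) (by simp),
    sum_eq_single i₀ (fun i _ hi => if_neg (fun h => hi ((hp i).1 h))) (by simp),
    if_pos ((hp i₀).2 rfl)]

theorem prod_eq_sum_ite₂ {ι : Type*} [Fintype ι] (p q : ι → Prop) [DecidablePred p]
    [DecidablePred q] (f g : ι → ℂ)
    (h : ∑ i, ((if p i then 1 else 0 : ℕ) + (if q i then 1 else 0 : ℕ)) = 1)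
    (hf : ∀ i, ¬ p i → f i = 1) (hg : ∀ i, ¬ q i → g i = 1) :
    ∏ i, (f i * g i) = ∑ i, ((if p i then f i else 0) + if q i then g i else 0) := by
  classical
  have := prod_eq_sum_ite (ι := ι ⊕ ι) (Sum.elim p q) (Sum.elim f g) (by
    rw [Fintype.sum_sum_type, ← sum_add_distrib]
    convert h using 3 <;> simp) (by rintro (b | b) hb; exacts [hf b hb, hg b hb])
  rw [Fintype.prod_sum_type, Fintype.sum_sum_type, ← prod_mul_distrib, ← sum_add_distrib] at this
  convert this using 3 <;> simp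

/-- The glued function. -/
noncomputable def glue {𝔅 : Type*} [Fintype 𝔅] (w : 𝔅 → ℝ → ℂ) (θ : ℝ) : ℂ :=
  ∏ b, (w b θ * conj (w b (1 - θ)))

theorem glue_continuous {𝔅 : Type*} [Fintype 𝔅] {w : 𝔅 → ℝ → ℂ} (hw : ∀ b, Continuous (w b)) :
    Continuous (glue w) :=
  continuous_finsetProd _ fun b _ => (hw b).mul
    (Complex.continuous_conj.comp ((hw b).comp (continuous_const.sub continuous_id)))

theorem norm_glue {𝔅 : Type*} [Fintype 𝔅] {w : 𝔅 → ℝ → ℂ} (hw : ∀ b θ, ‖w b θ‖ = 1) (θ : ℝ) :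
    ‖glue w θ‖ = 1 := by
  simp [glue, norm_prod, hw]

theorem assembly {𝔅 : Type*} [Fintype 𝔅] (n : ℕ) (hn : 0 < n) (A B : 𝔅 → ℕ)
    (hAB : ∀ b, A b ≤ B b) (hB : ∀ b, B b ≤ n)
    (hpart : ∀ j < n, ∑ b, ((if A b ≤ j ∧ j < B b then 1 else 0 : ℕ) +
      (if A b ≤ n - 1 - j ∧ n - 1 - j < B b then 1 else 0 : ℕ)) = 1)
    (w : 𝔅 → ℝ → ℂ) (hw : ∀ b, Continuous (w b))
    (h0 : ∀ b θ, θ ≤ (A b : ℝ) / n → w b θ = 1) (h1 : ∀ b θ, (B b : ℝ) / n ≤ θ → w b θ = 1)
    (k : ℤ) :
    ∫ θ in (0 : ℝ)..1, glue w θ * ee (-(k * θ)) =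
      ((∑ b, 2 * (∫ θ in (A b : ℝ) / n..(B b : ℝ) / n, w b θ * ee (-(k * θ))).re : ℝ) : ℂ) := by
  have n0 : (0 : ℝ) < n := by exact_mod_cast hn
  set I : 𝔅 → ℕ → ℂ := fun b j => ∫ θ in (j : ℝ) / n..((j + 1 : ℕ) : ℝ) / n,
    w b θ * ee (-(k * θ)) with hI
  have ce : Continuous fun θ : ℝ => ee (-(k * θ)) := by fun_prop
  have out : ∀ b (j : ℕ) θ, (j : ℝ) / n ≤ θ → θ ≤ ((j + 1 : ℕ) : ℝ) / n →
      ¬ (A b ≤ j ∧ j < B b) → w b θ = 1 := by
    intro b j θ a1 a2 h
    by_cases h' : A b ≤ j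
    · have : B b ≤ j := by omega
      exact h1 b θ (le_trans (by gcongr) a1)
    · have : j + 1 ≤ A b := by omega
      exact h0 b θ (le_trans a2 (by gcongr))
  have seg : ∀ b, ∫ θ in (A b : ℝ) / n..(B b : ℝ) / n, w b θ * ee (-(k * θ)) =
      ∑ j ∈ range n, if A b ≤ j ∧ j < B b then I b j else 0 := by
    intro b
    rw [← sum_integral_adjacent_intervals_Ico (a := fun j : ℕ => (j : ℝ) / n)
      (f := fun θ => w b θ * ee (-(k * θ))) (hAB b)
      (fun j _ => ((hw b).mul ce).intervalIntegrable _ _), ← sum_filter]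
    refine sum_congr ?_ fun _ _ => rfl
    ext j
    have := hB b
    simp only [mem_Ico, mem_filter, mem_range]
    omega
  have unit : ∀ j ∈ range n, ∫ θ in (j : ℝ) / n..((j + 1 : ℕ) : ℝ) / n,
      glue w θ * ee (-(k * θ)) = ∑ b, ((if A b ≤ j ∧ j < B b then I b j else 0) +
        if A b ≤ n - 1 - j ∧ n - 1 - j < B b then conj (I b (n - 1 - j)) else 0) := by
    intro j hj
    rw [mem_range] at hj
    have hle : (j : ℝ) / n ≤ ((j + 1 : ℕ) : ℝ) / n := by gcongr; omega
    have r1 : ((n - 1 - j : ℕ) : ℝ) / n = 1 - ((j + 1 : ℕ) : ℝ) / n := by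
      rw [Nat.sub_sub, Nat.cast_sub (by omega)]; push_cast; field_simp; ring
    have r2 : ((n - 1 - j + 1 : ℕ) : ℝ) / n = 1 - (j : ℝ) / n := by
      rw [show n - 1 - j + 1 = n - j by omega, Nat.cast_sub hj.le]; field_simp
    have refl : ∀ b, conj (I b (n - 1 - j)) = ∫ θ in (j : ℝ) / n..((j + 1 : ℕ) : ℝ) / n,
        conj (w b (1 - θ)) * ee (-(k * θ)) := by
      intro b
      rw [hI]
      simp only
      rw [r1, r2, ← integral_comp_sub_left (fun θ => w b θ * ee (-(k * θ))),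
        ← intervalIntegral_conj]
      refine integral_congr fun θ _ => ?_
      simp only [map_mul, ← ee_neg]
      rw [show - -((k : ℝ) * (1 - θ)) = (k : ℤ) + -(k * θ) by ring, ee_add, ee_int, one_mul]
    have cw : ∀ b, Continuous fun θ : ℝ => conj (w b (1 - θ)) := fun b =>
      Complex.continuous_conj.comp ((hw b).comp (continuous_const.sub continuous_id))
    have e : ∫ θ in (j : ℝ) / n..((j + 1 : ℕ) : ℝ) / n, glue w θ * ee (-(k * θ)) =
        ∫ θ in (j : ℝ) / n..((j + 1 : ℕ) : ℝ) / n,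
          ∑ b, ((if A b ≤ j ∧ j < B b then w b θ * ee (-(k * θ)) else 0) +
          if A b ≤ n - 1 - j ∧ n - 1 - j < B b then conj (w b (1 - θ)) * ee (-(k * θ)) else 0) := by
      refine integral_congr fun θ hθ => ?_
      rw [Set.uIcc_of_le hle] at hθ
      have := prod_eq_sum_ite₂ (fun b => A b ≤ j ∧ j < B b)
        (fun b => A b ≤ n - 1 - j ∧ n - 1 - j < B b) (fun b => w b θ)
        (fun b => conj (w b (1 - θ))) (hpart j hj) (fun b hb => out b j θ hθ.1 hθ.2 hb)
        (fun b hb => by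
          have := out b (n - 1 - j) (1 - θ) (by rw [r1]; linarith [hθ.2])
            (by rw [r2]; linarith [hθ.1]) hb
          simp [this])
      simp only [glue]
      rw [this, sum_mul]
      refine sum_congr rfl fun b _ => ?_
      rw [add_mul, ite_mul, ite_mul, zero_mul]
    have i1 : ∀ b, IntervalIntegrable (fun θ => if A b ≤ j ∧ j < B b then
        w b θ * ee (-(k * θ)) else 0) MeasureTheory.volume ((j : ℝ) / n) (((j + 1 : ℕ) : ℝ) / n) := by
      intro b
      split_ifs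
      · exact ((hw b).mul ce).intervalIntegrable _ _
      · exact intervalIntegrable_const
    have i2 : ∀ b, IntervalIntegrable (fun θ => if A b ≤ n - 1 - j ∧ n - 1 - j < B b then
        conj (w b (1 - θ)) * ee (-(k * θ)) else 0) MeasureTheory.volume ((j : ℝ) / n)
        (((j + 1 : ℕ) : ℝ) / n) := by
      intro b
      split_ifs
      · exact ((cw b).mul ce).intervalIntegrable _ _
      · exact intervalIntegrable_const
    rw [e, integral_finsetSum fun b _ => (i1 b).add (i2 b)]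
    refine sum_congr rfl fun b _ => ?_
    rw [integral_add (i1 b) (i2 b), refl]
    congr 1 <;> split_ifs <;> simp [hI]
  have tot := sum_integral_adjacent_intervals (a := fun j : ℕ => (j : ℝ) / n) (n := n)
    (μ := MeasureTheory.volume) (f := fun θ => glue w θ * ee (-(k * θ)))
    (fun j _ => ((glue_continuous hw).mul ce).intervalIntegrable _ _)
  simp only [Nat.cast_zero, zero_div, div_self n0.ne'] at tot
  rw [← tot, sum_congr rfl unit, sum_comm]
  push_cast
  refine sum_congr rfl fun b _ => ?_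
  rw [sum_add_distrib, sum_range_reflect (fun j => if A b ≤ j ∧ j < B b then conj (I b j) else 0),
    seg b]
  have : ∑ j ∈ range n, (if A b ≤ j ∧ j < B b then conj (I b j) else 0) =
      conj (∑ j ∈ range n, if A b ≤ j ∧ j < B b then I b j else 0) := by
    rw [map_sum]
    exact sum_congr rfl fun j _ => by split_ifs <;> simp
  rw [this, Complex.add_conj]
  push_cast
  rfl

theorem integral_ee_int (m : ℤ) : ∫ θ in (0 : ℝ)..1, ee (m * θ) = if m = 0 then 1 else 0 := by
  split_ifs with h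
  · simp [h, ee_zero]
  · have m0 : (m : ℂ) ≠ 0 := by exact_mod_cast h
    rw [integral_eq_sub_of_hasDerivAt (f := fun θ => ee (m * θ) / (cI * m)) (fun θ _ => ?_)
      (Continuous.intervalIntegrable (by fun_prop) _ _)]
    · simp [ee_int, ee_zero]
    · refine ((hasDerivAt_ee ((hasDerivAt_id θ).const_mul (m : ℝ))).div_const _).congr_deriv ?_
      have := cI_ne
      simp only [id, mul_one]
      push_cast
      field_simp

theorem parseval_lower {N : ℕ} (a : Fin N → ℝ) (M : ℝ) (hM : 0 ≤ M)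
    (h : ∀ θ ∈ Set.Ioo (0 : ℝ) 1, M ≤ ‖∑ k : Fin N, (a k : ℂ) * ee ((k : ℕ) * θ)‖) :
    M ^ 2 ≤ ∑ k, a k ^ 2 := by
  have e : ∀ θ : ℝ, ((‖∑ k : Fin N, (a k : ℂ) * ee ((k : ℕ) * θ)‖ ^ 2 : ℝ) : ℂ) =
      ∑ k : Fin N, ∑ l : Fin N, (a k * a l : ℂ) * ee ((((k : ℕ) : ℤ) - ((l : ℕ) : ℤ) : ℤ) * θ) := by
    intro θ
    rw [← Complex.normSq_eq_norm_sq, ← Complex.mul_conj, map_sum, sum_mul_sum]
    refine sum_congr rfl fun k _ => sum_congr rfl fun l _ => ?_
    rw [map_mul, Complex.conj_ofReal, ← ee_neg, mul_mul_mul_comm, ← ee_add]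
    congr 2
    push_cast; ring
  have e2 : ∫ θ in (0 : ℝ)..1, ‖∑ k : Fin N, (a k : ℂ) * ee ((k : ℕ) * θ)‖ ^ 2 = ∑ k, a k ^ 2 := by
    apply Complex.ofReal_injective
    rw [← integral_ofReal]
    simp_rw [e]
    rw [integral_finsetSum fun k _ => Continuous.intervalIntegrable (by fun_prop) _ _]
    push_cast
    refine sum_congr rfl fun k _ => ?_
    rw [integral_finsetSum fun k _ => Continuous.intervalIntegrable (by fun_prop) _ _,
      sum_eq_single k]
    · simp [ee_zero, sq]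
    · intro l _ hl
      have := integral_ee_int (((k : ℕ) : ℤ) - ((l : ℕ) : ℤ))
      rw [if_neg (fun h => hl (Fin.ext (by omega)))] at this
      push_cast at this
      rw [integral_const_mul, this, mul_zero]
    · simp
  rw [← e2]
  have := integral_mono_on_of_le_Ioo (μ := MeasureTheory.volume) (a := 0) (b := 1)
    (f := fun _ => M ^ 2)
    (g := fun θ => ‖∑ k : Fin N, (a k : ℂ) * ee ((k : ℕ) * θ)‖ ^ 2) zero_le_one
    intervalIntegrable_const (Continuous.intervalIntegrable (by fun_prop) _ _)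
    fun θ hθ => pow_le_pow_left₀ hM (h θ hθ) 2
  simpa using this

theorem fourier_window (u : ℝ → ℂ) (hu : Continuous u) (h01 : u 0 = u 1) (N k₀ : ℕ)
    (g : ℤ → ℝ) (hg : Summable g) (g0 : ∀ k, 0 ≤ g k)
    (hc : ∀ k : ℤ, k < -(k₀ : ℤ) ∨ (N : ℤ) - k₀ ≤ k →
      ‖∫ θ in (0 : ℝ)..1, u θ * ee (-(k * θ))‖ ≤ g k) (θ : ℝ) (hθ : θ ∈ Set.Ico (0 : ℝ) 1) :
    ‖u θ - ∑ j : Fin N, (∫ t in (0 : ℝ)..1, u t * ee (-((((j : ℕ) : ℤ) - k₀ : ℤ) * t))) *
      ee ((((j : ℕ) : ℤ) - k₀ : ℤ) * θ)‖ ≤ ∑' k, g k := by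
  classical
  have : Fact ((0 : ℝ) < 1) := ⟨one_pos⟩
  set c : ℤ → ℂ := fun k => ∫ θ in (0 : ℝ)..1, u θ * ee (-(k * θ)) with hcdef
  let f : C(AddCircle (1 : ℝ), ℂ) :=
    ⟨AddCircle.liftIco 1 0 u, AddCircle.liftIco_zero_continuous h01 hu.continuousOn⟩
  have fe : ∀ (k : ℤ) (x : ℝ), fourier k (x : AddCircle (1 : ℝ)) = ee (k * x) := by
    intro k x
    rw [fourier_coe_apply, ee]; congr 1; push_cast; ring
  have hf : fourierCoeff f = c := by
    funext k
    show fourierCoeff (AddCircle.liftIco 1 0 u) k = _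
    rw [fourierCoeff_liftIco_eq, fourierCoeffOn_eq_integral]
    simp only [zero_add, sub_zero, div_one, one_smul, smul_eq_mul, hcdef]
    refine integral_congr fun x _ => ?_
    rw [fourier_coe_apply, mul_comm, ee]
    congr 2; push_cast; ring
  set T : Finset ℤ := univ.image fun j : Fin N => ((j : ℕ) : ℤ) - k₀ with hT
  have hT' : ∀ k, k ∉ T → ‖c k‖ ≤ g k := by
    intro k hk
    refine hc k ?_
    by_contra h
    push Not at h
    exact hk (mem_image.2 ⟨⟨(k + k₀).toNat, by omega⟩, mem_univ _, by simp; omega⟩)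
  have hs : Summable (fourierCoeff f) := by
    rw [hf]
    refine Summable.of_norm_bounded_eventually hg ?_
    filter_upwards [T.eventually_cofinite_notMem] with k hk using hT' k hk
  have H := has_pointwise_sum_fourier_series_of_summable hs (θ : AddCircle (1 : ℝ))
  have fθ : f (θ : AddCircle (1 : ℝ)) = u θ := AddCircle.liftIco_zero_coe_apply hθ
  rw [fθ, hf] at H
  simp only [fe, smul_eq_mul] at H
  have H2 : HasSum (fun k : ℤ => if k ∈ T then c k * ee (k * θ) else 0)
      (∑ k ∈ T, c k * ee (k * θ)) := by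
    have := hasSum_sum_of_ne_finset_zero (f := fun k : ℤ => if k ∈ T then c k * ee (k * θ) else 0)
      (s := T) (L := SummationFilter.unconditional ℤ) fun k hk => if_neg hk
    rwa [sum_congr rfl fun k hk => if_pos hk] at this
  have e : ∑ k ∈ T, c k * ee (k * θ) = ∑ j : Fin N, c (((j : ℕ) : ℤ) - k₀) *
      ee ((((j : ℕ) : ℤ) - k₀ : ℤ) * θ) :=
    sum_image fun i _ j _ h => Fin.ext (by have : ((i : ℕ) : ℤ) - k₀ = ((j : ℕ) : ℤ) - k₀ := h; omega)
  rw [← e]
  refine (H.sub H2).norm_le_of_bounded hg.hasSum fun k => ?_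
  split_ifs with hk
  · simpa using g0 k
  · rw [sub_zero, norm_mul, norm_ee, mul_one]; exact hT' k hk

theorem tail_summable {N : ℝ} (hN : 1 ≤ N) : Summable fun k : ℤ => 1 / (N + |(k : ℝ)|) ^ 2 := by
  refine Summable.of_norm_bounded_eventually (summable_one_div_int_pow.2 one_lt_two) ?_
  filter_upwards [({0} : Finset ℤ).eventually_cofinite_notMem] with k hk
  have k0 : (k : ℝ) ≠ 0 := by simpa using hk
  rw [Real.norm_of_nonneg (by positivity), ← sq_abs (k : ℝ)]
  have := abs_pos.2 k0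
  gcongr
  linarith

theorem tail_tendsto :
    Tendsto (fun N : ℕ => ∑' k : ℤ, 1 / ((N : ℝ) + |(k : ℝ)|) ^ 2) atTop (𝓝 0) := by
  have := tendsto_tsum_of_dominated_convergence (𝓕 := atTop)
    (f := fun (N : ℕ) (k : ℤ) => 1 / ((N : ℝ) + |(k : ℝ)|) ^ 2) (g := fun _ => 0)
    (tail_summable le_rfl) (fun k => ?_) ?_
  · simpa using this
  · exact tendsto_const_nhds.div_atTop ((tendsto_pow_atTop two_ne_zero).comp
      (tendsto_atTop_add_const_right _ _ tendsto_natCast_atTop_atTop))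
  · filter_upwards [eventually_ge_atTop 1] with N hN k
    have : (1 : ℝ) ≤ N := by exact_mod_cast hN
    rw [Real.norm_of_nonneg (by positivity)]
    gcongr

end Crest.Agent.R075
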