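import Crest.Agent.R075.ColourPrune

/-! A random colouring of `ZMod Q` and a family of valid pieces with nearly uniform degrees. -/

set_option autoImplicit false

namespace Crest.Agent.R075

open Finset

lemma col_modulus (F : ℤ) (hF : F ≠ 0) (K : ℕ) :
    ∃ Q : ℕ, K < Q ∧ Odd Q ∧ ∀ a : ℤ, a ∣ F → IsUnit (a : ZMod Q) := by
  have h : 1 ≤ F.natAbs := Int.natAbs_pos.2 hF
  refine ⟨2 * (F.natAbs * K) + 1, by nlinarith, odd_two_mul_add_one _, fun a ha => ?_⟩
  have h1 : IsUnit ((F.natAbs : ℕ) : ZMod (2 * (F.natAbs * K) + 1)) := by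
    refine IsUnit.of_mul_eq_one (-2 * K) ?_
    have := ZMod.natCast_self (2 * (F.natAbs * K) + 1)
    rw [Nat.cast_add, Nat.cast_mul, Nat.cast_mul, Nat.cast_one, Nat.cast_ofNat] at this
    linear_combination -this
  refine isUnit_of_dvd_unit ?_ h1
  have := map_dvd (Int.castRingHom (ZMod (2 * (F.natAbs * K) + 1))) (Int.dvd_natAbs.2 ha)
  simpa only [eq_intCast, Int.cast_natCast] using this

lemma col_weights {B : Type} [Fintype B] (β : B → ℝ) (hβ : ∀ b, 0 ≤ β b) (hsum : ∑ b, β b = 1)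
    (δ : ℝ) (hδ : 0 < δ) :
    ∃ p : B → ℝ, (∀ b, 0 < p b) ∧ ∑ b, p b = 1 ∧ ∀ b, |p b - β b| ≤ δ := by
  have hB : Nonempty B := by
    by_contra h
    rw [not_nonempty_iff] at h
    simp at hsum
  have hn : (1 : ℝ) ≤ Fintype.card B := by exact_mod_cast Fintype.card_pos
  have h1 : 0 < min δ 1 := lt_min hδ one_pos
  have h2 := min_le_left δ 1
  have h3 := min_le_right δ 1
  set η := min δ 1
  have h4 : 0 < 1 / (Fintype.card B : ℝ) := by positivity
  have h5 : 1 / (Fintype.card B : ℝ) ≤ 1 := by rw [div_le_one (by positivity)]; exact hn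
  refine ⟨fun b => (1 - η) * β b + η * (1 / Fintype.card B), fun b => ?_, ?_, fun b => ?_⟩
  · have := mul_nonneg (sub_nonneg.2 h3) (hβ b)
    have := mul_pos h1 h4
    linarith
  · rw [sum_add_distrib, ← mul_sum, hsum, sum_const, card_univ, nsmul_eq_mul]
    field_simp
    ring
  · have hb : β b ≤ 1 := hsum ▸ single_le_sum (fun b _ => hβ b) (mem_univ b)
    have := hβ b
    rw [abs_le]
    constructor <;> nlinarith

theorem exists_colouring (B : Type) [Fintype B] (s : B → ℕ) (r : B → ℤ) (hs : ∀ b, 0 < s b)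
    (hdet : ∀ b b', b ≠ b' → (s b : ℤ) * r b' ≠ s b' * r b) (β : B → ℝ) (hβ : ∀ b, 0 ≤ β b)
    (hsum : ∑ b, β b = 1) (δ : ℝ) (hδ : 0 < δ) (Q₀ : ℕ) :
    ∃ (Q : ℕ) (col : ZMod Q → B) (I : Type) (_ : Fintype I) (_ : Nonempty I)
      (ρ₁ ρ₂ : I → ZMod Q) (D : B → ℕ) (idx : B → I → ℕ),
      Q₀ ≤ Q ∧ Odd Q ∧ (∀ j, col (-1 - j) = col j) ∧
      (∀ i b (o : ℕ), o < s b → col ((s b : ZMod Q) * ρ₁ i + (r b : ZMod Q) * ρ₂ i + o) = b) ∧
      (∀ b i, idx b i < D b) ∧
      (∀ b i i', (s b : ZMod Q) * ρ₁ i + (r b : ZMod Q) * ρ₂ i =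
        (s b : ZMod Q) * ρ₁ i' + (r b : ZMod Q) * ρ₂ i' → idx b i = idx b i' → i = i') ∧
      ∀ b, |(Fintype.card I : ℝ) / (Q * D b) - β b| ≤ δ := by
  classical
  obtain ⟨p, hp0, hp, hpβ⟩ := col_weights β hβ hsum (δ / 2) (half_pos hδ)
  have hp1 : ∀ b, p b ≤ 1 := fun b => hp ▸ single_le_sum (fun b _ => (hp0 b).le) (mem_univ b)
  set n := Fintype.card B with hn
  set π := ∏ j, p j with hπ
  have hπ0 : 0 < π := prod_pos fun j _ => hp0 j
  set η := π * min (δ / 2) (1 / 2) with hη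
  have hη0 : 0 < η := mul_pos hπ0 (lt_min (half_pos hδ) (by norm_num))
  have hη1 : η ≤ π * (δ / 2) := mul_le_mul_of_nonneg_left (min_le_left _ _) hπ0.le
  have hη2 : η ≤ π * (1 / 2) := mul_le_mul_of_nonneg_left (min_le_right _ _) hπ0.le
  set M := univ.sup s with hM
  obtain ⟨R, hR⟩ := exists_nat_gt (8 * n * M / η)
  have hR0 : 0 < R := by exact_mod_cast (lt_of_le_of_lt (by positivity) hR : (0 : ℝ) < R)
  rw [div_lt_iff₀ hη0] at hR
  set ε := η / (4 * (n + 1)) with hε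
  have hε0 : 0 < ε := by positivity
  obtain ⟨K, hK⟩ := exists_nat_ge
    (Q₀ + (8 * n * M + 4) / η + 3 * (n + 1) * n ^ 2 * (2 * R) / ε ^ 2)
  obtain ⟨Q, hKQ, hodd, hunit⟩ := col_modulus
    ((∏ b, (s b : ℤ)) * ∏ q ∈ univ.filter (fun q : B × B => q.1 ≠ q.2),
      ((s q.1 : ℤ) * r q.2 - s q.2 * r q.1))
    (mul_ne_zero (prod_ne_zero_iff.2 fun b _ => by exact_mod_cast (hs b).ne')
      (prod_ne_zero_iff.2 fun q hq => sub_ne_zero.2 (hdet _ _ (mem_filter.1 hq).2))) K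
  have : NeZero Q := ⟨by omega⟩
  have hQ0 : (0 : ℝ) < Q := by exact_mod_cast (by omega : 0 < Q)
  have hKQ' : (K : ℝ) ≤ Q := by exact_mod_cast hKQ.le
  have t0 : (0 : ℝ) ≤ Q₀ := by positivity
  have t1 : 0 ≤ (8 * n * M + 4) / η := by positivity
  have t2 : 0 ≤ 3 * (n + 1) * n ^ 2 * (2 * R) / ε ^ 2 := by positivity
  have q0 : Q₀ ≤ Q := by exact_mod_cast (by linarith : (Q₀ : ℝ) ≤ Q)
  have q1 : 8 * n * M + 4 ≤ Q * η := (div_le_iff₀ hη0).1 (by linarith)
  have q2 : 3 * (n + 1) * n ^ 2 * (2 * R) ≤ Q * ε ^ 2 := (div_le_iff₀ (by positivity)).1 (by linarith)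
  have u1 : ∀ b, IsUnit (s b : ZMod Q) := fun b => by
    simpa using hunit (s b) ((dvd_prod_of_mem _ (mem_univ b)).mul_right _)
  have u2 : ∀ b j, j ≠ b → IsUnit ((s b : ZMod Q) * r j - s j * r b) := fun b j h => by
    simpa using hunit (s b * r j - s j * r b) ((dvd_prod_of_mem
      (fun q : B × B => (s q.1 : ℤ) * r q.2 - s q.2 * r q.1)
      (mem_filter.2 ⟨mem_univ (b, j), h.symm⟩)).mul_left _)
  let l : B → ZMod Q × ZMod Q → ZMod Q := fun b ρ => s b * ρ.1 + r b * ρ.2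
  have h1 : ∀ b y, #(univ.filter fun ρ => l b ρ = y) ≤ Q := by
    intro b y
    refine le_trans (card_le_card_of_injOn (t := univ) Prod.snd (fun _ _ => mem_coe.2 (mem_univ _))
      fun ρ h ρ' h' e => ?_) (by simp)
    simp only [coe_filter, mem_univ, true_and, Set.mem_ofPred_eq, l] at h h'
    refine Prod.ext ((u1 b).mul_left_cancel ?_) e
    linear_combination h - h' - r b * e
  have h2 : ∀ b j, j ≠ b → ∀ ρ ρ', l b ρ = l b ρ' → l j ρ = l j ρ' → ρ = ρ' := by
    intro b j hj ρ ρ' h h'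
    simp only [l] at h h'
    refine Prod.ext ((u2 b j hj).mul_left_cancel ?_) ((u2 b j hj).mul_left_cancel ?_)
    · linear_combination r j * h - r b * h'
    · linear_combination s b * h' - s j * h
  set X := univ.filter fun x : ZMod Q =>
    ∃ o < M, colCell R (x + ((o : ℕ) : ZMod Q)) ≠ colCell R x with hX
  obtain ⟨ω, I, idx, i1, i2, i3⟩ := col_main p hp0 hp (colCell (Q := Q) R) l Q (2 * R) (by simp)
    (by simp [sq]) h1 h2 (card_colCell R hR0) X (ε * Q ^ 2) (by positivity) (by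
      have := mul_le_mul_of_nonneg_right q2 (pow_pos hQ0 3).le
      push_cast
      linarith)
  have x1 : (#X : ℝ) ≤ M * (2 * (Q / R + 1)) := by
    have a : (#X : ℝ) ≤ (M * (2 * (Q / R + 1)) : ℕ) := by exact_mod_cast card_boundary R M
    refine a.trans ?_
    push_cast
    gcongr
    exact Nat.cast_div_le
  have x2 : |(#I : ℝ) - π * Q ^ 2| + Q ≤ η * Q ^ 2 := by
    have hR' : (0 : ℝ) < R := by exact_mod_cast hR0
    have a1 : (n + 1) * (ε * Q ^ 2) = η * Q ^ 2 / 4 := by rw [hε]; field_simp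
    have a2 : (n : ℝ) * (#X * Q) ≤ n * (M * (2 * (Q / R + 1)) * Q) := by gcongr
    have a3 : (n : ℝ) * M * 2 / R ≤ η / 4 := by rw [div_le_iff₀ hR']; linarith
    have a4 := mul_le_mul_of_nonneg_right a3 (sq_nonneg (Q : ℝ))
    have a5 := mul_le_mul_of_nonneg_right q1 hQ0.le
    have a6 : (n : ℝ) * (M * (2 * (Q / R + 1)) * Q) = n * M * 2 / R * Q ^ 2 + 2 * n * M * Q := by
      ring
    have a7 : 0 < η * Q ^ 2 := by positivity
    rw [← hn, ← hπ] at i3
    nlinarith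
  have hI : I.Nonempty := by
    rw [← card_pos]
    have a1 := (abs_le.1 (show |(#I : ℝ) - π * Q ^ 2| ≤ η * Q ^ 2 by linarith)).1
    have a2 := mul_le_mul_of_nonneg_right hη2 (sq_nonneg (Q : ℝ))
    have a3 : 0 < π * Q ^ 2 := by positivity
    exact_mod_cast (show (0 : ℝ) < #I by linarith)
  refine ⟨Q, fun j => ω (colCell R j), I, inferInstance, hI.to_subtype, fun i => i.1.1,
    fun i => i.1.2, fun b => ⌈(∏ j ∈ univ.erase b, p j) * Q⌉₊, fun b i => idx b i, q0, hodd,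
    fun j => congrArg ω (colCell_symm R j), fun i b o ho => ?_, fun b i => (i1 i i.2 b).2.2,
    fun b i i' h h' => Subtype.ext (i2 b i i.2 i' i'.2 h h'), fun b => ?_⟩
  · obtain ⟨a1, a2, -⟩ := i1 i i.2 b
    simp only [hX, mem_filter, mem_univ, true_and, not_exists, not_and, not_not] at a2
    exact (congrArg ω (a2 o (ho.trans_le (le_sup (mem_univ b))))).trans a1
  · rw [Fintype.card_coe]
    set π' := ∏ j ∈ univ.erase b, p j with hπ'
    have e : π = p b * π' := (mul_prod_erase univ p (mem_univ b)).symm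
    have hπ'0 : 0 < π' := prod_pos fun j _ => hp0 j
    have d1 : π' * Q ≤ ⌈π' * Q⌉₊ := Nat.le_ceil _
    have d2 : (⌈π' * Q⌉₊ : ℝ) < π' * Q + 1 := Nat.ceil_lt_add_one (by positivity)
    set D : ℝ := ((⌈π' * Q⌉₊ : ℕ) : ℝ)
    have d0 : 0 < D := lt_of_lt_of_le (by positivity) d1
    have d3 : |(#I : ℝ) / (Q * D) - p b| ≤ δ / 2 := by
      rw [div_sub' (by positivity), abs_div, abs_of_pos (by positivity : 0 < Q * D),
        div_le_iff₀ (by positivity)]
      have a1 : 0 ≤ Q * D * p b - π * Q ^ 2 := by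
        have := mul_le_mul_of_nonneg_left d1 (mul_pos hQ0 (hp0 b)).le
        rw [e]; nlinarith
      have a2 : Q * D * p b - π * Q ^ 2 ≤ Q := by
        have := mul_le_mul_of_nonneg_left d2.le (mul_pos hQ0 (hp0 b)).le
        have := mul_le_mul_of_nonneg_left (hp1 b) hQ0.le
        rw [e]; nlinarith
      have a3 : η * Q ^ 2 ≤ δ / 2 * (Q * D) := by
        have c1 : π ≤ π' := by rw [e]; exact mul_le_of_le_one_left hπ'0.le (hp1 b)
        calc η * Q ^ 2 ≤ π' * (δ / 2) * Q ^ 2 := by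
              gcongr; exact hη1.trans (by gcongr)
          _ = δ / 2 * (Q * (π' * Q)) := by ring
          _ ≤ _ := by gcongr
      have a4 := le_abs_self ((#I : ℝ) - π * Q ^ 2)
      have a5 := neg_abs_le ((#I : ℝ) - π * Q ^ 2)
      rw [abs_le]
      constructor <;> linarith
    calc _ = |((#I : ℝ) / (Q * D) - p b) + (p b - β b)| := by ring_nf
      _ ≤ _ := abs_add_le _ _
      _ ≤ δ := by linarith [hpβ b]

end Crest.Agent.R075
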