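import Mathlib

/-! Second-moment estimate for an i.i.d. random colouring of finitely many cells. -/

set_option autoImplicit false

namespace Crest.Agent.R075

open Finset

section Moment

variable {C B P J Y : Type} [Fintype C] [DecidableEq C] [Fintype B] [DecidableEq B]
  [Fintype P] [Fintype J] [Fintype Y] [DecidableEq Y]

/-- Probability of the colouring `ω`. -/
def colW (p : B → ℝ) (ω : C → B) : ℝ := ∏ k, p (ω k)

omit [DecidableEq B] in
lemma colW_sum (p : B → ℝ) (hp : ∑ b, p b = 1) : ∑ ω : C → B, colW p ω = 1 := by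
  have := Finset.prod_univ_sum (fun _ : C => (univ : Finset B)) (fun _ b => p b)
  rw [Fintype.piFinset_univ] at this
  unfold colW
  rw [← this]
  simp [hp]

omit [DecidableEq C] [Fintype B] [DecidableEq B] in
lemma colW_nonneg (p : B → ℝ) (hp : ∀ b, 0 ≤ p b) (ω : C → B) : 0 ≤ colW p ω :=
  Finset.prod_nonneg fun _ _ => hp _

/-- Indicator that the cells `c j` have the colours `t j`. -/
def colInd (c : J → C) (t : J → B) (ω : C → B) : ℝ := ∏ j, if ω (c j) = t j then 1 else 0

omit [Fintype C] [DecidableEq C] [Fintype B] in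
lemma colInd_eq (c : J → C) (t : J → B) (ω : C → B) :
    colInd c t ω = if ∀ j, ω (c j) = t j then 1 else 0 := by
  classical
  unfold colInd
  split_ifs with h
  · simp [h]
  · push Not at h
    obtain ⟨j, hj⟩ := h
    exact Finset.prod_eq_zero (mem_univ j) (by simp [hj])

lemma colW_ind (p : B → ℝ) (hp : ∑ b, p b = 1) (c : J → C) (hc : Function.Injective c)
    (t : J → B) : ∑ ω : C → B, colW p ω * colInd c t ω = ∏ j, p (t j) := by
  have h1 : ∀ ω : C → B, colW p ω * colInd c t ω =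
      ∏ k, (p (ω k) * ∏ j ∈ univ.filter (fun j => c j = k), if ω k = t j then 1 else 0) := by
    intro ω
    rw [prod_mul_distrib, colW, colInd, ← Finset.prod_fiberwise univ c]
    congr 1
    refine prod_congr rfl fun k _ => prod_congr rfl fun j hj => ?_
    rw [(mem_filter.1 hj).2]
  have h2 := Finset.prod_univ_sum (fun _ : C => (univ : Finset B))
    (fun k b => p b * ∏ j ∈ univ.filter (fun j => c j = k), if b = t j then (1 : ℝ) else 0)
  rw [Fintype.piFinset_univ] at h2
  simp only [h1]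
  rw [← h2, ← Finset.prod_fiberwise univ c]
  refine prod_congr rfl fun k _ => ?_
  by_cases hk : ∃ j, c j = k
  · obtain ⟨j, rfl⟩ := hk
    have : univ.filter (fun j' => c j' = c j) = {j} := by
      ext j'; simp [hc.eq_iff]
    simp [this]
  · have : univ.filter (fun j' => c j' = k) = ∅ := by
      ext j'; simpa using fun h => hk ⟨j', h⟩
    simp [this, hp]

/-- The `2 |J|` cells of a pair are not all distinct. -/
def ColBad (c c' : J → C) : Prop :=
  (∃ j j', j ≠ j' ∧ c j = c j') ∨ (∃ j j', j ≠ j' ∧ c' j = c' j') ∨ ∃ j j', c j = c' j'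

lemma col_pair (p : B → ℝ) (hp0 : ∀ b, 0 ≤ p b) (hp : ∑ b, p b = 1) (c c' : J → C) (t : J → B)
    [Decidable (ColBad c c')] :
    ∑ ω : C → B, colW p ω * ((colInd c t ω - ∏ j, p (t j)) * (colInd c' t ω - ∏ j, p (t j))) ≤
      if ColBad c c' then 1 else 0 := by
  split_ifs with h
  · rw [← colW_sum (C := C) p hp]
    refine sum_le_sum fun ω _ => mul_le_of_le_one_right (colW_nonneg p hp0 ω) ?_
    have h0 : 0 ≤ ∏ j, p (t j) := prod_nonneg fun _ _ => hp0 _
    have h1 : ∏ j, p (t j) ≤ 1 := prod_le_one (fun _ _ => hp0 _) fun j _ => by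
      rw [← hp]; exact single_le_sum (fun b _ => hp0 b) (mem_univ _)
    rw [colInd_eq, colInd_eq]
    split_ifs <;> nlinarith
  · unfold ColBad at h
    push Not at h
    obtain ⟨h1, h2, h3⟩ := h
    have i1 : Function.Injective c := fun j j' e => by_contra fun hne => h1 j j' hne e
    have i2 : Function.Injective c' := fun j j' e => by_contra fun hne => h2 j j' hne e
    have i3 : Function.Injective (Sum.elim c c') :=
      i1.sumElim i2 h3
    have e1 := colW_ind p hp c i1 t
    have e2 := colW_ind p hp c' i2 t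
    have e3 := colW_ind p hp (Sum.elim c c') i3 (Sum.elim t t)
    have e4 : ∀ ω, colInd (Sum.elim c c') (Sum.elim t t) ω = colInd c t ω * colInd c' t ω := by
      intro ω; unfold colInd; rw [Fintype.prod_sum_type]; rfl
    simp only [e4, Fintype.prod_sum_type, Sum.elim_inl, Sum.elim_inr] at e3
    have e0 := colW_sum (C := C) p hp
    set π := ∏ j, p (t j)
    have : ∀ ω : C → B, colW p ω * ((colInd c t ω - π) * (colInd c' t ω - π)) =
        colW p ω * (colInd c t ω * colInd c' t ω) - π * (colW p ω * colInd c t ω) -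
          π * (colW p ω * colInd c' t ω) + π * π * colW p ω := fun ω => by ring
    simp only [this, sum_add_distrib, sum_sub_distrib, ← mul_sum, e0, e1, e2, e3]
    linarith

omit [Fintype C] [Fintype Y] in
lemma col_bad_count [DecidableEq J] (c : P → J → C) (φ : P → Y) (N₁ N₂ A : ℕ)
    [∀ ρ ρ', Decidable (ColBad (c ρ) (c ρ'))]
    (h1 : ∀ y, #(univ.filter fun ρ => φ ρ = y) ≤ N₁)
    (h2 : ∀ j j', j ≠ j' → #(univ.filter fun ρ => c ρ j = c ρ j') ≤ A)
    (h3 : ∀ y j k, #(univ.filter fun ρ => φ ρ = y ∧ c ρ j = k) ≤ N₂) :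
    #(univ.filter fun q : P × P => φ q.1 = φ q.2 ∧ ColBad (c q.1) (c q.2)) ≤
      Fintype.card J ^ 2 * (2 * (A * N₁) + Fintype.card P * N₂) := by
  classical
  have a1 : ∀ j j', #(univ.filter fun q : P × P =>
      φ q.1 = φ q.2 ∧ j ≠ j' ∧ c q.1 j = c q.1 j') ≤ A * N₁ := by
    intro j j'
    by_cases hj : j = j'
    · simp [hj]
    refine (card_le_mul_card_image_of_maps_to (f := Prod.fst)
      (t := univ.filter fun ρ => c ρ j = c ρ j') (fun q hq => by
        simp only [mem_filter, mem_univ, true_and] at hq ⊢; exact hq.2.2) N₁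
      fun ρ _ => ?_).trans (by rw [mul_comm]; exact Nat.mul_le_mul_right _ (h2 j j' hj))
    refine le_trans (card_le_card_of_injOn Prod.snd (fun q hq => ?_) fun q hq q' hq' e => ?_)
      (h1 (φ ρ))
    · simp only [coe_filter, mem_filter, mem_univ, true_and, Set.mem_ofPred_eq] at hq ⊢
      rw [← hq.2, hq.1.1]
    · simp only [coe_filter, mem_filter, mem_univ, true_and, Set.mem_ofPred_eq] at hq hq'
      exact Prod.ext (hq.2.trans hq'.2.symm) e
  have a2 : ∀ j j', #(univ.filter fun q : P × P =>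
      φ q.1 = φ q.2 ∧ j ≠ j' ∧ c q.2 j = c q.2 j') ≤ A * N₁ := by
    intro j j'
    refine le_trans (card_le_card_of_injOn Prod.swap (fun q hq => ?_)
      Prod.swap_injective.injOn) (a1 j j')
    simp only [coe_filter, mem_univ, true_and, Set.mem_ofPred_eq] at hq ⊢
    exact ⟨hq.1.symm, hq.2⟩
  have a3 : ∀ j j', #(univ.filter fun q : P × P =>
      φ q.1 = φ q.2 ∧ c q.1 j = c q.2 j') ≤ Fintype.card P * N₂ := by
    intro j j'
    refine (card_le_mul_card_image_of_maps_to (f := Prod.fst) (t := univ) (fun q _ => mem_univ _)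
      N₂ fun ρ _ => ?_).trans (by rw [mul_comm, card_univ])
    refine le_trans (card_le_card_of_injOn Prod.snd (fun q hq => ?_) fun q hq q' hq' e => ?_)
      (h3 (φ ρ) j' (c ρ j))
    · simp only [coe_filter, mem_filter, mem_univ, true_and, Set.mem_ofPred_eq] at hq ⊢
      rw [← hq.2, hq.1.1, hq.1.2]
      exact ⟨rfl, rfl⟩
    · simp only [coe_filter, mem_filter, mem_univ, true_and, Set.mem_ofPred_eq] at hq hq'
      exact Prod.ext (hq.2.trans hq'.2.symm) e
  have hsub : (univ.filter fun q : P × P => φ q.1 = φ q.2 ∧ ColBad (c q.1) (c q.2)) ⊆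
      (univ : Finset (J × J)).biUnion fun jj =>
        (univ.filter fun q : P × P => φ q.1 = φ q.2 ∧ jj.1 ≠ jj.2 ∧ c q.1 jj.1 = c q.1 jj.2) ∪
        (univ.filter fun q : P × P => φ q.1 = φ q.2 ∧ jj.1 ≠ jj.2 ∧ c q.2 jj.1 = c q.2 jj.2) ∪
        (univ.filter fun q : P × P => φ q.1 = φ q.2 ∧ c q.1 jj.1 = c q.2 jj.2) := by
    intro q hq
    simp only [mem_filter, mem_univ, true_and, mem_biUnion, mem_union] at hq ⊢
    obtain ⟨h, ⟨j, j', e⟩ | ⟨j, j', e⟩ | ⟨j, j', e⟩⟩ := hq
    · exact ⟨(j, j'), Or.inl (Or.inl ⟨h, e⟩)⟩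
    · exact ⟨(j, j'), Or.inl (Or.inr ⟨h, e⟩)⟩
    · exact ⟨(j, j'), Or.inr ⟨h, e⟩⟩
  refine (card_le_card hsub).trans (card_biUnion_le.trans ?_)
  refine (sum_le_card_nsmul _ _ (2 * (A * N₁) + Fintype.card P * N₂) fun jj _ => ?_).trans
    (by simp [sq])
  refine (card_union_le _ _).trans ((Nat.add_le_add_right (card_union_le _ _) _).trans ?_)
  have := a1 jj.1 jj.2
  have := a2 jj.1 jj.2
  have := a3 jj.1 jj.2
  omega

/-- The second-moment bound, summed over the fibres of `φ`. -/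
lemma col_moment (p : B → ℝ) (hp0 : ∀ b, 0 ≤ p b) (hp : ∑ b, p b = 1) (c : P → J → C)
    (t : J → B) (φ : P → Y) (N₁ N₂ A : ℕ)
    (h1 : ∀ y, #(univ.filter fun ρ => φ ρ = y) ≤ N₁)
    (h2 : ∀ j j', j ≠ j' → #(univ.filter fun ρ => c ρ j = c ρ j') ≤ A)
    (h3 : ∀ y j k, #(univ.filter fun ρ => φ ρ = y ∧ c ρ j = k) ≤ N₂) :
    ∑ ω : C → B, colW p ω *
      ∑ y, (∑ ρ ∈ univ.filter (fun ρ => φ ρ = y), (colInd (c ρ) t ω - ∏ j, p (t j))) ^ 2 ≤
      (Fintype.card J ^ 2 * (2 * (A * N₁) + Fintype.card P * N₂) : ℕ) := by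
  classical
  have e : ∀ f : P → ℝ, ∑ y, (∑ ρ ∈ univ.filter (fun ρ => φ ρ = y), f ρ) ^ 2 =
      ∑ q ∈ univ.filter (fun q : P × P => φ q.1 = φ q.2), f q.1 * f q.2 := by
    intro f
    rw [← Finset.sum_fiberwise _ (fun q : P × P => φ q.1)]
    refine sum_congr rfl fun y _ => ?_
    rw [sq, sum_mul_sum, ← sum_product']
    refine sum_congr ?_ fun _ _ => rfl
    ext q
    simp only [mem_product, mem_filter, mem_univ, true_and]
    constructor
    · rintro ⟨a, b⟩; exact ⟨a.trans b.symm, a⟩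
    · rintro ⟨a, b⟩; exact ⟨b, a.symm.trans b⟩
  simp only [e, mul_sum]
  rw [sum_comm]
  refine (sum_le_sum fun q _ => col_pair p hp0 hp (c q.1) (c q.2) t).trans ?_
  rw [sum_boole, filter_filter]
  exact_mod_cast col_bad_count c φ N₁ N₂ A h1 h2 h3

end Moment

section Rank

variable {P Y : Type} [DecidableEq Y]

/-- Rank of `ρ` inside its fibre. -/
def colRank (T : Finset P) (φ : P → Y) (e : P → ℕ) (ρ : P) : ℕ :=
  #(T.filter fun ρ' => φ ρ' = φ ρ ∧ e ρ' < e ρ)

lemma colRank_lt (T : Finset P) (φ : P → Y) (e : P → ℕ) {ρ ρ' : P} (h : ρ ∈ T)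
    (hφ : φ ρ = φ ρ') (he : e ρ < e ρ') : colRank T φ e ρ < colRank T φ e ρ' := by
  refine card_lt_card ⟨fun x hx => ?_, fun hs => ?_⟩
  · simp only [mem_filter] at hx ⊢
    exact ⟨hx.1, hx.2.1.trans hφ, hx.2.2.trans he⟩
  · have := hs (mem_filter.2 ⟨h, hφ, he⟩)
    simp at this

lemma colRank_inj (T : Finset P) (φ : P → Y) (e : P → ℕ) (he : Function.Injective e) {ρ ρ' : P}
    (h : ρ ∈ T) (h' : ρ' ∈ T) (hφ : φ ρ = φ ρ') (hr : colRank T φ e ρ = colRank T φ e ρ') :
    ρ = ρ' := by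
  rcases lt_trichotomy (e ρ) (e ρ') with h1 | h1 | h1
  · exact absurd hr (colRank_lt T φ e h hφ h1).ne
  · exact he h1
  · exact absurd hr (colRank_lt T φ e h' hφ.symm h1).ne'

lemma colRank_card (T : Finset P) (φ : P → Y) (e : P → ℕ) (he : Function.Injective e) (y : Y)
    (D : ℕ) : #(T.filter fun ρ => φ ρ = y ∧ D ≤ colRank T φ e ρ) ≤
      #(T.filter fun ρ => φ ρ = y) - D := by
  rw [← Nat.card_Ico]
  refine card_le_card_of_injOn (colRank T φ e) (fun ρ hρ => ?_) fun ρ hρ ρ' hρ' hr => ?_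
  · simp only [coe_filter, Set.mem_ofPred_eq, coe_Ico, Set.mem_Ico] at hρ ⊢
    refine ⟨hρ.2.2, card_lt_card ⟨fun x hx => ?_, fun hs => ?_⟩⟩
    · simp only [mem_filter] at hx ⊢
      exact ⟨hx.1, hx.2.1.trans hρ.2.1⟩
    · have := hs (mem_filter.2 ⟨hρ.1, hρ.2.1⟩)
      simp at this
  · simp only [coe_filter, Set.mem_ofPred_eq] at hρ hρ'
    exact colRank_inj T φ e he hρ.1 hρ'.1 (hρ.2.1.trans hρ'.2.1.symm) hr

end Rank

section Cells

variable {Q : ℕ} [NeZero Q]

/-- Distance to the ends of `0, …, Q - 1`. -/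
def colM (j : ZMod Q) : ℕ := min j.val (Q - 1 - j.val)

lemma colM_lt (j : ZMod Q) : colM j < Q := lt_of_le_of_lt (min_le_left _ _) j.val_lt

/-- The cell of `j`. -/
def colCell (R : ℕ) (j : ZMod Q) : Fin Q :=
  ⟨colM j / R, lt_of_le_of_lt (Nat.div_le_self _ _) (colM_lt j)⟩

lemma val_neg_one_sub (j : ZMod Q) : (-1 - j).val = Q - 1 - j.val := by
  have h := j.val_lt
  have : (-1 - j : ZMod Q) = ((Q - 1 - j.val : ℕ) : ZMod Q) := by
    rw [Nat.cast_sub (by omega), Nat.cast_sub (by omega)]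
    simp
  rw [this, ZMod.val_natCast, Nat.mod_eq_of_lt (by omega)]

lemma colM_symm (j : ZMod Q) : colM (-1 - j) = colM j := by
  have h := j.val_lt
  unfold colM
  rw [val_neg_one_sub]
  omega

lemma colCell_symm (R : ℕ) (j : ZMod Q) : colCell R (-1 - j) = colCell R j := by
  ext; simp [colCell, colM_symm]

lemma colM_inj {j j' : ZMod Q} (h : colM j = colM j')
    (h' : decide (j.val ≤ Q - 1 - j.val) = decide (j'.val ≤ Q - 1 - j'.val)) : j = j' := by
  have h1 := j.val_lt
  have h2 := j'.val_lt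
  apply ZMod.val_injective
  unfold colM at h
  simp only [decide_eq_decide] at h'
  omega

lemma card_colCell (R : ℕ) (hR : 0 < R) (k : Fin Q) :
    #(univ.filter fun j : ZMod Q => colCell R j = k) ≤ 2 * R := by
  have : #((range R) ×ˢ (univ : Finset Bool)) = 2 * R := by simp [mul_comm]
  rw [← this]
  refine card_le_card_of_injOn (fun j => (colM j % R, decide (j.val ≤ Q - 1 - j.val)))
    (fun j _ => mem_coe.2 (mem_product.2 ⟨mem_range.2 (Nat.mod_lt _ hR), mem_univ _⟩))
    fun j hj j' hj' e => ?_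
  simp only [coe_filter, mem_univ, true_and, Set.mem_ofPred_eq] at hj hj'
  simp only [Prod.mk.injEq] at e
  have h1 : colM j / R = colM j' / R := congrArg Fin.val (hj.trans hj'.symm)
  refine colM_inj ?_ e.2
  rw [← Nat.div_add_mod (colM j) R, ← Nat.div_add_mod (colM j') R, h1, e.1]

lemma card_dvd_colM (R : ℕ) :
    #(univ.filter fun j : ZMod Q => R ∣ colM j) ≤ 2 * (Q / R + 1) := by
  have : #((range (Q / R + 1)) ×ˢ (univ : Finset Bool)) = 2 * (Q / R + 1) := by simp [mul_comm]
  rw [← this]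
  refine card_le_card_of_injOn (fun j => (colM j / R, decide (j.val ≤ Q - 1 - j.val)))
    (fun j _ => ?_) fun j hj j' hj' e => ?_
  · have := Nat.div_le_div_right (c := R) (colM_lt j).le
    exact mem_coe.2 (mem_product.2 ⟨mem_range.2 (Nat.lt_succ_of_le this), mem_univ _⟩)
  simp only [coe_filter, mem_univ, true_and, Set.mem_ofPred_eq] at hj hj'
  simp only [Prod.mk.injEq] at e
  refine colM_inj ?_ e.2
  rw [← Nat.mul_div_cancel' hj, ← Nat.mul_div_cancel' hj', e.1]

lemma colM_succ (j : ZMod Q) :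
    colM (j + 1) = colM j ∨ colM (j + 1) = colM j + 1 ∨ colM j = colM (j + 1) + 1 := by
  have h := j.val_lt
  have e : (j + 1).val = (j.val + 1) % Q := by
    conv_lhs => rw [← ZMod.natCast_zmod_val j, ← Nat.cast_succ, ZMod.val_natCast]
  unfold colM
  rw [e]
  rcases Nat.lt_or_ge (j.val + 1) Q with h1 | h1
  · rw [Nat.mod_eq_of_lt h1]; omega
  · rw [show j.val + 1 = Q by omega, Nat.mod_self]; omega

lemma colCell_ne (R : ℕ) (j : ZMod Q) (h : colCell R (j + 1) ≠ colCell R j) :
    R ∣ colM j ∨ R ∣ colM (j + 1) := by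
  have h' : colM (j + 1) / R ≠ colM j / R := fun e => h (Fin.ext e)
  rcases colM_succ j with e | e | e
  · exact absurd (by rw [e]) h'
  · right
    by_contra hd
    rw [e] at h' hd
    exact h' (Nat.succ_div_of_not_dvd hd)
  · left
    by_contra hd
    rw [e] at h' hd
    exact h' (Nat.succ_div_of_not_dvd hd).symm

lemma card_boundary (R M : ℕ) :
    #(univ.filter fun x : ZMod Q => ∃ o < M, colCell R (x + ((o : ℕ) : ZMod Q)) ≠ colCell R x) ≤
      M * (2 * (Q / R + 1)) := by
  have hsub : (univ.filter fun x : ZMod Q => ∃ o < M, colCell R (x + ((o : ℕ) : ZMod Q)) ≠ colCell R x) ⊆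
      (range M).biUnion fun o => univ.filter fun x : ZMod Q => R ∣ colM (x + ((o : ℕ) : ZMod Q)) := by
    intro x hx
    simp only [mem_filter, mem_univ, true_and, mem_biUnion, mem_range] at hx ⊢
    obtain ⟨o, ho, hx⟩ := hx
    induction o with
    | zero => simp at hx
    | succ o ih =>
      by_cases h : colCell R (x + ((o : ℕ) : ZMod Q)) = colCell R x
      · rw [Nat.cast_succ, ← add_assoc, ← h] at hx
        rcases colCell_ne R _ hx with h1 | h1
        · exact ⟨o, by omega, h1⟩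
        · exact ⟨o + 1, ho, by rwa [Nat.cast_succ, ← add_assoc]⟩
      · exact ih (by omega) h
  refine (card_le_card hsub).trans (card_biUnion_le.trans ?_)
  refine (sum_le_card_nsmul _ _ (2 * (Q / R + 1)) fun o _ => ?_).trans (by simp)
  refine le_trans (card_le_card_of_injOn (fun x => x + ((o : ℕ) : ZMod Q)) (fun x hx => ?_)
    (add_left_injective _).injOn) (card_dvd_colM (Q := Q) R)
  simpa using hx

end Cells

end Crest.Agent.R075
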