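import Crest.Agent.R075.ColourMoment

/-! Choice of a good colouring and pruning of the valid pieces. -/

set_option autoImplicit false

namespace Crest.Agent.R075

open Finset

lemma col_sum_ind {C B P J : Type} [DecidableEq B] [Fintype J] (c : P → J → C) (t : J → B)
    (ω : C → B) (S : Finset P) (π : ℝ) [DecidablePred fun ρ => ∀ j, ω (c ρ j) = t j] :
    ∑ ρ ∈ S, (colInd (c ρ) t ω - π) = #(S.filter fun ρ => ∀ j, ω (c ρ j) = t j) - π * #S := by
  classical
  simp only [colInd_eq, sum_sub_distrib, sum_const, nsmul_eq_mul, mul_comm π]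
  rw [← sum_boole]
  congr 1
  exact sum_congr rfl fun _ _ => by congr

lemma col_exists {C B P Y : Type} [Fintype C] [DecidableEq C] [Fintype B] [DecidableEq B]
    [Fintype P] [Fintype Y] [DecidableEq Y]
    (p : B → ℝ) (hp0 : ∀ b, 0 < p b) (hp : ∑ b, p b = 1) (c : P → B → C) (l : B → P → Y)
    (Q R : ℕ) (hY : Fintype.card Y = Q) (hP : Fintype.card P = Q ^ 2)
    (h1 : ∀ b y, #(univ.filter fun ρ => l b ρ = y) ≤ Q)
    (h2 : ∀ j j', j ≠ j' → #(univ.filter fun ρ => c ρ j = c ρ j') ≤ R * Q)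
    (h3 : ∀ j k, #(univ.filter fun ρ => c ρ j = k) ≤ R * Q)
    (h4 : ∀ b y j k, j ≠ b → #(univ.filter fun ρ => l b ρ = y ∧ c ρ j = k) ≤ R)
    (E : ℝ) (hE0 : 0 ≤ E)
    (hE : 3 * (Fintype.card B + 1) * Fintype.card B ^ 2 * R * Q ^ 3 ≤ E ^ 2) :
    ∃ ω : C → B,
      |(#(univ.filter fun ρ => ∀ j, ω (c ρ j) = j) : ℝ) - (∏ j, p j) * Q ^ 2| ≤ E ∧
      ∀ b, ∑ y, |(#(univ.filter fun ρ => l b ρ = y ∧ ∀ j, j ≠ b → ω (c ρ j) = j) : ℝ) -
        (∏ j ∈ univ.erase b, p j) * #(univ.filter fun ρ => l b ρ = y)| ≤ E := by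
  classical
  set n := Fintype.card B with hn
  let F : (C → B) → ℝ := fun ω =>
    ((#(univ.filter fun ρ => ∀ j, ω (c ρ j) = j) : ℝ) - (∏ j, p j) * Q ^ 2) ^ 2
  let G : B → (C → B) → ℝ := fun b ω => ∑ y,
    ((#(univ.filter fun ρ => l b ρ = y ∧ ∀ j, j ≠ b → ω (c ρ j) = j) : ℝ) -
        (∏ j ∈ univ.erase b, p j) * #(univ.filter fun ρ => l b ρ = y)) ^ 2
  have hF : ∑ ω, colW p ω * F ω ≤ 3 * n ^ 2 * R * Q ^ 3 := by
    have := col_moment p (fun b => (hp0 b).le) hp c id (fun _ => ()) (Q ^ 2) (R * Q) (R * Q)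
      (fun _ => by rw [← hP]; exact card_le_univ _) h2 (fun _ j k => by simpa using h3 j k)
    refine le_trans (le_of_eq (sum_congr rfl fun ω _ => ?_)) (this.trans (le_of_eq ?_))
    · simp only [F, univ_unique, sum_singleton, col_sum_ind]
      simp [hP]
    · rw [hP]; push_cast; ring
  have hG : ∀ b, ∑ ω, colW p ω * G b ω ≤ 3 * n ^ 2 * R * Q ^ 2 := by
    intro b
    have := col_moment p (fun b => (hp0 b).le) hp (fun ρ (j : {j // j ≠ b}) => c ρ j) Subtype.val
      (l b) Q R (R * Q) (h1 b) (fun j j' h => h2 j j' fun e => h (Subtype.ext e))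
      (fun y j k => h4 b y j k j.2)
    refine le_trans (le_of_eq (sum_congr rfl fun ω _ => ?_)) (this.trans ?_)
    · simp only [G, col_sum_ind, filter_filter]
      rw [prod_subtype (F := inferInstance) (univ.erase b) (p := fun j => j ≠ b) (by simp) p]
      simp
    · rw [hP]
      have h : (Fintype.card {j // j ≠ b} : ℝ) ≤ n := by
        exact_mod_cast Fintype.card_subtype_le _
      push_cast
      calc _ = (Fintype.card {j // j ≠ b} : ℝ) ^ 2 * (3 * R * Q ^ 2) := by ring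
        _ ≤ n ^ 2 * (3 * R * Q ^ 2) := by gcongr
        _ = _ := by ring
  have hT : ∑ ω, colW p ω * (F ω + Q * ∑ b, G b ω) ≤ ∑ ω : C → B, colW p ω * E ^ 2 := by
    rw [← sum_mul, colW_sum p hp, one_mul]
    have e : ∑ ω, colW p ω * (F ω + Q * ∑ b, G b ω) =
        ∑ ω, colW p ω * F ω + Q * ∑ b, ∑ ω, colW p ω * G b ω := by
      rw [sum_comm, mul_sum, ← sum_add_distrib]
      refine sum_congr rfl fun ω _ => ?_
      rw [← mul_sum]; ring
    have h : ∑ b, ∑ ω, colW p ω * G b ω ≤ n * (3 * n ^ 2 * R * Q ^ 2) := by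
      refine (sum_le_card_nsmul _ _ _ fun b _ => hG b).trans (le_of_eq ?_)
      simp [hn]
    rw [e]
    refine le_trans ?_ hE
    have := mul_le_mul_of_nonneg_left h (Nat.cast_nonneg (α := ℝ) Q)
    nlinarith
  have hB : Nonempty B := by
    by_contra h
    rw [not_nonempty_iff] at h
    simp at hp
  obtain ⟨ω, -, hω⟩ := exists_le_of_sum_le univ_nonempty hT
  have hw : 0 < colW p ω := prod_pos fun _ _ => hp0 _
  have hω' := le_of_mul_le_mul_left hω hw
  have hG0 : ∀ b, 0 ≤ G b ω := fun b => sum_nonneg fun _ _ => sq_nonneg _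
  have hF0 : 0 ≤ F ω := sq_nonneg _
  have hS : 0 ≤ (Q : ℝ) * ∑ b, G b ω := mul_nonneg (Nat.cast_nonneg _) (sum_nonneg fun b _ => hG0 b)
  refine ⟨ω, abs_le_of_sq_le_sq (show F ω ≤ E ^ 2 by linarith) hE0, fun b => ?_⟩
  refine le_of_sq_le_sq ?_ hE0
  refine (sq_sum_le_card_mul_sum_sq).trans ?_
  simp only [sq_abs, card_univ, hY]
  have : (Q : ℝ) * G b ω ≤ Q * ∑ b, G b ω :=
    mul_le_mul_of_nonneg_left (single_le_sum (fun b _ => hG0 b) (mem_univ b)) (Nat.cast_nonneg _)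
  change (Q : ℝ) * G b ω ≤ _
  linarith

lemma col_prune {B P Y : Type} [Fintype B] [Fintype Y] [DecidableEq Y] (l : B → P → Y)
    (V : Finset P) (W : B → Finset P) (hW : ∀ b, V ⊆ W b) (D : B → ℕ) (e : P → ℕ)
    (he : Function.Injective e) [DecidablePred fun ρ => ∀ b, colRank V (l b) e ρ < D b] :
    #V ≤ #(V.filter fun ρ => ∀ b, colRank V (l b) e ρ < D b) +
      ∑ b, ∑ y, (#((W b).filter fun ρ => l b ρ = y) - D b) := by
  classical
  rw [← card_filter_add_card_filter_not (s := V) fun ρ => ∀ b, colRank V (l b) e ρ < D b]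
  refine Nat.add_le_add_left ?_ _
  have hsub : (V.filter fun ρ => ¬ ∀ b, colRank V (l b) e ρ < D b) ⊆
      univ.biUnion fun b => univ.biUnion fun y =>
        V.filter fun ρ => l b ρ = y ∧ D b ≤ colRank V (l b) e ρ := by
    intro ρ hρ
    simp only [mem_filter, not_forall, not_lt, mem_biUnion, mem_univ, true_and] at hρ ⊢
    obtain ⟨h, b, hb⟩ := hρ
    exact ⟨b, _, h, rfl, hb⟩
  refine (card_le_card hsub).trans (card_biUnion_le.trans (sum_le_sum fun b _ =>
    card_biUnion_le.trans (sum_le_sum fun y _ => (colRank_card V (l b) e he y (D b)).trans ?_)))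
  exact Nat.sub_le_sub_right (card_le_card (filter_subset_filter _ (hW b))) _

lemma col_main {C B P Y : Type} [Fintype C] [DecidableEq C] [Fintype B] [DecidableEq B]
    [Fintype P] [Fintype Y] [DecidableEq Y]
    (p : B → ℝ) (hp0 : ∀ b, 0 < p b) (hp : ∑ b, p b = 1) (cell : Y → C) (l : B → P → Y)
    (Q R : ℕ) (hY : Fintype.card Y = Q) (hP : Fintype.card P = Q ^ 2)
    (h1 : ∀ b y, #(univ.filter fun ρ => l b ρ = y) ≤ Q)
    (h2 : ∀ b j, j ≠ b → ∀ ρ ρ', l b ρ = l b ρ' → l j ρ = l j ρ' → ρ = ρ')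
    (h3 : ∀ k, #(univ.filter fun y => cell y = k) ≤ R) (X : Finset Y)
    (E : ℝ) (hE0 : 0 ≤ E)
    (hE : 3 * (Fintype.card B + 1) * Fintype.card B ^ 2 * R * Q ^ 3 ≤ E ^ 2) :
    ∃ (ω : C → B) (I : Finset P) (idx : B → P → ℕ),
      (∀ ρ ∈ I, ∀ b, ω (cell (l b ρ)) = b ∧ l b ρ ∉ X ∧
        idx b ρ < ⌈(∏ j ∈ univ.erase b, p j) * Q⌉₊) ∧
      (∀ b, ∀ ρ ∈ I, ∀ ρ' ∈ I, l b ρ = l b ρ' → idx b ρ = idx b ρ' → ρ = ρ') ∧
      |(#I : ℝ) - (∏ j, p j) * Q ^ 2| ≤
        (Fintype.card B + 1) * E + Fintype.card B * (#X * Q) := by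
  classical
  have a0 : ∀ b (T : Finset Y), #(univ.filter fun ρ => l b ρ ∈ T) ≤ #T * Q := by
    intro b T
    refine (card_le_mul_card_image_of_maps_to (f := l b) (t := T)
      (fun ρ h => (mem_filter.1 h).2) Q fun y _ => ?_).trans (by rw [mul_comm])
    exact le_trans (card_le_card fun ρ h => by simpa using (mem_filter.1 h).2) (h1 b y)
  have a4 : ∀ b y j k, j ≠ b → #(univ.filter fun ρ => l b ρ = y ∧ cell (l j ρ) = k) ≤ R := by
    intro b y j k hj
    refine le_trans (card_le_card_of_injOn (l j) (fun ρ h => ?_) fun ρ h ρ' h' e => ?_) (h3 k)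
    · simp only [coe_filter, mem_univ, true_and, Set.mem_ofPred_eq] at h ⊢
      exact h.2
    · simp only [coe_filter, mem_univ, true_and, Set.mem_ofPred_eq] at h h'
      exact h2 b j hj ρ ρ' (h.1.trans h'.1.symm) e
  have a3 : ∀ j k, #(univ.filter fun ρ => cell (l j ρ) = k) ≤ R * Q := by
    intro j k
    have := a0 j (univ.filter fun y => cell y = k)
    simp only [mem_filter, mem_univ, true_and] at this
    exact this.trans (Nat.mul_le_mul_right _ (h3 k))
  have a2 : ∀ j j', j ≠ j' → #(univ.filter fun ρ => cell (l j ρ) = cell (l j' ρ)) ≤ R * Q := by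
    intro j j' hj
    refine (card_le_mul_card_image_of_maps_to (f := l j') (t := univ)
      (fun ρ _ => mem_univ _) R fun y _ => ?_).trans (by rw [card_univ, hY])
    refine le_trans (card_le_card fun ρ h => ?_) (a4 j' y j (cell y) hj)
    simp only [mem_filter, mem_univ, true_and] at h ⊢
    exact ⟨h.2, by rw [h.1, h.2]⟩
  obtain ⟨ω, hω1, hω2⟩ := col_exists p hp0 hp (fun ρ j => cell (l j ρ)) l Q R hY hP h1 a2 a3 a4 E
    hE0 hE
  set e : P → ℕ := fun ρ => (Fintype.equivFin P ρ).val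
  have he : Function.Injective e := Fin.val_injective.comp (Fintype.equivFin P).injective
  set D : B → ℕ := fun b => ⌈(∏ j ∈ univ.erase b, p j) * Q⌉₊ with hD
  set V : Finset P := univ.filter fun ρ => ∀ j, ω (cell (l j ρ)) = j with hV
  set V₀ : Finset P := V.filter fun ρ => ∀ b, l b ρ ∉ X with hV₀
  set W : B → Finset P := fun b => univ.filter fun ρ => ∀ j, j ≠ b → ω (cell (l j ρ)) = j with hW
  have hVW : ∀ b, V₀ ⊆ W b := fun b ρ h => by
    simp only [hV₀, hV, hW, mem_filter, mem_univ, true_and] at h ⊢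
    exact fun j _ => h.1 j
  have b1 := col_prune l V₀ W hVW D e he
  set I := V₀.filter fun ρ => ∀ b, colRank V₀ (l b) e ρ < D b with hI
  have b2 : #V ≤ #V₀ + Fintype.card B * (#X * Q) := by
    rw [← card_filter_add_card_filter_not (s := V) fun ρ => ∀ b, l b ρ ∉ X]
    refine Nat.add_le_add_left ?_ _
    have hsub : (V.filter fun ρ => ¬ ∀ b, l b ρ ∉ X) ⊆
        univ.biUnion fun b => univ.filter fun ρ => l b ρ ∈ X := by
      intro ρ hρ
      simp only [mem_filter, not_forall, not_not, mem_biUnion, mem_univ, true_and] at hρ ⊢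
      exact hρ.2
    refine (card_le_card hsub).trans (card_biUnion_le.trans ?_)
    exact (sum_le_card_nsmul _ _ _ fun b _ => a0 b X).trans (by simp)
  have b3 : #I ≤ #V := card_le_card ((filter_subset _ _).trans (filter_subset _ _))
  have b4 : ((∑ b, ∑ y, (#((W b).filter fun ρ => l b ρ = y) - D b) : ℕ) : ℝ) ≤
      Fintype.card B * E := by
    push_cast
    refine (sum_le_card_nsmul _ _ E fun b _ => le_trans (sum_le_sum fun y _ => ?_) (hω2 b)).trans
      (by simp)
    have e1 : ((W b).filter fun ρ => l b ρ = y) =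
        univ.filter fun ρ => l b ρ = y ∧ ∀ j, j ≠ b → ω (cell (l j ρ)) = j := by
      ext ρ; simp [hW, and_comm]
    rw [e1]
    have hπ : 0 ≤ ∏ j ∈ univ.erase b, p j := prod_nonneg fun j _ => (hp0 j).le
    have e2 : (∏ j ∈ univ.erase b, p j) * #(univ.filter fun ρ => l b ρ = y) ≤ D b :=
      le_trans (mul_le_mul_of_nonneg_left (by exact_mod_cast h1 b y) hπ) (Nat.le_ceil _)
    rcases le_total #(univ.filter fun ρ => l b ρ = y ∧ ∀ j, j ≠ b → ω (cell (l j ρ)) = j) (D b)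
      with h | h
    · rw [Nat.sub_eq_zero_of_le h]; simp
    · rw [Nat.cast_sub h]
      exact le_trans (by linarith) (le_abs_self _)
  refine ⟨ω, I, fun b => colRank V₀ (l b) e, fun ρ h b => ?_, fun b ρ h ρ' h' => ?_, ?_⟩
  · simp only [hI, hV₀, hV, mem_filter, mem_univ, true_and] at h
    exact ⟨h.1.1 b, h.1.2 b, h.2 b⟩
  · exact colRank_inj V₀ (l b) e he (mem_filter.1 h).1 (mem_filter.1 h').1
  · have c1 : (#V₀ : ℝ) ≤ #I +
        ((∑ b, ∑ y, (#((W b).filter fun ρ => l b ρ = y) - D b) : ℕ) : ℝ) := by exact_mod_cast b1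
    have c2 : (#V : ℝ) ≤ #V₀ + Fintype.card B * (#X * Q) := by exact_mod_cast b2
    have c3 : (#I : ℝ) ≤ #V := by exact_mod_cast b3
    have c4 : (0 : ℝ) ≤ Fintype.card B * (#X * Q) := by positivity
    have c5 : (0 : ℝ) ≤ Fintype.card B * E := by positivity
    rw [abs_le] at hω1 ⊢
    constructor <;> nlinarith [hω1.1, hω1.2]

end Crest.Agent.R075
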