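import Crest.Agent.R075.Seg
import Crest.Agent.R075.Assembly

/-! The coefficient sequence attached to a tiling of the circle by segments. -/

set_option autoImplicit false

namespace Crest.Agent.R075

open Real intervalIntegral Crest.Agent.R210 ComplexConjugate Finset Filter Topology

variable {η Λ ζ K : ℝ} {S σ σ₁ σ₂ : ℝ → ℝ}

theorem core (h : Profile η Λ ζ K S σ σ₁ σ₂) (hη : 0 < η) {𝔅 : Type*} [Fintype 𝔅] (n : ℕ)
    (hn : 0 < n) (A B : 𝔅 → ℕ) (hAB : ∀ b, A b ≤ B b) (hB : ∀ b, B b ≤ n)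
    (hpart : ∀ j < n, ∑ b, ((if A b ≤ j ∧ j < B b then 1 else 0 : ℕ) +
      (if A b ≤ n - 1 - j ∧ n - 1 - j < B b then 1 else 0 : ℕ)) = 1)
    (l m ya yb c : 𝔅 → ℝ) (hl : ∀ b, 0 < l b) (hm : ∀ b, 0 < m b) (ha : ∀ b, η ≤ ya b)
    (hab : ∀ b, ya b < yb b) (hb : ∀ b, yb b ≤ 1 - 2 * η)
    (hlen : ∀ b, (B b : ℝ) / n = A b / n + l b + m b + l b) (τ : ℝ) (hτ : 0 < τ) :
    ∀ᶠ N : ℕ in atTop, ∃ (a : Fin N → ℝ) (k : Fin N → ℤ),
      (∀ j, |a j - ∑ b, 2 * ((√N : ℝ) * (m b * ee (c b - k j * (A b / n + l b)) *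
        JJ S (N * m b * (yb b - ya b)) ((k j / N - ya b) / (yb b - ya b)))).re| ≤
          ∑ b, 32 * √(l b / η)) ∧
      ∀ θ ∈ Set.Ico (0 : ℝ) 1, |‖∑ j : Fin N, (a j : ℂ) * ee ((j : ℕ) * θ)‖ - √N| ≤ τ * √N := by
  choose C hC using fun b => seg_tail h hη (A b / n) (l b) (m b) (ya b) (yb b) (c b) (hl b) (hm b)
    (ha b) (hab b) (hb b)
  set Ct : ℝ := ∑ b, 2 * |C b| with hCt
  have Ct0 : 0 ≤ Ct := sum_nonneg fun b _ => by positivity
  have ev1 : ∀ᶠ N : ℕ in atTop, ∀ b, 12 ≤ (N : ℝ) * l b * η := by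
    refine eventually_all.2 fun b => ?_
    exact ((tendsto_natCast_atTop_atTop.atTop_mul_const (hl b)).atTop_mul_const hη).eventually_ge_atTop 12
  have ev2 : ∀ᶠ N : ℕ in atTop, Ct * ∑' k : ℤ, 1 / ((N : ℝ) + |(k : ℝ)|) ^ 2 < τ := by
    have := tail_tendsto.const_mul Ct
    rw [mul_zero] at this
    exact this.eventually (gt_mem_nhds hτ)
  filter_upwards [ev1, ev2, eventually_ge_atTop 1] with N h1 h2 hN
  have N1 : (1 : ℝ) ≤ N := by exact_mod_cast hN
  have N0 : (0 : ℝ) < N := by linarith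
  set w : 𝔅 → ℝ → ℂ := fun b θ => ee (seg S N (A b / n) (l b) (m b) (ya b) (yb b) (c b) θ) with hw
  have wc : ∀ b, Continuous (w b) := fun b => continuous_ee.comp (seg_continuous h.ph.c₀ _ _ _ _ _ _ _)
  have w0 : ∀ b θ, θ ≤ (A b : ℝ) / n → w b θ = 1 := fun b θ hθ => seg_left h.S0 (hl b) (hm b) hθ
  have w1 : ∀ b θ, (B b : ℝ) / n ≤ θ → w b θ = 1 := fun b θ hθ =>
    seg_right (hl b) (hm b) (by rwa [← hlen b])
  have asm : ∀ k : ℤ, ∫ θ in (0 : ℝ)..1, glue w θ * ee (-(k * θ)) =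
      ((∑ b, 2 * (∫ θ in (A b : ℝ) / n..A b / n + l b + m b + l b,
        ee (seg S N (A b / n) (l b) (m b) (ya b) (yb b) (c b) θ - k * θ)).re : ℝ) : ℂ) := by
    intro k
    rw [assembly n hn A B hAB hB hpart w wc w0 w1 k]
    simp only [hlen, hw, ← ee_add, sub_eq_add_neg]
  have asm0 : ∀ k : ℤ, k ≠ 0 → ∑ b, 2 * (∫ θ in (A b : ℝ) / n..A b / n + l b + m b + l b,
      ee (-(k * θ))).re = 0 := by
    intro k hk
    have := assembly n hn A B hAB hB hpart (fun _ _ => 1) (fun _ => continuous_const)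
      (fun _ _ _ => rfl) (fun _ _ _ => rfl) k
    have e := integral_ee_int (-k)
    rw [if_neg (neg_ne_zero.2 hk)] at e
    simp only [glue, map_one, mul_one, prod_const_one, one_mul, hlen] at this
    simp only [Int.cast_neg, neg_mul] at e
    rw [e] at this
    exact_mod_cast this.symm
  set k₀ : ℕ := ⌊η * N⌋₊ with hk₀
  have k1 : (k₀ : ℝ) ≤ η * N := Nat.floor_le (by positivity)
  have k2 : η * N < k₀ + 1 := Nat.lt_floor_add_one _
  have n0 : (0 : ℝ) < n := by exact_mod_cast hn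
  have g01 : glue w 0 = glue w 1 := by
    have a0 : ∀ b, w b 0 = 1 := fun b => w0 b 0 (by positivity)
    have a1 : ∀ b, w b 1 = 1 := fun b => w1 b 1 (by
      rw [div_le_one n0]; exact_mod_cast hB b)
    simp [glue, a0, a1]
  have win := fourier_window (glue w) (glue_continuous wc) g01 N k₀
    (fun k => Ct * (1 / ((N : ℝ) + |(k : ℝ)|) ^ 2)) ((tail_summable N1).mul_left Ct)
    (fun k => by positivity) (fun k hk => by
      have η1 := h.η1
      have hk' : (k : ℝ) ≤ -(η * N) ∨ (1 - η) * N ≤ k := by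
        rcases hk with hk | hk
        · left
          have : (k : ℝ) + 1 ≤ -(k₀ : ℝ) := by exact_mod_cast hk
          linarith
        · right
          have : (N : ℝ) - k₀ ≤ k := by exact_mod_cast hk
          linarith
      have k0 : k ≠ 0 := by
        rintro rfl
        rcases hk' with hk' | hk' <;> simp only [Int.cast_zero] at hk' <;> nlinarith
      rw [asm k, Complex.norm_real, Real.norm_eq_abs, ← sub_zero (∑ b, _), ← asm0 k k0,
        ← sum_sub_distrib, hCt, sum_mul]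
      refine (abs_sum_le_sum_abs _ _).trans (sum_le_sum fun b _ => ?_)
      rw [← mul_sub, ← Complex.sub_re, abs_mul, abs_two, mul_assoc]
      refine mul_le_mul_of_nonneg_left ((Complex.abs_re_le_norm _).trans
        ((hC b N N1 (by linarith [h1 b]) k hk').trans ?_)) zero_le_two
      rw [mul_one_div]
      gcongr
      exact le_abs_self _)
  refine ⟨fun j => √N * ∑ b, 2 * (∫ θ in (A b : ℝ) / n..A b / n + l b + m b + l b,
      ee (seg S N (A b / n) (l b) (m b) (ya b) (yb b) (c b) θ -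
        (((j : ℕ) : ℤ) - k₀ : ℤ) * θ)).re, fun j => ((j : ℕ) : ℤ) - k₀, fun j => ?_,
    fun θ hθ => ?_⟩
  · beta_reduce
    rw [mul_sum, ← sum_sub_distrib]
    refine (abs_sum_le_sum_abs _ _).trans (sum_le_sum fun b _ => ?_)
    have := seg_main h hη (A := A b / n) (c := c b) N0 (hl b) (hm b) (ha b) (hab b) (h1 b)
      (((j : ℕ) : ℤ) - k₀ : ℤ)
    rw [Complex.re_ofReal_mul, mul_left_comm, ← mul_sub, ← mul_sub, ← Complex.sub_re, abs_mul,
      abs_two, abs_mul, abs_of_nonneg (sqrt_nonneg _)]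
    have h3 := mul_le_mul_of_nonneg_left (Complex.abs_re_le_norm
      ((∫ θ in (A b : ℝ) / n..A b / n + l b + m b + l b,
        ee (seg S N (A b / n) (l b) (m b) (ya b) (yb b) (c b) θ - (((j : ℕ) : ℤ) - k₀ : ℤ) * θ)) -
        m b * ee (c b - (((j : ℕ) : ℤ) - k₀ : ℤ) * (A b / n + l b)) * JJ S (N * m b * (yb b - ya b))
        (((((j : ℕ) : ℤ) - k₀ : ℤ) / N - ya b) / (yb b - ya b)))) (sqrt_nonneg (N : ℝ))
    linarith
  · have H := win θ hθ
    rw [tsum_mul_left] at H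
    simp only [asm] at H
    set P := ∑ j : Fin N, ((∑ b, 2 * (∫ θ in (A b : ℝ) / n..A b / n + l b + m b + l b,
      ee (seg S N (A b / n) (l b) (m b) (ya b) (yb b) (c b) θ -
        (((j : ℕ) : ℤ) - k₀ : ℤ) * θ)).re : ℝ) : ℂ) * ee ((((j : ℕ) : ℤ) - k₀ : ℤ) * θ) with hP
    have e : ∑ j : Fin N, ((√N * ∑ b, 2 * (∫ θ in (A b : ℝ) / n..A b / n + l b + m b + l b,
        ee (seg S N (A b / n) (l b) (m b) (ya b) (yb b) (c b) θ -
          (((j : ℕ) : ℤ) - k₀ : ℤ) * θ)).re : ℝ) : ℂ) * ee ((j : ℕ) * θ) =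
        (√N : ℝ) * ee (k₀ * θ) * P := by
      rw [hP, mul_sum]
      refine sum_congr rfl fun j _ => ?_
      rw [show ((j : ℕ) : ℝ) * θ = k₀ * θ + (((j : ℕ) : ℤ) - k₀ : ℤ) * θ by push_cast; ring, ee_add,
        Complex.ofReal_mul]
      ring
    rw [e, norm_mul, norm_mul, norm_ee, mul_one, Complex.norm_real,
      Real.norm_of_nonneg (sqrt_nonneg _), ← mul_sub_one, abs_mul, abs_of_nonneg (sqrt_nonneg _),
      mul_comm τ]
    refine mul_le_mul_of_nonneg_left ?_ (sqrt_nonneg _)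
    have := abs_norm_sub_norm_le P (glue w θ)
    rw [norm_glue (fun b θ => norm_ee _), norm_sub_rev] at this
    linarith

end Crest.Agent.R075
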