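import Crest.Agent.R210.Char
import Crest.Agent.R075.Colour

/-! Gauss-sum spreading: the tiling of `ℤ/W` by lines. -/

set_option autoImplicit false

namespace Crest.Agent.R075

open Finset Crest.Agent.R210

lemma design_ee_chi (n : ℕ) [NeZero n] (m : ℤ) :
    ee (m / n) = ZMod.stdAddChar (m : ZMod n) := by
  rw [ZMod.stdAddChar_coe, ee]
  congr 1
  push_cast
  ring

lemma design_sum_fin (n : ℕ) [NeZero n] (f : ZMod n → ℂ) :
    ∑ j : Fin n, f ((j : ℕ) : ZMod n) = ∑ z : ZMod n, f z := by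
  cases n with
  | zero => exact absurd rfl (NeZero.ne 0)
  | succ m =>
    exact Finset.sum_congr rfl fun j _ => congrArg f (ZMod.natCast_zmod_val (n := m + 1) j)

lemma design_gauss (n : ℕ) (hn : Odd n) (A : ℤ) (hA : IsCoprime A n) :
    ∃ g : Fin n → ℂ, (∀ j, ‖g j‖ = 1) ∧ ∀ k : ℤ,
      ∑ j : Fin n, g j * ee (-(k * (j : ℕ) / n)) = (√n : ℝ) * ee (A * k ^ 2 / n) := by
  haveI : NeZero n := ⟨hn.pos.ne'⟩
  set χ := ZMod.stdAddChar (N := n) with hχ
  have hprim : χ.IsPrimitive := ZMod.isPrimitive_stdAddChar n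
  have hn0 : (0 : ℝ) < n := by exact_mod_cast hn.pos
  have hs0 : (0 : ℝ) < √n := Real.sqrt_pos.2 hn0
  have hsq : ((√n : ℝ) : ℂ) * ((√n : ℝ) : ℂ) = n := by
    rw [← Complex.ofReal_mul, Real.mul_self_sqrt hn0.le]; simp
  have hsc : ((√n : ℝ) : ℂ) ≠ 0 := by exact_mod_cast hs0.ne'
  let G : ZMod n → ℂ := fun j => ∑ x : ZMod n, χ (A * x ^ 2 + j * x)
  have hu : IsUnit ((2 : ZMod n) * A) := by
    refine IsUnit.mul ?_ ?_
    · have : IsUnit ((2 : ℕ) : ZMod n) :=
        (ZMod.isUnit_iff_coprime 2 n).2 (Nat.coprime_two_left.2 hn)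
      simpa using this
    · exact (ZMod.coe_int_isUnit_iff_isCoprime A n).2 hA.symm
  have hG : ∀ j, G j * (starRingEnd ℂ) (G j) = n := by
    intro j
    have e1 : (starRingEnd ℂ) (G j) = ∑ y : ZMod n, χ (-(A * y ^ 2 + j * y)) := by
      simp only [G, map_sum]
      refine Finset.sum_congr rfl fun y _ => ?_
      rw [AddChar.map_neg_eq_conj]
    rw [e1, Finset.mul_sum]
    have e2 : ∀ y : ZMod n, G j * χ (-(A * y ^ 2 + j * y))
        = ∑ h : ZMod n, χ (A * h ^ 2 + j * h) * χ (y * (2 * A * h)) := by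
      intro y
      simp only [G]
      rw [Finset.sum_mul, ← Equiv.sum_comp (Equiv.addLeft y)]
      refine Finset.sum_congr rfl fun h _ => ?_
      rw [← AddChar.map_add_eq_mul, ← AddChar.map_add_eq_mul]
      congr 1
      simp only [Equiv.coe_addLeft]
      ring
    simp_rw [e2]
    rw [Finset.sum_comm]
    simp_rw [← Finset.mul_sum, AddChar.sum_mulShift _ hprim, hu.mul_right_eq_zero]
    rw [Finset.sum_eq_single 0]
    · simp
    · intro h _ hh; simp [hh]
    · simp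
  refine ⟨fun j => ((√n : ℝ) : ℂ)⁻¹ * G ((j : ℕ) : ZMod n), fun j => ?_, fun k => ?_⟩
  · have h1 : ‖G ((j : ℕ) : ZMod n)‖ ^ 2 = n := by
      have := congrArg norm (hG ((j : ℕ) : ZMod n))
      rw [norm_mul, Complex.norm_conj, Complex.norm_natCast] at this
      rw [sq, this]
    have h2 : ‖G ((j : ℕ) : ZMod n)‖ = √n := by
      rw [← h1, Real.sqrt_sq (norm_nonneg _)]
    rw [norm_mul, norm_inv, h2, Complex.norm_real, Real.norm_eq_abs, abs_of_pos hs0,
      inv_mul_cancel₀ hs0.ne']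
  · have e1 : ∀ j : Fin n, ee (-(k * (j : ℕ) / n)) = χ (-(k * ((j : ℕ) : ZMod n))) := by
      intro j
      have := design_ee_chi n (-(k * (j : ℕ)))
      push_cast at this
      rw [← this, neg_div]
    have e2 : ee (A * k ^ 2 / n) = χ (A * k ^ 2) := by
      have := design_ee_chi n (A * k ^ 2)
      push_cast at this
      exact this
    simp_rw [e1]
    rw [design_sum_fin n fun j => ((√n : ℝ) : ℂ)⁻¹ * G j * χ (-(k * j)), e2]
    have e3 : ∀ j : ZMod n, ((√n : ℝ) : ℂ)⁻¹ * G j * χ (-(k * j))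
        = ((√n : ℝ) : ℂ)⁻¹ * ∑ x : ZMod n, χ (A * x ^ 2) * χ (j * (x - k)) := by
      intro j
      simp only [G]
      rw [mul_assoc, Finset.sum_mul]
      congr 1
      refine Finset.sum_congr rfl fun x _ => ?_
      rw [← AddChar.map_add_eq_mul, ← AddChar.map_add_eq_mul]
      congr 1
      ring
    simp_rw [e3]
    rw [← Finset.mul_sum, Finset.sum_comm]
    simp_rw [← Finset.mul_sum, AddChar.sum_mulShift _ hprim, sub_eq_zero]
    rw [Finset.sum_eq_single (k : ZMod n)]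
    · simp only [if_true, ZMod.card]
      rw [← hsq]
      field_simp
    · intro h _ hh; simp [hh]
    · simp

lemma design_crt {B : Type} [Fintype B] (Q : ℕ) (q : B → ℕ) (hQ : Q ≠ 0) (hq : ∀ b, q b ≠ 0)
    (h1 : ∀ b, Nat.Coprime Q (q b)) (h2 : ∀ b c, b ≠ c → Nat.Coprime (q b) (q c)) (x₀ : ℤ)
    (x : B → ℤ) : ∃ u : ℤ, u ≡ x₀ [ZMOD Q] ∧ ∀ c, u ≡ x c [ZMOD q c] := by
  let m : Option B → ℕ := fun o => o.elim Q q
  let y : Option B → ℤ := fun o => o.elim x₀ x
  have hm : ∀ o, m o ≠ 0 := by rintro (_ | b); exacts [hQ, hq b]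
  obtain ⟨k, hk⟩ := Nat.chineseRemainderOfFinset (fun o => (y o % m o).toNat) m Finset.univ
    (fun o _ => hm o) (by
      rintro (_ | b) - (_ | c) - h
      · exact absurd rfl h
      · exact h1 c
      · exact (h1 b).symm
      · exact h2 b c fun e => h (congrArg some e))
  have key : ∀ o, (k : ℤ) ≡ y o [ZMOD m o] := by
    intro o
    have h3 := Int.natCast_modEq_iff.2 (hk o (Finset.mem_univ o))
    rw [Int.toNat_of_nonneg (Int.emod_nonneg _ (by exact_mod_cast hm o))] at h3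
    exact h3.trans (Int.mod_modEq _ _)
  exact ⟨k, key none, fun c => key (some c)⟩

lemma design_moduli {B : Type} [Fintype B] (t : B → ℕ) (F₀ : ℕ) (hF₀ : 0 < F₀) :
    ∃ (q : B → ℕ) (F : ℕ), 0 < F ∧ (∀ b, Nat.Coprime F₀ (q b)) ∧
      (∀ b c, b ≠ c → Nat.Coprime (q b) (q c)) ∧
      ∀ b, t b * Fintype.card B * F < q b ∧ q b ≤ (t b + 1) * Fintype.card B * F := by
  let e := Fintype.equivFin B
  let m : B → ℕ := fun b => t b * Fintype.card B + e b
  let F := F₀ * (∑ b, m b).factorial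
  have hF : 0 < F := Nat.mul_pos hF₀ (Nat.factorial_pos _)
  have hm : ∀ b c, b ≠ c → m b ≠ m c := by
    intro b c hbc h
    apply hbc
    have h1 := congrArg (· % Fintype.card B) h
    simp only [m, Nat.mul_add_mod_self_right, Nat.mod_eq_of_lt (e _).2] at h1
    exact e.injective (Fin.ext h1)
  have hlt : ∀ b c, m b < m c → Nat.Coprime (m b * F + 1) (m c * F + 1) := by
    intro b c h
    refine Nat.coprime_mul_succ (Dvd.dvd.mul_left (Nat.dvd_factorial (by omega) ?_) _)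
    exact (Nat.sub_le _ _).trans (Finset.single_le_sum (f := m) (fun _ _ => Nat.zero_le _)
      (Finset.mem_univ c))
  refine ⟨fun b => m b * F + 1, F, hF, fun b => ?_, fun b c hbc => ?_, fun b => ⟨?_, ?_⟩⟩
  · have : m b * F + 1 = F₀ * (m b * (∑ b, m b).factorial) + 1 := by simp only [F]; ring
    simp only [this]
    exact (Nat.coprime_mul_left_add_right _ _ _).2 (Nat.coprime_one_right _)
  · rcases lt_or_gt_of_ne (hm b c hbc) with h | h
    · exact hlt b c h
    · exact (hlt c b h).symm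
  · simp only [m]; nlinarith [Nat.zero_le ((e b : ℕ) * F)]
  · have := (e b).2
    simp only [m]
    nlinarith

theorem exists_design (B : Type) [Fintype B] (s : B → ℕ) (r : B → ℤ) (hs : ∀ b, 0 < s b)
    (hdet : ∀ b b', b ≠ b' → (s b : ℤ) * r b' ≠ s b' * r b) (β : B → ℝ) (hβ : ∀ b, 0 ≤ β b)
    (hsum : ∑ b, β b = 1) (δ : ℝ) (hδ : 0 < δ) (W₀ : ℕ) :
    ∃ (W L : ℕ) (n : B → ℕ) (X : Fin L → (Σ b, Fin (n b)) → ℕ)
      (g : Fin L → (Σ b, Fin (n b)) → ℂ) (τ₁ τ₂ : Fin L → ℤ → ℝ),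
      W₀ ≤ W ∧ Odd W ∧ 0 < L ∧ (∀ i l, X i l + s l.1 ≤ W) ∧
      (∀ i l i' l' (o o' : ℕ), o < s l.1 → o' < s l'.1 → X i l + o = X i' l' + o' →
        i = i' ∧ l = l') ∧
      (∀ i l i' l' (o o' : ℕ), o < s l.1 → o' < s l'.1 → X i l + o + (X i' l' + o') + 1 ≠ W) ∧
      (∀ b, |2 * (s b : ℝ) * n b * L / W - β b| ≤ δ) ∧
      (∀ i l, ‖g i l‖ = 1) ∧
      ∀ i b (k : ℤ), ∑ j : Fin (n b), g i ⟨b, j⟩ * ee (-(k * (X i ⟨b, j⟩ : ℝ) / W)) =
        (√(n b) : ℝ) * ee (s b * τ₁ i k + r b * τ₂ i k) := by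
  classical
  have hδ' : 0 < min δ 1 := lt_min hδ one_pos
  obtain ⟨Q, col, I, _, _, ρ₁, ρ₂, D, idx, hQ0, hQodd, hsym, hcol, hidx, hinj, hdeg⟩ :=
    exists_colouring B s r hs hdet β hβ hsum (min δ 1 / 2) (by positivity) W₀
  haveI : NeZero Q := ⟨hQodd.pos.ne'⟩
  have hD : ∀ b, 0 < D b := fun b => Nat.zero_lt_of_lt (hidx b (Classical.arbitrary I))
  have hB : 0 < Fintype.card B := by
    rw [Fintype.card_pos_iff]
    by_contra h
    rw [not_nonempty_iff] at h
    simp at hsum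
  obtain ⟨ν, hν⟩ := exists_nat_gt (2 / min δ 1)
  have hν0 : 0 < ν := by
    have : (0 : ℝ) < ν := lt_trans (by positivity) hν
    exact_mod_cast this
  let det : B → B → ℤ := fun b c => r b * s c - s b * r c
  let P : ℕ := ∏ p : B × B, if p.1 = p.2 then 1 else (det p.1 p.2).natAbs
  have hP : 0 < P := Finset.prod_pos fun p _ => by
    split_ifs with h
    · exact one_pos
    · refine Int.natAbs_pos.2 fun h0 => hdet p.1 p.2 h ?_
      simp only [det] at h0
      linarith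
  obtain ⟨q, F, hF, hc0, hcq, hqb⟩ := design_moduli (fun b => 2 * s b * D b * ν) (2 * Q * P)
    (by have := hQodd.pos; positivity)
  have hq0 : ∀ b, q b ≠ 0 := fun b => (Nat.zero_lt_of_lt (hqb b).1).ne'
  have hq2 : ∀ b, Odd (q b) := fun b =>
    Nat.coprime_two_left.1 ((hc0 b).coprime_dvd_left ⟨Q * P, by ring⟩)
  have hqQ : ∀ b, Nat.Coprime Q (q b) := fun b => (hc0 b).coprime_dvd_left ⟨2 * P, by ring⟩
  have hqd : ∀ b c, b ≠ c → IsCoprime (det b c) (q c) := by
    intro b c hbc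
    have h1 : (det b c).natAbs ∣ P := by
      have := Finset.dvd_prod_of_mem
        (fun p : B × B => if p.1 = p.2 then 1 else (det p.1 p.2).natAbs) (Finset.mem_univ (b, c))
      simpa [hbc] using this
    have h2 := (hc0 c).coprime_dvd_left (h1.mul_left (2 * Q))
    rw [Int.isCoprime_iff_gcd_eq_one]
    exact h2
  set μ := ν * Fintype.card B * F with hμ
  have hμ0 : 0 < μ := by positivity
  have hqμ : ∀ b, 2 * (s b * (D b * μ)) < q b := fun b => by
    have := (hqb b).1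
    simp only [hμ]; nlinarith
  let n : B → ℕ := fun b => ∏ c ∈ univ.erase b, q c
  let W := Q * ∏ c, q c
  have hW : ∀ b, W = Q * q b * n b := fun b => by
    simp only [W, n]; rw [mul_assoc, Finset.mul_prod_erase _ _ (mem_univ b)]
  have hnodd : ∀ b, Odd (n b) := fun b => Finset.prod_induction _ Odd (fun _ _ => Odd.mul)
    odd_one fun c _ => hq2 c
  have hWodd : Odd W := hQodd.mul (Finset.prod_induction _ Odd (fun _ _ => Odd.mul)
    odd_one fun c _ => hq2 c)
  have hW0 : 0 < W := hWodd.pos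
  let L := Fintype.card I * μ
  let ε : Fin L ≃ I × Fin μ := (Fintype.equivFinOfCardEq (by simp [L])).symm
  let ix : Fin L → B → ℕ := fun i b => idx b (ε i).1 * μ + (ε i).2
  have hix : ∀ i b, ix i b < D b * μ := fun i b => by
    have h1 := hidx b (ε i).1
    have h2 := (ε i).2.2
    simp only [ix]; nlinarith
  have ha : ∀ i b (o : ℕ), o < s b → s b * ix i b + o < s b * (D b * μ) := fun i b o ho => by
    have := Nat.mul_le_mul_left (s b) (Nat.succ_le_of_lt (hix i b))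
    rw [Nat.mul_succ] at this
    omega
  obtain ⟨t₁, ht₁, ht₁'⟩ := design_crt Q q (NeZero.ne Q) hq0 hqQ hcq 0 fun c => -r c
  obtain ⟨t₂, ht₂, ht₂'⟩ := design_crt Q q (NeZero.ne Q) hq0 hqQ hcq 0 fun c => s c
  have hA : ∀ b, ∃ A' : ℤ, s b * t₁ + r b * t₂ = (Q * q b : ℕ) * A' ∧ IsCoprime A' (n b) := by
    intro b
    have h1 : (Q : ℤ) ∣ s b * t₁ + r b * t₂ :=
      dvd_add ((Int.modEq_zero_iff_dvd.1 ht₁).mul_left _) ((Int.modEq_zero_iff_dvd.1 ht₂).mul_left _)
    have h3 : ∀ c, s b * t₁ + r b * t₂ ≡ det b c [ZMOD q c] := fun c => by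
      have := ((ht₁' c).mul_left (s b)).add ((ht₂' c).mul_left (r b))
      refine this.trans (by rw [show (s b : ℤ) * -r c + r b * s c = det b c by simp only [det]; ring])
    have h2 : (q b : ℤ) ∣ s b * t₁ + r b * t₂ := by
      have := h3 b
      rw [show det b b = 0 by simp only [det]; ring] at this
      exact Int.modEq_zero_iff_dvd.1 this
    obtain ⟨A', hA'⟩ := (Nat.isCoprime_iff_coprime.2 (hqQ b)).mul_dvd h1 h2
    refine ⟨A', by rw [hA']; push_cast; ring, ?_⟩
    simp only [n]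
    push_cast
    refine IsCoprime.prod_right fun c hc => ?_
    have h4 := hqd b c (Finset.ne_of_mem_erase hc).symm
    obtain ⟨w, hw⟩ := (h3 c).symm.dvd
    have h5 : IsCoprime (s b * t₁ + r b * t₂) (q c) := by
      rw [show s b * t₁ + r b * t₂ = det b c + q c * w by linarith]
      exact h4.add_mul_left_left _
    rw [hA'] at h5
    exact h5.of_mul_left_right
  choose A' hA' hA'' using hA
  choose g hg hg' using fun b => design_gauss (n b) (hnodd b) (A' b) (hA'' b)
  choose u₁ hu₁ hu₁' using fun i : Fin L =>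
    design_crt Q q (NeZero.ne Q) hq0 hqQ hcq (ρ₁ (ε i).1).val fun c => ix i c
  choose u₂ hu₂ hu₂' using fun i : Fin L =>
    design_crt Q q (NeZero.ne Q) hq0 hqQ hcq (ρ₂ (ε i).1).val fun _ => 0
  let X : Fin L → (Σ b, Fin (n b)) → ℕ := fun i l =>
    ((s l.1 * u₁ i + r l.1 * u₂ i + (l.2 : ℕ) * (Q * q l.1 : ℕ)) % W).toNat
  have hXW : ∀ i l, (X i l : ℤ) ≡ s l.1 * u₁ i + r l.1 * u₂ i + (l.2 : ℕ) * (Q * q l.1 : ℕ)
      [ZMOD W] := fun i l => by
    simp only [X]
    rw [Int.toNat_of_nonneg (Int.emod_nonneg _ (by exact_mod_cast hW0.ne'))]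
    exact Int.mod_modEq _ _
  have hXlt : ∀ i l, X i l < W := fun i l => by
    simp only [X]
    have := Int.emod_lt_of_pos (s l.1 * u₁ i + r l.1 * u₂ i + (l.2 : ℕ) * (Q * q l.1 : ℕ))
      (show (0 : ℤ) < W by exact_mod_cast hW0)
    omega
  have hQW : (Q : ℤ) ∣ W := by exact_mod_cast Dvd.intro _ rfl
  have hqW : ∀ b, q b ∣ W := fun b => ⟨Q * n b, by rw [hW b]; ring⟩
  have hXQ : ∀ i l, ((X i l : ℕ) : ZMod Q) = s l.1 * ρ₁ (ε i).1 + r l.1 * ρ₂ (ε i).1 := by
    intro i l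
    have h1 := (ZMod.intCast_eq_intCast_iff _ _ Q).2 ((hXW i l).of_dvd hQW)
    have h2 := (ZMod.intCast_eq_intCast_iff _ _ Q).2 (hu₁ i)
    have h3 := (ZMod.intCast_eq_intCast_iff _ _ Q).2 (hu₂ i)
    push_cast at h1 h2 h3
    rw [h1, h2, h3]
    simp
  have hXq : ∀ i l, X i l ≡ s l.1 * ix i l.1 [MOD q l.1] := by
    intro i l
    rw [← Int.natCast_modEq_iff]
    refine ((hXW i l).of_dvd (by exact_mod_cast hqW l.1)).trans ?_
    have h1 := ((hu₁' i l.1).mul_left (s l.1)).add ((hu₂' i l.1).mul_left (r l.1))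
    have h2 : ((l.2 : ℕ) : ℤ) * (Q * q l.1 : ℕ) ≡ 0 [ZMOD q l.1] :=
      Int.modEq_zero_iff_dvd.2 ⟨(l.2 : ℕ) * Q, by push_cast; ring⟩
    have := h1.add h2
    push_cast
    simpa using this
  have hXc : ∀ i l (o : ℕ), o < s l.1 → col ((X i l + o : ℕ) : ZMod Q) = l.1 := by
    intro i l o ho
    push_cast
    rw [hXQ]
    exact hcol _ _ _ ho
  refine ⟨W, L, n, X, fun _ l => g l.1 l.2, fun i k => (t₁ * k ^ 2 - u₁ i * k) / W,
    fun i k => (t₂ * k ^ 2 - u₂ i * k) / W, ?_, hWodd, ?_, ?_, ?_, ?_, ?_,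
    fun _ l => hg l.1 l.2, ?_⟩
  · exact hQ0.trans (Nat.le_of_dvd hW0 (Dvd.intro _ rfl))
  · exact Nat.mul_pos Fintype.card_pos hμ0
  · intro i l
    by_contra hlt
    have h1 := hXlt i l
    have h2 : X i l + (W - 1 - X i l) + 1 = W := by omega
    have h3 := ha i l.1 (W - 1 - X i l) (by omega)
    have h4 : s l.1 * ix i l.1 + (W - 1 - X i l) + 1 ≡ W [MOD q l.1] := by
      conv_rhs => rw [← h2]
      exact (((hXq i l).symm.add_right _).add_right _)
    have h5 := (Nat.modEq_zero_iff_dvd.1 (h4.trans (Nat.modEq_zero_iff_dvd.2 (hqW l.1))))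
    have h6 := Nat.le_of_dvd (by omega) h5
    have := hqμ l.1
    omega
  · rintro i ⟨b, j⟩ i' ⟨b', j'⟩ o o' ho ho' h
    have hb : b = b' := by
      have h1 := hXc i ⟨b, j⟩ o ho
      rw [h] at h1
      exact h1.symm.trans (hXc i' ⟨b', j'⟩ o' ho')
    subst hb
    simp only at ho ho'
    have h1 : s b * ix i b + o ≡ s b * ix i' b + o' [MOD q b] := by
      have e1 := ((hXq i ⟨b, j⟩).add_right o).symm
      rw [h] at e1
      exact e1.trans ((hXq i' ⟨b, j'⟩).add_right o')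
    have h2 := ha i b o ho
    have h3 := ha i' b o' ho'
    have h4 := hqμ b
    have h5 : s b * ix i b + o = s b * ix i' b + o' :=
      Nat.ModEq.eq_of_lt_of_lt h1 (by omega) (by omega)
    have h6 : o = o' := by
      have := congrArg (· % s b) h5
      simpa [Nat.mod_eq_of_lt ho, Nat.mod_eq_of_lt ho'] using this
    subst h6
    have h7 : ix i b = ix i' b := Nat.eq_of_mul_eq_mul_left (hs b) (by omega)
    have h8 : ((ε i).2 : ℕ) = (ε i').2 := by
      have := congrArg (· % μ) h7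
      simpa [ix, Nat.mod_eq_of_lt (ε i).2.2, Nat.mod_eq_of_lt (ε i').2.2] using this
    have h9 : idx b (ε i).1 = idx b (ε i').1 := by
      simp only [ix] at h7
      exact Nat.eq_of_mul_eq_mul_right hμ0 (by omega)
    have hX : X i ⟨b, j⟩ = X i' ⟨b, j'⟩ := by omega
    have h10 : (ε i).1 = (ε i').1 := by
      refine hinj b _ _ ?_ h9
      have e1 := hXQ i ⟨b, j⟩
      rw [hX, hXQ] at e1
      exact e1.symm
    have h11 : i = i' := ε.injective (Prod.ext h10 (Fin.ext h8))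
    subst h11
    refine ⟨rfl, ?_⟩
    have h12 := (hXW i ⟨b, j⟩).symm
    rw [hX] at h12
    have h13 := Int.ModEq.add_left_cancel' _ (h12.trans (hXW i ⟨b, j'⟩))
    simp only at h13
    have h14 : (j : ℕ) * (Q * q b) ≡ (j' : ℕ) * (Q * q b) [MOD n b * (Q * q b)] := by
      rw [← Int.natCast_modEq_iff, mul_comm (n b), ← hW b]
      exact_mod_cast h13
    have h15 := Nat.ModEq.mul_right_cancel' (Nat.mul_ne_zero (NeZero.ne Q) (hq0 b)) h14
    rw [Fin.ext (Nat.ModEq.eq_of_lt_of_lt h15 j.2 j'.2)]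
  · rintro i ⟨b, j⟩ i' ⟨b', j'⟩ o o' ho ho' h
    have hb : b = b' := by
      have h1 := hXc i ⟨b, j⟩ o ho
      have h2 := hXc i' ⟨b', j'⟩ o' ho'
      have h3 : ((X i ⟨b, j⟩ + o : ℕ) : ZMod Q) = -1 - ((X i' ⟨b', j'⟩ + o' : ℕ) : ZMod Q) := by
        have h4 := congrArg (Nat.cast : ℕ → ZMod Q) h
        rw [(ZMod.natCast_eq_zero_iff W Q).2 (Dvd.intro _ rfl), Nat.cast_add, Nat.cast_add] at h4
        rw [Nat.cast_one] at h4
        linear_combination h4
      rw [h3, hsym] at h1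
      exact h1.symm.trans h2
    subst hb
    simp only at ho ho'
    have h1 : s b * ix i b + o + (s b * ix i' b + o') + 1 ≡ W [MOD q b] := by
      conv_rhs => rw [← h]
      exact ((((hXq i ⟨b, j⟩).symm.add_right o).add ((hXq i' ⟨b, j'⟩).symm.add_right o')).add_right 1)
    have h5 := (Nat.modEq_zero_iff_dvd.1 (h1.trans (Nat.modEq_zero_iff_dvd.2 (hqW b))))
    have h6 := Nat.le_of_dvd (by omega) h5
    have h2 := ha i b o ho
    have h3 := ha i' b o' ho'
    have h4 := hqμ b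
    omega
  · intro b
    have hQr : (0 : ℝ) < Q := by exact_mod_cast hQodd.pos
    have hDr : (1 : ℝ) ≤ D b := by exact_mod_cast hD b
    have hsr : (1 : ℝ) ≤ s b := by exact_mod_cast hs b
    have hνr : (0 : ℝ) < ν := by exact_mod_cast hν0
    have hqr : (0 : ℝ) < q b := by exact_mod_cast Nat.pos_of_ne_zero (hq0 b)
    have hnr : (0 : ℝ) < n b := by exact_mod_cast (hnodd b).pos
    have hβ1 : β b ≤ 1 := hsum ▸ Finset.single_le_sum (fun c _ => hβ c) (mem_univ b)
    set x : ℝ := (Fintype.card I : ℝ) / (Q * D b) with hx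
    set θ : ℝ := 2 * (s b * (D b * μ)) / q b with hθ
    have e1 : 2 * (s b : ℝ) * n b * L / W = x * θ := by
      rw [hW b, hx, hθ]
      simp only [L]
      push_cast
      field_simp
    have hθ1 : θ ≤ 1 := by
      rw [hθ, div_le_one hqr]
      exact_mod_cast (hqμ b).le
    have hθ2 : 1 - θ ≤ 1 / (2 * ν) := by
      have h1 : (q b : ℝ) ≤ (2 * s b * D b * ν + 1) * Fintype.card B * F := by
        exact_mod_cast (hqb b).2
      have h2 : (2 * s b * D b * ν : ℝ) * Fintype.card B * F ≤ q b := by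
        exact_mod_cast (hqb b).1.le
      have h3 : (μ : ℝ) = ν * Fintype.card B * F := by simp only [hμ]; push_cast; ring
      have h4 : (0 : ℝ) ≤ ν * (Fintype.card B * F) := by positivity
      have h5 : (1 : ℝ) ≤ s b * D b := one_le_mul_of_one_le_of_one_le hsr hDr
      rw [hθ, h3, one_sub_div hqr.ne', div_le_div_iff₀ hqr (by positivity)]
      nlinarith [mul_le_mul_of_nonneg_left h1 hνr.le, mul_le_mul_of_nonneg_right h5 h4]
    have h1 := abs_le.1 (hdeg b)
    have h2 : min δ 1 ≤ 1 := min_le_right _ _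
    have h3 : min δ 1 ≤ δ := min_le_left _ _
    have h4 : 0 ≤ x := by positivity
    have h5 : 1 / (2 * ν) ≤ min δ 1 / 4 := by
      rw [div_lt_iff₀ hδ'] at hν
      rw [div_le_div_iff₀ (by positivity) (by norm_num)]
      linarith
    rw [e1, abs_le]
    constructor <;> nlinarith
  · intro i b k
    have hQr : (0 : ℝ) < Q := by exact_mod_cast hQodd.pos
    have hqr : (0 : ℝ) < q b := by exact_mod_cast Nat.pos_of_ne_zero (hq0 b)
    have hnr : (0 : ℝ) < n b := by exact_mod_cast (hnodd b).pos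
    have hWr : (W : ℝ) = Q * q b * n b := by rw [hW b]; push_cast; ring
    have e1 : ∀ j : Fin (n b), ee (-(k * (X i ⟨b, j⟩ : ℝ) / W))
        = ee (-(k * (j : ℕ) / n b)) * ee (-(k * (s b * u₁ i + r b * u₂ i) / W)) := by
      intro j
      obtain ⟨w, hw⟩ := (hXW i ⟨b, j⟩).dvd
      have h1 : (X i ⟨b, j⟩ : ℝ) = s b * u₁ i + r b * u₂ i + (j : ℕ) * (Q * q b) - W * w := by
        have : (X i ⟨b, j⟩ : ℤ) = s b * u₁ i + r b * u₂ i + (j : ℕ) * (Q * q b : ℕ) - W * w := by
          simp only at hw; linarith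
        exact_mod_cast this
      rw [← ee_add, ← one_mul (ee (_ + _)), ← ee_int (k * w), ← ee_add, h1, hWr]
      congr 1
      push_cast
      field_simp
      ring
    simp_rw [e1, ← mul_assoc]
    rw [← Finset.sum_mul, hg', mul_assoc, ← ee_add]
    congr 2
    have h2 : (s b : ℝ) * t₁ + r b * t₂ = Q * q b * A' b := by exact_mod_cast hA' b
    have h3 : (A' b : ℝ) = (s b * t₁ + r b * t₂) / (Q * q b) := by rw [h2]; field_simp
    rw [h3, hWr]
    field_simp
    ring

end Crest.Agent.R075
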