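import Crest.Agent.R075.FlatA

/-! A real trigonometric polynomial on the two-torus that is almost `±1`-valued and whose
frequencies are pairwise non-proportional. -/

set_option autoImplicit false

namespace Crest.Agent.R075

open Finset Crest.Agent.R210

theorem flat_moebius (g M : ℕ) (hg : 1 ≤ g) (hM : g ≤ M) :
    (∑ D ∈ Icc 1 M, if D ∣ g then ArithmeticFunction.moebius D else 0) =
      if g = 1 then 1 else 0 := by
  have h := congrArg (fun f : ArithmeticFunction ℤ => f g) ArithmeticFunction.moebius_mul_coe_zeta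
  simp only [ArithmeticFunction.coe_mul_zeta_apply, ArithmeticFunction.one_apply] at h
  rw [← h, ← sum_filter]
  refine sum_congr ?_ fun _ _ => rfl
  ext D
  simp only [mem_filter, Finset.mem_Icc, Nat.mem_divisors]
  constructor
  · rintro ⟨_, h2⟩; exact ⟨h2, by omega⟩
  · rintro ⟨h2, _⟩
    exact ⟨⟨Nat.pos_of_dvd_of_pos h2 hg, (Nat.le_of_dvd hg h2).trans hM⟩, h2⟩

/-- The greatest common divisor of all the frequencies. -/
def flatG {K d : ℕ} (p : Fin K × (Fin d → Fin K × Bool)) : ℕ :=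
  Nat.gcd (2 * (p.1 : ℕ) + 1) (univ.gcd fun i => 2 * ((p.2 i).1 : ℕ) + 1)

theorem flat_dvd_G {K d : ℕ} (p : Fin K × (Fin d → Fin K × Bool)) (D : ℕ) :
    D ∣ flatG p ↔ D ∣ 2 * (p.1 : ℕ) + 1 ∧ ∀ i, D ∣ 2 * ((p.2 i).1 : ℕ) + 1 := by
  rw [flatG, Nat.dvd_gcd_iff, Finset.dvd_gcd_iff]
  simp

theorem flat_prod_sum {R : Type*} [CommRing R] {K d : ℕ} (u : Fin K → R)
    (v : Fin d → Fin K × Bool → R) :
    ∑ p : Fin K × (Fin d → Fin K × Bool), u p.1 * ∏ i, v i (p.2 i) =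
      (∑ k, u k) * ∏ i, ∑ j, v i j := by
  rw [Fintype.sum_prod_type, prod_univ_sum, Fintype.piFinset_univ, sum_mul_sum]

theorem flat_sieve {K d : ℕ} (u : Fin K → ℂ) (v : Fin d → Fin K × Bool → ℂ) :
    (∑ p : Fin K × (Fin d → Fin K × Bool), if flatG p = 1 then u p.1 * ∏ i, v i (p.2 i) else 0) =
      ∑ D ∈ Icc 1 (2 * K), (ArithmeticFunction.moebius D : ℂ) *
        ((∑ k : Fin K, if D ∣ 2 * (k : ℕ) + 1 then u k else 0) *
          ∏ i, ∑ j : Fin K × Bool, if D ∣ 2 * (j.1 : ℕ) + 1 then v i j else 0) := by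
  simp_rw [← flat_prod_sum, mul_sum]
  rw [sum_comm]
  refine sum_congr rfl fun p _ => ?_
  have hg1 : 1 ≤ flatG p := Nat.gcd_pos_of_pos_left _ (by omega)
  have hg2 : flatG p ≤ 2 * K := by
    have h1 : flatG p ≤ 2 * (p.1 : ℕ) + 1 := Nat.gcd_le_left _ (by omega)
    have := p.1.2
    omega
  have h := congrArg (Int.cast : ℤ → ℂ) (flat_moebius _ _ hg1 hg2)
  push_cast at h
  rw [← boole_mul, ← h, sum_mul]
  refine sum_congr rfl fun D _ => ?_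
  by_cases hD : D ∣ flatG p
  · rw [if_pos hD]
    obtain ⟨h1, h2⟩ := (flat_dvd_G p D).1 hD
    simp only [h1, h2, if_true]
  · rw [if_neg hD, zero_mul]
    rw [flat_dvd_G, not_and_or, not_forall] at hD
    rcases hD with h1 | ⟨i, hi⟩
    · simp [h1]
    · rw [prod_eq_zero (mem_univ i) (if_neg hi)]; simp

theorem flat_digits (X : ℤ) (d : ℕ) (c : Fin d → ℤ) (hc : ∀ i, |c i| < X)
    (h : ∑ i : Fin d, X ^ (i : ℕ) * c i = 0) : ∀ i, c i = 0 := by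
  induction d with
  | zero => intro i; exact i.elim0
  | succ d ih =>
    rw [Fin.sum_univ_succ] at h
    simp only [Fin.val_zero, pow_zero, one_mul, Fin.val_succ, pow_succ', mul_assoc,
      ← mul_sum] at h
    have hX : 0 < X := (abs_nonneg _).trans_lt (hc 0)
    have h0 : c 0 = 0 :=
      Int.eq_zero_of_abs_lt_dvd ⟨-∑ i : Fin d, X ^ (i : ℕ) * c i.succ, by linarith⟩ (hc 0)
    rw [h0, zero_add, mul_eq_zero] at h
    have := ih (fun i => c i.succ) (fun i => hc _) (h.resolve_left hX.ne')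
    intro i
    exact Fin.cases h0 this i

/-- Signed frequency. -/
def flatF {K : ℕ} (j : Fin K × Bool) : ℤ :=
  if j.2 then ((2 * (j.1 : ℕ) + 1 : ℕ) : ℤ) else -((2 * (j.1 : ℕ) + 1 : ℕ) : ℤ)

theorem flat_natAbs_F {K : ℕ} (j : Fin K × Bool) : (flatF j).natAbs = 2 * (j.1 : ℕ) + 1 := by
  unfold flatF; split_ifs <;> omega

theorem flat_F_inj {K : ℕ} : Function.Injective (flatF (K := K)) := by
  rintro ⟨a, s⟩ ⟨b, t⟩ h
  unfold flatF at h
  cases s <;> cases t <;> simp only [Bool.false_eq_true, if_true, if_false] at h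
  · rw [show a = b from Fin.ext (by omega)]
  · omega
  · omega
  · rw [show a = b from Fin.ext (by omega)]

theorem flat_nonprop {K d : ℕ} (p q : Fin K × (Fin d → Fin K × Bool)) (hp : flatG p = 1)
    (hq : flatG q = 1)
    (h : ((2 * (p.1 : ℕ) + 1 : ℕ) : ℤ) * ∑ i : Fin d, ((8 * K ^ 2 + 1 : ℕ) : ℤ) ^ (i : ℕ) * flatF (q.2 i) =
      ((2 * (q.1 : ℕ) + 1 : ℕ) : ℤ) * ∑ i : Fin d, ((8 * K ^ 2 + 1 : ℕ) : ℤ) ^ (i : ℕ) * flatF (p.2 i)) :
    p = q := by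
  have hb : ∀ (k : Fin K) (j : Fin K × Bool),
      |((2 * (k : ℕ) + 1 : ℕ) : ℤ) * flatF j| ≤ 4 * (K : ℤ) ^ 2 := by
    intro k j
    rw [abs_mul, Int.abs_eq_natAbs (flatF j), flat_natAbs_F, abs_of_nonneg (by positivity)]
    have h1 : ((2 * (k : ℕ) + 1 : ℕ) : ℤ) ≤ 2 * K := by have := k.2; omega
    have h2 : ((2 * (j.1 : ℕ) + 1 : ℕ) : ℤ) ≤ 2 * K := by have := j.1.2; omega
    calc _ ≤ (2 * (K : ℤ)) * (2 * K) := by gcongr
      _ = _ := by ring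
  have h1 := flat_digits ((8 * K ^ 2 + 1 : ℕ) : ℤ) d
    (fun i => ((2 * (p.1 : ℕ) + 1 : ℕ) : ℤ) * flatF (q.2 i) -
      ((2 * (q.1 : ℕ) + 1 : ℕ) : ℤ) * flatF (p.2 i))
    (fun i => by
      have := abs_sub (((2 * (p.1 : ℕ) + 1 : ℕ) : ℤ) * flatF (q.2 i))
        (((2 * (q.1 : ℕ) + 1 : ℕ) : ℤ) * flatF (p.2 i))
      have h1 := hb p.1 (q.2 i)
      have h2 := hb q.1 (p.2 i)
      have h3 : ((8 * K ^ 2 + 1 : ℕ) : ℤ) = 8 * (K : ℤ) ^ 2 + 1 := by push_cast; ring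
      rw [h3]; linarith)
    (by
      rw [mul_sum, mul_sum, ← sub_eq_zero, ← sum_sub_distrib] at h
      rw [← h]
      exact sum_congr rfl fun i _ => by ring)
  have h2 : ∀ i, (2 * (p.1 : ℕ) + 1) * (2 * ((q.2 i).1 : ℕ) + 1) =
      (2 * (q.1 : ℕ) + 1) * (2 * ((p.2 i).1 : ℕ) + 1) := by
    intro i
    have := congrArg Int.natAbs (sub_eq_zero.1 (h1 i))
    rwa [Int.natAbs_mul, Int.natAbs_mul, flat_natAbs_F, flat_natAbs_F, Int.natAbs_natCast,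
      Int.natAbs_natCast] at this
  have key : ∀ p q : Fin K × (Fin d → Fin K × Bool), flatG p = 1 →
      (∀ i, (2 * (p.1 : ℕ) + 1) * (2 * ((q.2 i).1 : ℕ) + 1) =
        (2 * (q.1 : ℕ) + 1) * (2 * ((p.2 i).1 : ℕ) + 1)) →
      2 * (p.1 : ℕ) + 1 ∣ 2 * (q.1 : ℕ) + 1 := by
    intro p q hp h2
    have hc : Nat.Coprime (2 * (p.1 : ℕ) + 1) (univ.gcd fun i => 2 * ((p.2 i).1 : ℕ) + 1) := hp
    apply hc.dvd_of_dvd_mul_right
    have : (2 * (q.1 : ℕ) + 1) * (univ.gcd fun i => 2 * ((p.2 i).1 : ℕ) + 1) =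
        univ.gcd fun i => (2 * (q.1 : ℕ) + 1) * (2 * ((p.2 i).1 : ℕ) + 1) := by
      rw [Finset.gcd_mul_left]; simp
    rw [this, Finset.dvd_gcd_iff]
    intro i _
    exact ⟨_, (h2 i).symm⟩
  have h3 : 2 * (p.1 : ℕ) + 1 = 2 * (q.1 : ℕ) + 1 :=
    Nat.dvd_antisymm (key p q hp h2) (key q p hq fun i => (h2 i).symm)
  refine Prod.ext (Fin.ext (by omega)) (funext fun i => flat_F_inj ?_)
  have := sub_eq_zero.1 (h1 i)
  rw [h3] at this
  exact (mul_left_cancel₀ (by positivity) this).symm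

/-- Signed coefficient. -/
noncomputable def flatCf (ρ : ℝ) {K : ℕ} (j : Fin K × Bool) : ℂ :=
  if j.2 then flatC ρ j.1 else (starRingEnd ℂ) (flatC ρ j.1)

theorem flat_conj_ee (θ : ℝ) : (starRingEnd ℂ) (ee θ) = ee (-θ) := by
  rw [ee, ee, ← Complex.exp_conj]
  congr 1
  rw [map_mul, Complex.conj_ofReal, Complex.conj_I]
  push_cast
  ring

theorem flat_real (ρ : ℝ) (K D : ℕ) (x : ℝ) :
    (∑ j : Fin K × Bool, if D ∣ 2 * (j.1 : ℕ) + 1 then flatCf ρ j * ee (flatF j * x) else 0) =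
      ((2 * (∑ k : Fin K, if D ∣ 2 * (k : ℕ) + 1 then
        flatC ρ k * ee (((2 * (k : ℕ) + 1 : ℕ) : ℝ) * x) else 0).re : ℝ) : ℂ) := by
  rw [← Complex.add_conj, map_sum, ← sum_add_distrib, Fintype.sum_prod_type]
  refine sum_congr rfl fun k _ => ?_
  rw [Fintype.sum_bool]
  split_ifs with h
  · simp only [flatCf, flatF, if_true, Bool.false_eq_true, if_false, map_mul, flat_conj_ee,
      Int.cast_neg, Int.cast_natCast, neg_mul]
  · simp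

theorem flat_norm_Cf (ρ : ℝ) {K : ℕ} (j : Fin K × Bool) : ‖flatCf ρ j‖ = ‖flatC ρ j.1‖ := by
  unfold flatCf; split_ifs <;> simp

theorem flat_sum_inv_pow (M d : ℕ) :
    ∑ D ∈ Icc 1 M, (1 / (D : ℝ)) ^ (d + 2) ≤ 1 + (1 / 2) ^ d := by
  rcases Nat.eq_zero_or_pos M with rfl | hM
  · simp; positivity
  rw [← Finset.Ioc_insert_left hM, sum_insert (by simp)]
  simp only [Nat.cast_one, div_one, one_pow, add_le_add_iff_left]
  have h := sum_Ioc_inv_sq_le_sub (α := ℝ) (k := 1) (n := M) one_ne_zero hM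
  have h2 : ∑ i ∈ Ioc 1 M, ((i : ℝ) ^ 2)⁻¹ ≤ 1 := by
    refine h.trans ?_
    simp
  calc ∑ D ∈ Ioc 1 M, (1 / (D : ℝ)) ^ (d + 2)
      ≤ ∑ D ∈ Ioc 1 M, (1 / 2) ^ d * ((D : ℝ) ^ 2)⁻¹ := by
        refine sum_le_sum fun D hD => ?_
        have h3 : (2 : ℝ) ≤ D := by exact_mod_cast (Finset.mem_Ioc.1 hD).1
        rw [pow_add, one_div (D : ℝ), inv_pow (D : ℝ) 2, ← one_div (D : ℝ)]
        gcongr
    _ = (1 / 2) ^ d * ∑ D ∈ Ioc 1 M, ((D : ℝ) ^ 2)⁻¹ := by rw [mul_sum]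
    _ ≤ (1 / 2) ^ d * 1 := by gcongr
    _ = _ := mul_one _

theorem flat_sup_total (ρ : ℝ) (h0 : 0 ≤ ρ) (h1 : ρ < 1) (K d : ℕ) (t : ℝ) (x : Fin (d + 1) → ℝ) :
    |2 * (∑ p : Fin K × (Fin (d + 1) → Fin K × Bool), if flatG p = 1 then
      (flatC ρ p.1 * ee (((2 * (p.1 : ℕ) + 1 : ℕ) : ℝ) * t)) *
        ∏ i, (flatCf ρ (p.2 i) * ee (flatF (p.2 i) * x i)) else 0).re| ≤
      (1 + 2 * (ρ ^ K / (1 - ρ))) ^ (d + 2) * (1 + (1 / 2) ^ d) := by
  rw [flat_sieve (fun k : Fin K => flatC ρ k * ee (((2 * (k : ℕ) + 1 : ℕ) : ℝ) * t))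
    (fun i j => flatCf ρ j * ee (flatF j * x i))]
  simp_rw [flat_real]
  rw [Complex.re_sum, mul_sum]
  refine (abs_sum_le_sum_abs _ _).trans (le_trans ?_ (mul_le_mul_of_nonneg_left
    (flat_sum_inv_pow (2 * K) d) (by have : 0 < 1 - ρ := by linarith
                                     positivity)))
  rw [mul_sum]
  refine sum_le_sum fun D hD => ?_
  have hD1 := (Finset.mem_Icc.1 hD).1
  rw [← Complex.ofReal_prod, ← Complex.ofReal_intCast, Complex.re_ofReal_mul,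
    Complex.re_mul_ofReal, mul_left_comm, ← mul_assoc 2, abs_mul, abs_mul, abs_prod,
    ← mul_pow, mul_one_div]
  have hμ : |((ArithmeticFunction.moebius D : ℤ) : ℝ)| ≤ 1 := by
    exact_mod_cast ArithmeticFunction.abs_moebius_le_one
  have ha := flat_sup ρ h0 h1 K D hD1
  have hnn : 0 ≤ (1 + 2 * (ρ ^ K / (1 - ρ))) / D := (abs_nonneg _).trans (ha 0)
  refine (mul_le_of_le_one_left (by positivity) hμ).trans ?_
  rw [pow_succ']
  refine mul_le_mul (ha t) ?_ (by positivity) hnn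
  refine (prod_le_prod (fun i _ => abs_nonneg _) fun i _ => ha (x i)).trans ?_
  rw [prod_const, card_univ, Fintype.card_fin]

theorem flat_mass_total (ρ : ℝ) (h0 : 0 ≤ ρ) (h1 : ρ ≤ 1) (K d : ℕ) :
    (∑ k : Fin K, 2 * ‖flatC ρ k‖ ^ 2) ^ (d + 1) - (1 / 2) ^ (d + 1) ≤
    ∑ p : Fin K × (Fin d → Fin K × Bool), if flatG p = 1 then
      2 * ‖flatC ρ p.1 * ∏ i, flatCf ρ (p.2 i)‖ ^ 2 else 0 := by
  have hA := flat_prod_sum (d := d) (fun k : Fin K => 2 * ‖flatC ρ k‖ ^ 2)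
    (fun _ j => ‖flatC ρ j.1‖ ^ 2)
  have hB := flat_prod_sum (d := d) (fun k : Fin K => if (k : ℕ) ≠ 0 then 2 * ‖flatC ρ k‖ ^ 2 else 0)
    (fun _ j => if (j.1 : ℕ) ≠ 0 then ‖flatC ρ j.1‖ ^ 2 else 0)
  have e1 : ∑ j : Fin K × Bool, ‖flatC ρ j.1‖ ^ 2 = ∑ k : Fin K, 2 * ‖flatC ρ k‖ ^ 2 := by
    rw [Fintype.sum_prod_type]
    exact sum_congr rfl fun k _ => by rw [Fintype.sum_bool]; ring
  have e2 : (∑ j : Fin K × Bool, if (j.1 : ℕ) ≠ 0 then ‖flatC ρ j.1‖ ^ 2 else 0) =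
      ∑ k : Fin K, if (k : ℕ) ≠ 0 then 2 * ‖flatC ρ k‖ ^ 2 else 0 := by
    rw [Fintype.sum_prod_type]
    refine sum_congr rfl fun k _ => ?_
    rw [Fintype.sum_bool]
    split_ifs <;> ring
  rw [e1, prod_const, card_univ, Fintype.card_fin, ← pow_succ'] at hA
  rw [e2, prod_const, card_univ, Fintype.card_fin, ← pow_succ'] at hB
  have hC : (∑ k : Fin K, if (k : ℕ) ≠ 0 then 2 * ‖flatC ρ k‖ ^ 2 else 0) ^ (d + 1) ≤
      (1 / 2) ^ (d + 1) :=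
    pow_le_pow_left₀ (sum_nonneg fun k _ => by split_ifs <;> positivity)
      (flat_mass_upper ρ h0 h1 K) _
  refine le_trans (sub_le_sub_left hC _) ?_
  rw [← hA, ← hB, ← sum_sub_distrib]
  refine sum_le_sum fun p _ => ?_
  by_cases hp : flatG p = 1
  · rw [if_pos hp, norm_mul, norm_prod, mul_pow, ← prod_pow, ← mul_assoc]
    simp_rw [flat_norm_Cf]
    apply sub_le_self
    apply mul_nonneg
    · split_ifs <;> positivity
    · exact prod_nonneg fun i _ => by split_ifs <;> positivity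
  · rw [if_neg hp]
    have h2 := (flat_dvd_G p (flatG p)).1 dvd_rfl
    have h3 : (p.1 : ℕ) ≠ 0 := by
      intro h; rw [h] at h2; exact hp (Nat.dvd_one.1 h2.1)
    have h4 : ∀ i, ((p.2 i).1 : ℕ) ≠ 0 := by
      intro i h
      have := h2.2 i
      rw [h] at this; exact hp (Nat.dvd_one.1 this)
    simp only [if_pos h3, if_pos (h4 _), sub_self, le_refl]

theorem exists_flat (ε : ℝ) (hε : 0 < ε) :
    ∃ (B : Type) (_ : Fintype B) (s : B → ℕ) (r : B → ℤ) (α : B → ℂ),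
      (∀ b, 0 < s b) ∧ (∀ b b', b ≠ b' → (s b : ℤ) * r b' ≠ s b' * r b) ∧
      ∑ b, 2 * ‖α b‖ ^ 2 = 1 ∧
      ∀ t x : ℝ, |2 * (∑ b, α b * ee (s b * t + r b * x)).re| ≤ 1 + ε := by
  obtain ⟨η, hη0, hη1, hη⟩ : ∃ η : ℝ, 0 < η ∧ η ≤ 1 / 10 ∧
      (1 + η) * (1 + η) ≤ (1 + ε) * (1 - 2 * η) := by
    refine ⟨min ε 1 / 10, by positivity, by linarith [min_le_right ε 1], ?_⟩
    have h1 := min_le_left ε 1
    have h2 := min_le_right ε 1
    have h3 : 0 < min ε 1 := by positivity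
    nlinarith
  obtain ⟨d, hd⟩ := exists_pow_lt_of_lt_one hη0 (show (1 / 2 : ℝ) < 1 by norm_num)
  obtain ⟨ρ, h0, h1, K₀, hK₀⟩ := flat_mass_lower (η / (d + 2 : ℕ)) (by positivity)
  have hlim : Filter.Tendsto (fun K : ℕ => (1 + 2 * (ρ ^ K / (1 - ρ))) ^ (d + 2)) Filter.atTop
      (nhds ((1 + 2 * (0 / (1 - ρ))) ^ (d + 2))) :=
    ((((tendsto_pow_atTop_nhds_zero_of_lt_one h0 h1).div_const _).const_mul _).const_add _).pow _
  obtain ⟨K, hK1, hK2⟩ := ((hlim.eventually (gt_mem_nhds (show _ < 1 + η by simpa))).and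
    (Filter.eventually_ge_atTop K₀)).exists
  set m : ℝ := ∑ p : Fin K × (Fin (d + 1) → Fin K × Bool), if flatG p = 1 then
      2 * ‖flatC ρ p.1 * ∏ i, flatCf ρ (p.2 i)‖ ^ 2 else 0 with hm
  have hm1 : 1 - 2 * η ≤ m := by
    refine le_trans ?_ (flat_mass_total ρ h0 h1.le K (d + 1))
    have hd2 : (0 : ℝ) < (d + 2 : ℕ) := by positivity
    have h2 : η / (d + 2 : ℕ) ≤ 1 := by
      rw [div_le_one hd2]; push_cast; linarith [(Nat.cast_nonneg d : (0 : ℝ) ≤ d)]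
    have h3 := one_add_mul_le_pow (a := -(η / (d + 2 : ℕ))) (by linarith) (d + 2)
    rw [mul_neg, mul_div_cancel₀ _ hd2.ne', ← sub_eq_add_neg, ← sub_eq_add_neg] at h3
    have h4 : (1 - η / (d + 2 : ℕ)) ^ (d + 2) ≤ (∑ k : Fin K, 2 * ‖flatC ρ k‖ ^ 2) ^ (d + 1 + 1) :=
      pow_le_pow_left₀ (by linarith) (hK₀ K hK2) _
    have h5 : (1 / 2 : ℝ) ^ (d + 1 + 1) ≤ (1 / 2) ^ d :=
      pow_le_pow_of_le_one (by norm_num) (by norm_num) (by omega)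
    linarith
  have hm0 : 0 < m := by linarith
  have hsq : 1 - 2 * η ≤ √m := Real.le_sqrt_of_sq_le (by nlinarith)
  have hsq0 : 0 < √m := Real.sqrt_pos.2 hm0
  refine ⟨{p : Fin K × (Fin (d + 1) → Fin K × Bool) // flatG p = 1}, inferInstance,
    fun b => 2 * (b.1.1 : ℕ) + 1,
    fun b => ∑ i : Fin (d + 1), ((8 * K ^ 2 + 1 : ℕ) : ℤ) ^ (i : ℕ) * flatF (b.1.2 i),
    fun b => (((√m)⁻¹ : ℝ) : ℂ) * (flatC ρ b.1.1 * ∏ i, flatCf ρ (b.1.2 i)),
    fun b => Nat.succ_pos _, fun b b' hb h => hb (Subtype.ext (flat_nonprop _ _ b.2 b'.2 h)), ?_, ?_⟩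
  · have h2 : ∑ b : {p : Fin K × (Fin (d + 1) → Fin K × Bool) // flatG p = 1},
        2 * ‖flatC ρ b.1.1 * ∏ i, flatCf ρ (b.1.2 i)‖ ^ 2 = m := by
      rw [hm, ← sum_filter]
      exact (sum_subtype (univ.filter fun p => flatG p = 1) (by simp)
        (fun p : Fin K × (Fin (d + 1) → Fin K × Bool) =>
          2 * ‖flatC ρ p.1 * ∏ i, flatCf ρ (p.2 i)‖ ^ 2)).symm
    simp_rw [norm_mul (((√m)⁻¹ : ℝ) : ℂ), mul_pow, mul_left_comm (2 : ℝ)]
    rw [← mul_sum, h2, Complex.norm_real, Real.norm_eq_abs, sq_abs, inv_pow, Real.sq_sqrt hm0.le,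
      inv_mul_cancel₀ hm0.ne']
  · intro t x
    have h2 := flat_sup_total ρ h0 h1 K d t (fun i => ((8 * K ^ 2 + 1 : ℕ) : ℝ) ^ (i : ℕ) * x)
    rw [← sum_filter, sum_subtype (p := fun p => flatG p = 1) (F := inferInstance) _ (by simp)] at h2
    have h3 : ∑ b : {p : Fin K × (Fin (d + 1) → Fin K × Bool) // flatG p = 1},
        (((√m)⁻¹ : ℝ) : ℂ) * (flatC ρ b.1.1 * ∏ i, flatCf ρ (b.1.2 i)) *
          ee (((2 * (b.1.1 : ℕ) + 1 : ℕ) : ℝ) * t +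
            ((∑ i : Fin (d + 1), ((8 * K ^ 2 + 1 : ℕ) : ℤ) ^ (i : ℕ) * flatF (b.1.2 i) : ℤ) : ℝ) * x) =
        (((√m)⁻¹ : ℝ) : ℂ) * ∑ b : {p : Fin K × (Fin (d + 1) → Fin K × Bool) // flatG p = 1},
          (flatC ρ b.1.1 * ee (((2 * (b.1.1 : ℕ) + 1 : ℕ) : ℝ) * t)) *
            ∏ i, (flatCf ρ (b.1.2 i) *
              ee (flatF (b.1.2 i) * (((8 * K ^ 2 + 1 : ℕ) : ℝ) ^ (i : ℕ) * x))) := by
      rw [mul_sum]
      refine sum_congr rfl fun b _ => ?_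
      rw [ee_add, prod_mul_distrib, ← ee_sum, Int.cast_sum, sum_mul]
      have : ∀ i : Fin (d + 1), ((((8 * K ^ 2 + 1 : ℕ) : ℤ) ^ (i : ℕ) * flatF (b.1.2 i) : ℤ) : ℝ) * x =
          flatF (b.1.2 i) * (((8 * K ^ 2 + 1 : ℕ) : ℝ) ^ (i : ℕ) * x) := by
        intro i; push_cast; ring
      simp_rw [this]
      ring
    rw [h3, Complex.re_ofReal_mul, mul_left_comm, abs_mul, abs_of_pos (inv_pos.2 hsq0),
      inv_mul_le_iff₀ hsq0]
    refine h2.trans ?_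
    calc (1 + 2 * (ρ ^ K / (1 - ρ))) ^ (d + 2) * (1 + (1 / 2) ^ d) ≤ (1 + η) * (1 + η) := by
          gcongr
      _ ≤ (1 + ε) * (1 - 2 * η) := hη
      _ ≤ (1 + ε) * √m := by gcongr
      _ = _ := mul_comm _ _

end Crest.Agent.R075
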