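import Crest.Agent.R210.Char

/-! Truncated Abel means of the square wave and their divisibility parts. -/

set_option autoImplicit false

namespace Crest.Agent.R075

open Finset Crest.Agent.R210 Real

theorem flat_hasSum_odd (w : ℂ) (hw : ‖w‖ < 1) :
    ∃ L : ℂ, HasSum (fun k : ℕ => w ^ (2 * k + 1) / ((2 * k + 1 : ℕ) : ℂ)) L ∧ |L.im| ≤ π / 4 := by
  have h := Complex.hasSum_arctan (z := -Complex.I * w) (by simpa using hw)
  have h2 := h.mul_left Complex.I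
  refine ⟨_, h2.congr_fun ?_, ?_⟩
  · intro k
    have h1 : (-Complex.I) ^ (2 * k + 1) = (-1) ^ k * (-Complex.I) := by
      rw [pow_succ, pow_mul, neg_sq, Complex.I_sq]
    have h3 : ((-1 : ℂ)) ^ k * (-1) ^ k = 1 := by rw [← mul_pow]; simp
    rw [mul_pow, h1, ← mul_div_assoc]
    congr 1
    linear_combination (-w ^ (2 * k + 1)) * h3 +
      ((-1) ^ k * (-1) ^ k * w ^ (2 * k + 1)) * Complex.I_mul_I
  · have hz : -Complex.I * w * Complex.I = w := by
      linear_combination (-w) * Complex.I_mul_I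
    have he : Complex.I * Complex.arctan (-Complex.I * w) =
        ((1 / 2 : ℝ) : ℂ) * Complex.log ((1 + w) / (1 - w)) := by
      rw [Complex.arctan, hz]
      push_cast
      linear_combination (-Complex.log ((1 + w) / (1 - w)) / 2) * Complex.I_mul_I
    rw [he, Complex.im_ofReal_mul, Complex.log_im, abs_mul, abs_of_pos (by norm_num : (0 : ℝ) < 1 / 2)]
    have : |Complex.arg ((1 + w) / (1 - w))| ≤ π / 2 := by
      rw [Complex.abs_arg_le_pi_div_two_iff, Complex.div_re, ← add_div]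
      apply div_nonneg _ (Complex.normSq_nonneg _)
      have h1 : w.re ^ 2 + w.im ^ 2 ≤ 1 := by
        have := Complex.sq_norm w
        rw [Complex.normSq_apply] at this
        nlinarith [norm_nonneg w]
      simp only [Complex.add_re, Complex.one_re, Complex.sub_re, Complex.add_im, Complex.one_im,
        Complex.sub_im]
      nlinarith
    linarith

theorem flat_hasSum_dvd (D : ℕ) (hD : 1 ≤ D) (z : ℂ) (hz : ‖z‖ < 1) :
    ∃ L : ℂ, HasSum (fun k : ℕ => if D ∣ 2 * k + 1 then z ^ (2 * k + 1) / ((2 * k + 1 : ℕ) : ℂ)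
      else 0) L ∧ |L.im| ≤ π / (4 * D) := by
  have hD' : (0 : ℝ) < D := by exact_mod_cast hD
  rcases Nat.even_or_odd D with hev | ⟨e, he⟩
  · refine ⟨0, hasSum_zero.congr_fun fun k => ?_, by simp; positivity⟩
    rw [if_neg]
    intro h
    have := hev.two_dvd.trans h
    omega
  · obtain ⟨L, hL, hLi⟩ := flat_hasSum_odd (z ^ D)
      (by rw [norm_pow]; exact pow_lt_one₀ (norm_nonneg _) hz (by omega))
    refine ⟨L / D, ?_, ?_⟩
    · have hinj : Function.Injective fun j : ℕ => D * j + e := by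
        intro a b hab
        simp only [add_left_inj] at hab
        exact Nat.eq_of_mul_eq_mul_left (by omega) hab
      rw [← hinj.hasSum_iff]
      · refine (hL.div_const (D : ℂ)).congr_fun fun j => ?_
        have h1 : 2 * (D * j + e) + 1 = D * (2 * j + 1) := by rw [he]; ring
        simp only [Function.comp]
        rw [h1, if_pos (dvd_mul_right _ _), pow_mul, div_div, Nat.cast_mul, mul_comm (D : ℂ)]
      · intro k hk
        rw [if_neg]
        rintro ⟨q, hq⟩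
        apply hk
        rcases Nat.even_or_odd q with ⟨j, hj⟩ | ⟨j, hj⟩
        · exfalso
          rw [hj, mul_add] at hq
          omega
        · refine ⟨j, ?_⟩
          have h1 : 2 * (D * j + e) + 1 = D * (2 * j + 1) := by rw [he]; ring
          rw [hj, ← h1] at hq
          simp only
          omega
    · rw [Complex.div_natCast_im, abs_div, abs_of_pos hD', div_le_div_iff₀ hD' (by positivity)]
      nlinarith

/-- Coefficients of the Abel mean of the square wave. -/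
noncomputable def flatC (ρ : ℝ) (k : ℕ) : ℂ :=
  -Complex.I * ((2 / π * (ρ ^ (2 * k + 1) / (2 * k + 1 : ℕ)) : ℝ) : ℂ)

theorem flat_norm_ee (θ : ℝ) : ‖ee θ‖ = 1 := by
  rw [ee, Complex.norm_exp_ofReal_mul_I]

theorem flat_sup (ρ : ℝ) (h0 : 0 ≤ ρ) (h1 : ρ < 1) (K D : ℕ) (hD : 1 ≤ D) (x : ℝ) :
    |2 * (∑ k : Fin K, if D ∣ 2 * (k : ℕ) + 1 then
      flatC ρ k * ee (((2 * (k : ℕ) + 1 : ℕ) : ℝ) * x) else 0).re| ≤
      (1 + 2 * (ρ ^ K / (1 - ρ))) / D := by
  have hD' : (0 : ℝ) < D := by exact_mod_cast hD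
  set z : ℂ := (ρ : ℂ) * ee x with hz
  have hzn : ‖z‖ = ρ := by
    rw [hz, norm_mul, flat_norm_ee, mul_one, Complex.norm_real, Real.norm_of_nonneg h0]
  obtain ⟨L, hL, hLi⟩ := flat_hasSum_dvd D hD z (by rw [hzn]; exact h1)
  have htail := norm_sub_le_of_geometric_bound_of_hasSum (C := 1 / D) h1 (fun k => by
    split_ifs with h
    · rw [norm_div, norm_pow, hzn, Complex.norm_natCast, one_div_mul_eq_div]
      have h2 : (D : ℝ) ≤ (2 * k + 1 : ℕ) := by exact_mod_cast Nat.le_of_dvd (by omega) h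
      have h3 : ρ ^ (2 * k + 1) ≤ ρ ^ k := pow_le_pow_of_le_one h0 h1.le (by omega)
      gcongr
    · rw [norm_zero]; positivity) hL K
  set S := ∑ k ∈ range K, if D ∣ 2 * k + 1 then z ^ (2 * k + 1) / ((2 * k + 1 : ℕ) : ℂ) else 0
    with hS
  have heq : (∑ k : Fin K, if D ∣ 2 * (k : ℕ) + 1 then
      flatC ρ k * ee (((2 * (k : ℕ) + 1 : ℕ) : ℝ) * x) else 0) =
      -Complex.I * (((2 / π : ℝ) : ℂ) * S) := by
    rw [hS, Fin.sum_univ_eq_sum_range (fun k => if D ∣ 2 * k + 1 then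
      flatC ρ k * ee (((2 * k + 1 : ℕ) : ℝ) * x) else 0), mul_sum, mul_sum]
    refine sum_congr rfl fun k _ => ?_
    split_ifs with h
    · rw [flatC, hz, mul_pow, ee_pow]
      push_cast
      ring
    · simp
  have him : |S.im| ≤ π / (4 * D) + 1 / D * ρ ^ K / (1 - ρ) := by
    have h2 : |(S - L).im| ≤ ‖S - L‖ := Complex.abs_im_le_norm _
    have h3 : S.im = L.im + (S - L).im := by simp
    rw [h3]
    exact (abs_add_le _ _).trans (add_le_add hLi (h2.trans htail))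
  have hre : (-Complex.I * (((2 / π : ℝ) : ℂ) * S)).re = 2 / π * S.im := by
    rw [neg_mul, Complex.neg_re, Complex.I_mul_re, neg_neg, Complex.im_ofReal_mul]
  rw [heq, hre, ← mul_assoc, abs_mul, abs_of_pos (by positivity : (0 : ℝ) < 2 * (2 / π))]
  have hq : 0 ≤ ρ ^ K / (1 - ρ) := div_nonneg (pow_nonneg h0 _) (by linarith)
  have hpi : 2 / π ≤ 1 := by rw [div_le_one pi_pos]; linarith [pi_gt_three]
  calc 2 * (2 / π) * |S.im| ≤ 2 * (2 / π) * (π / (4 * D) + 1 / D * ρ ^ K / (1 - ρ)) := by gcongr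
    _ = (1 + 2 * (2 / π) * (ρ ^ K / (1 - ρ))) / D := by field_simp; ring
    _ ≤ (1 + 2 * 1 * (ρ ^ K / (1 - ρ))) / D := by gcongr
    _ = _ := by ring

theorem flat_normSq (ρ : ℝ) (k : ℕ) :
    2 * ‖flatC ρ k‖ ^ 2 = (ρ ^ (2 * k + 1)) ^ 2 * (8 / π ^ 2 * (1 / ((2 * k + 1 : ℕ) : ℝ) ^ 2)) := by
  rw [flatC, norm_mul, norm_neg, Complex.norm_I, one_mul, Complex.norm_real, Real.norm_eq_abs,
    sq_abs]
  ring

theorem flat_hasSum_sq :
    HasSum (fun k : ℕ => 8 / π ^ 2 * (1 / ((2 * k + 1 : ℕ) : ℝ) ^ 2)) 1 := by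
  have h := hasSum_zeta_two
  have he : HasSum (fun k : ℕ => (1 : ℝ) / ((2 * k : ℕ) : ℝ) ^ 2) (1 / 4 * (π ^ 2 / 6)) := by
    refine (h.mul_left (1 / 4)).congr_fun fun k => ?_
    push_cast
    rw [mul_pow, one_div, mul_inv]; norm_num
  have hs : Summable (fun k : ℕ => (1 : ℝ) / ((2 * k + 1 : ℕ) : ℝ) ^ 2) :=
    h.summable.comp_injective (i := fun k => 2 * k + 1) (fun a b hab => by simpa using hab)
  have h2 := (HasSum.even_add_odd (f := fun n : ℕ => (1 : ℝ) / (n : ℝ) ^ 2) he hs.hasSum).unique h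
  have h3 := hs.hasSum.mul_left (8 / π ^ 2)
  have h4 : ∑' k : ℕ, (1 : ℝ) / ((2 * k + 1 : ℕ) : ℝ) ^ 2 = π ^ 2 / 8 := by linarith
  have h5 : 8 / π ^ 2 * (π ^ 2 / 8) = 1 := by field_simp
  rwa [h4, h5] at h3

theorem flat_mass_upper (ρ : ℝ) (h0 : 0 ≤ ρ) (h1 : ρ ≤ 1) (K : ℕ) :
    (∑ k : Fin K, if (k : ℕ) ≠ 0 then 2 * ‖flatC ρ k‖ ^ 2 else 0) ≤ 1 / 2 := by
  have h := (hasSum_nat_add_iff' 1).2 flat_hasSum_sq
  have hh : HasSum (fun k : ℕ => if k ≠ 0 then 8 / π ^ 2 * (1 / ((2 * k + 1 : ℕ) : ℝ) ^ 2) else 0)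
      (1 - 8 / π ^ 2) := by
    rw [← hasSum_nat_add_iff' 1]
    simpa using h
  rw [Fin.sum_univ_eq_sum_range (fun k => if k ≠ 0 then 2 * ‖flatC ρ k‖ ^ 2 else 0)]
  have h2 := sum_le_hasSum (range K) (fun k _ => by split_ifs <;> positivity) hh
  have h3 : 1 - 8 / π ^ 2 ≤ 1 / 2 := by
    have : 1 / 2 ≤ 8 / π ^ 2 := by
      rw [div_le_div_iff₀ (by norm_num) (by positivity)]
      nlinarith [pi_lt_d2, pi_pos]
    linarith
  refine le_trans (sum_le_sum fun k _ => ?_) (h2.trans h3)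
  split_ifs with hk
  · rw [flat_normSq]
    apply mul_le_of_le_one_left (by positivity)
    exact pow_le_one₀ (pow_nonneg h0 _) (pow_le_one₀ h0 h1)
  · rfl

theorem flat_mass_lower (δ : ℝ) (hδ : 0 < δ) :
    ∃ ρ : ℝ, 0 ≤ ρ ∧ ρ < 1 ∧ ∃ K₀ : ℕ, ∀ K, K₀ ≤ K →
      1 - δ ≤ ∑ k : Fin K, 2 * ‖flatC ρ k‖ ^ 2 := by
  have h := flat_hasSum_sq.tendsto_sum_nat
  obtain ⟨K₀, hK₀⟩ := (h.eventually (lt_mem_nhds (show 1 - δ < 1 by linarith))).exists
  have hc : Continuous fun ρ : ℝ => ∑ k ∈ range K₀,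
      (ρ ^ (2 * k + 1)) ^ 2 * (8 / π ^ 2 * (1 / ((2 * k + 1 : ℕ) : ℝ) ^ 2)) := by fun_prop
  have h2 : ∀ᶠ ρ in nhds (1 : ℝ), 1 - δ < ∑ k ∈ range K₀,
      (ρ ^ (2 * k + 1)) ^ 2 * (8 / π ^ 2 * (1 / ((2 * k + 1 : ℕ) : ℝ) ^ 2)) := by
    apply (hc.tendsto 1).eventually (lt_mem_nhds _)
    simpa using hK₀
  have h3 : ∀ᶠ ρ in nhdsWithin (1 : ℝ) (Set.Iio 1), ρ ∈ Set.Ioo (0 : ℝ) 1 :=
    Ioo_mem_nhdsLT (by norm_num)
  obtain ⟨ρ, hρ1, hρ2⟩ := ((h2.filter_mono nhdsWithin_le_nhds).and h3).exists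
  refine ⟨ρ, hρ2.1.le, hρ2.2, K₀, fun K hK => ?_⟩
  rw [Fin.sum_univ_eq_sum_range (fun k => 2 * ‖flatC ρ k‖ ^ 2)]
  simp only [flat_normSq]
  refine hρ1.le.trans (sum_le_sum_of_subset_of_nonneg (range_mono hK) fun k _ _ => by positivity)

end Crest.Agent.R075
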