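import Crest.Agent.R075.Pieces

/-! The contribution of the lines of the design. -/

set_option autoImplicit false

namespace Crest.Agent.R075

open Real Crest.Agent.R210 Finset Filter Topology

variable {η Λ ζ K : ℝ} {S σ σ₁ σ₂ : ℝ → ℝ}

theorem ev_small (f : ℝ → ℝ) (hf : Continuous f) (f0 : f 0 = 0) {e : ℝ} (he : 0 < e) :
    ∀ᶠ x in 𝓝[>] (0 : ℝ), f x < e :=
  mem_nhdsWithin_of_mem_nhds (hf.continuousAt.eventually_lt continuousAt_const (by rwa [f0]))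

theorem exists_phase {Z : ℂ} (hZ : ‖Z‖ = 1) : ∃ θ, Z = ee θ := by
  obtain ⟨a, ε, -, h, -⟩ := exists_ee hZ 1 one_pos
  exact ⟨_, h⟩

theorem exists_unit (α F : ℂ) (hF : ‖F‖ = 1) : ∃ ω : ℂ, ‖ω‖ = 1 ∧ α = ‖α‖ * (ω * F) := by
  have F0 : F ≠ 0 := by rintro rfl; simp at hF
  by_cases h : α = 0
  · exact ⟨1, by simp, by simp [h]⟩
  · have : ((‖α‖ : ℝ) : ℂ) ≠ 0 := by simpa using h
    refine ⟨α / ‖α‖ / F, by simp [hF, h], by field_simp⟩

theorem amp_eq {N m Δ : ℝ} (hN : 0 ≤ N) (hm : 0 ≤ m) (hΔ : 0 < Δ) :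
    √N * m = √(m / Δ) * √(N * m * Δ) := by
  rw [← Real.sqrt_mul (div_nonneg hm hΔ.le), show m / Δ * (N * m * Δ) = N * m ^ 2 by field_simp,
    Real.sqrt_mul hN, Real.sqrt_sq hm]

theorem main_crude (h : Profile η Λ ζ K S σ σ₁ σ₂) {N m Δ : ℝ} (hN : 0 < N) (hm : 0 < m)
    (hΔ : 0 < Δ) (Z : ℂ) (z : ℝ) :
    |2 * ((√N : ℝ) * (m * Z * JJ S (N * m * Δ) z)).re| ≤ 16 * √(m / Δ) * ‖Z‖ := by
  have h1 := h.J_all (show 0 < N * m * Δ by positivity) z
  have h2 := Complex.abs_re_le_norm ((√N : ℝ) * (m * Z * JJ S (N * m * Δ) z))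
  rw [norm_mul, norm_mul, norm_mul, Complex.norm_real, Complex.norm_real,
    Real.norm_of_nonneg (sqrt_nonneg _), Real.norm_of_nonneg hm.le,
    show √N * (m * ‖Z‖ * ‖JJ S (N * m * Δ) z‖) = √N * m * ‖JJ S (N * m * Δ) z‖ * ‖Z‖ by ring,
    amp_eq hN.le hm.le hΔ, mul_assoc √(m / Δ)] at h2
  have h3 := mul_le_mul_of_nonneg_right (mul_le_mul_of_nonneg_left h1 (sqrt_nonneg (m / Δ)))
    (norm_nonneg Z)
  rw [abs_mul, abs_two]
  linarith

theorem lines_bound (h : Profile η Λ ζ K S σ σ₁ σ₂) (hΛ : 0 < Λ) {F : ℂ} (hF1 : ‖F‖ = 1)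
    (hF : ∀ r : ℝ, 0 < r → ‖(∫ x in -r..r, ee (x ^ 2 / 2)) - F‖ ≤ 1 / r)
    {B : Type*} [Fintype B] (s : B → ℕ) (hs : ∀ b, 0 < s b) (r : B → ℤ) (α ω : B → ℂ)
    (a : B → ℝ) (M₀ κ ρ d M τ : ℝ) (L : ℕ)
    (hflat : ∀ t x : ℝ, |2 * (∑ b, α b * ee (s b * t + r b * x)).re| ≤ M₀)
    (hκ : 0 ≤ κ) (h0 : ∀ b, 0 ≤ a b) (h2 : ∀ b, κ * a b ≤ 2) (hω : ∀ b, ‖ω b‖ = 1)
    (hα : ∀ b, α b = ‖α b‖ * (ω b * F)) (hd : ∀ b, |a b - ‖α b‖| ≤ d) (d0 : 0 ≤ d)
    (hρ : κ ≤ ρ * √(1 - η)) (hM1 : ρ * (M₀ + 2 * Fintype.card B * d) ≤ M)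
    (hM2 : 32 * Fintype.card B / √Λ ≤ M) (hτ : 0 < τ) :
    ∀ᶠ T : ℝ in atTop, ∀ (z : ℝ) (t x : Fin L → ℝ),
      |∑ i : Fin L, 2 * (∑ b, (κ * a b : ℝ) * ω b * ee (s b * t i + r b * x i) *
        ((√(s b * T) : ℝ) * JJ S (s b * T) (z - (i : ℕ)))).re| ≤ M + τ := by
  set u : ℝ := τ / (4 * (Fintype.card B + 1) * (L + 2)) with hu
  have u0 : 0 < u := by positivity
  have u1 : 4 * Fintype.card B * u * (L + 2) ≤ τ := by
    have : τ = 4 * (Fintype.card B + 1) * (L + 2) * u := by rw [hu]; field_simp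
    have h3 : 0 ≤ (L + 2) * u := by positivity
    linarith
  have c0 : 0 ≤ 4 * Fintype.card B * u := by positivity
  have M0 : 0 ≤ M := le_trans (by positivity) hM2
  have M₀0 : 0 ≤ M₀ := (abs_nonneg _).trans (hflat 0 0)
  have ev := eventually_all.2 fun b => (tendsto_id.const_mul_atTop
    (show (0 : ℝ) < s b by exact_mod_cast hs b)).eventually (J_unif h hΛ hF u u0)
  filter_upwards [ev] with T hT z t x
  simp only [id] at hT
  have crude : ∀ (i : Fin L) y, (∀ b, ‖(√(s b * T) : ℝ) * JJ S (s b * T) (z - (i : ℕ))‖ ≤ y) →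
      |2 * (∑ b, (κ * a b : ℝ) * ω b * ee (s b * t i + r b * x i) *
        ((√(s b * T) : ℝ) * JJ S (s b * T) (z - (i : ℕ)))).re| ≤ 4 * Fintype.card B * y :=
    fun i y hy => piece_crude (fun b => κ * a b) ω _ _ y (fun b => mul_nonneg hκ (h0 b)) h2 hω
      (fun b => norm_ee _) hy
  refine (sum_pieces h _ z (4 * Fintype.card B * u) (M + 8 * Fintype.card B * u) c0 (by linarith)
    (fun i hi => crude i u fun b => (hT b).2.2 _ hi)
    (fun i hi => (crude i _ fun b => (hT b).2.1 _ hi).trans ?_)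
    (fun i w w1 w2 e => ?_)).trans (by linarith)
  · have : 4 * Fintype.card B * (4 / √Λ + u) =
        32 * Fintype.card B / √Λ / 2 + 4 * Fintype.card B * u := by ring
    linarith
  · have p0 : 0 < √(σ₁ w) := sqrt_pos.2 (by linarith [h.half w])
    have H := piece_mid a α ω (fun b => ee (s b * t i + r b * x i))
      (fun b => (√(s b * T) : ℝ) * JJ S (s b * T) (z - (i : ℕ)))
      (fun b => ee (s b * T * (S w - σ w * w))) F κ √(σ₁ w) u M₀ d hκ p0 h0 h2 hω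
      (fun b => norm_ee _) (fun b => norm_ee _) hF1 hα (fun b => by
        rw [e]; exact (hT b).1 w w1 w2) (by
        have := hflat (t i + T * (S w - σ w * w)) (x i)
        refine le_trans (le_of_eq ?_) this
        congr 3
        refine sum_congr rfl fun b _ => ?_
        rw [← ee_add]
        congr 2
        ring) hd
    have q0 : 0 < √(1 - η) := sqrt_pos.2 (by linarith [h.η1])
    have ρ0 : 0 ≤ ρ := nonneg_of_mul_nonneg_left (hκ.trans hρ) q0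
    have k1 : κ / √(σ₁ w) ≤ ρ := by
      rw [div_le_iff₀ p0]
      exact hρ.trans (mul_le_mul_of_nonneg_left (Real.sqrt_le_sqrt (h.lo w)) ρ0)
    have k2 := mul_le_mul_of_nonneg_right k1
      (show 0 ≤ M₀ + 2 * Fintype.card B * d by positivity)
    linarith

end Crest.Agent.R075
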