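import Mathlib

/-! The partial colouring lemma (entropy method, in weighted pigeonhole form). -/

set_option autoImplicit false

namespace Crest.Agent.R075

open Finset

/-- sign of a Boolean -/
noncomputable def spSg (b : Bool) : ℝ := if b then 1 else -1

lemma sp_sum_exp {ι : Type} [Fintype ι] [DecidableEq ι] (u : ι → ℝ) (t : ℝ)
    (hu : ∀ i, |u i| ≤ 1) :
    ∑ x : ι → Bool, Real.exp (t * ∑ i, spSg (x i) * u i) ≤
      2 ^ Fintype.card ι * Real.exp (t ^ 2 * Fintype.card ι / 2) := by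
  have h1 : ∑ x : ι → Bool, Real.exp (t * ∑ i, spSg (x i) * u i) =
      ∏ i, ∑ b : Bool, Real.exp (t * (spSg b * u i)) := by
    rw [Finset.prod_univ_sum, Fintype.piFinset_univ]
    refine Finset.sum_congr rfl fun x _ => ?_
    rw [Finset.mul_sum, Real.exp_sum]
  rw [h1]
  have h2 : ∀ i, ∑ b : Bool, Real.exp (t * (spSg b * u i)) ≤ 2 * Real.exp (t ^ 2 / 2) := by
    intro i
    have a1 := Real.cosh_le_exp_half_sq (t * u i)
    rw [Real.cosh_eq] at a1
    have a2 : (u i) ^ 2 ≤ 1 := by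
      have := hu i
      rw [← sq_abs]
      nlinarith [abs_nonneg (u i)]
    have a3 : Real.exp ((t * u i) ^ 2 / 2) ≤ Real.exp (t ^ 2 / 2) := by
      apply Real.exp_le_exp.2
      rw [mul_pow]
      nlinarith [sq_nonneg t]
    simp only [Fintype.sum_bool, spSg, if_true, Bool.false_eq_true, if_false, one_mul, neg_mul,
      mul_neg]
    linarith
  calc _ ≤ ∏ _i : ι, (2 * Real.exp (t ^ 2 / 2)) :=
        Finset.prod_le_prod (fun i _ => Finset.sum_nonneg fun b _ => (Real.exp_pos _).le)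
          fun i _ => h2 i
    _ = _ := by
        rw [Finset.prod_const, Finset.card_univ, mul_pow, ← Real.exp_nat_mul]
        congr 2; ring

lemma sp_pow_six (s : ℝ) : s ^ 6 ≤ 720 * (Real.exp s + Real.exp (-s)) := by
  have h1 := Real.pow_div_factorial_le_exp |s| (abs_nonneg s) 6
  have h2 : |s| ^ 6 = s ^ 6 := by
    rw [show (6 : ℕ) = 2 * 3 from rfl, pow_mul, pow_mul, sq_abs]
  have h3 : Real.exp |s| ≤ Real.exp s + Real.exp (-s) := by
    rcases abs_cases s with h | h
    · rw [h.1]; linarith [Real.exp_pos (-s)]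
    · rw [h.1]; linarith [Real.exp_pos s]
  rw [h2] at h1
  norm_num [Nat.factorial] at h1
  linarith

lemma sp_sixth {ι : Type} [Fintype ι] [DecidableEq ι] (u : ι → ℝ) (hu : ∀ i, |u i| ≤ 1)
    (hn : 0 < Fintype.card ι) :
    ∑ x : ι → Bool, (∑ i, spSg (x i) * u i) ^ 6 ≤
      2 ^ Fintype.card ι * (2880 * (Fintype.card ι : ℝ) ^ 3) := by
  have hn' : (0 : ℝ) < Fintype.card ι := by exact_mod_cast hn
  obtain ⟨r, hr, hr2⟩ : ∃ r : ℝ, 0 < r ∧ r ^ 2 = Fintype.card ι :=
    ⟨√(Fintype.card ι), Real.sqrt_pos.2 hn', Real.sq_sqrt hn'.le⟩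
  have e1 := sp_sum_exp u r⁻¹ hu
  have e2 := sp_sum_exp u (-r⁻¹) hu
  have e3 : (r⁻¹) ^ 2 * Fintype.card ι / 2 = 1 / 2 := by rw [← hr2]; field_simp
  rw [neg_sq] at e2
  rw [e3] at e1 e2
  have e4 : Real.exp (1 / 2) ≤ 2 := by
    have h1 : Real.exp (1 / 2) ^ 2 = Real.exp 1 := by rw [← Real.exp_nat_mul]; norm_num
    have h2 := Real.exp_one_lt_d9
    nlinarith [Real.exp_pos (1 / 2)]
  have e5 : ∀ x : ι → Bool, (∑ i, spSg (x i) * u i) ^ 6 ≤ (Fintype.card ι : ℝ) ^ 3 * 720 *
      (Real.exp (r⁻¹ * ∑ i, spSg (x i) * u i) + Real.exp (-r⁻¹ * ∑ i, spSg (x i) * u i)) := by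
    intro x
    generalize ∑ i, spSg (x i) * u i = Y
    have := sp_pow_six (r⁻¹ * Y)
    rw [neg_mul, ← hr2]
    calc Y ^ 6 = (r ^ 2) ^ 3 * (r⁻¹ * Y) ^ 6 := by field_simp
      _ ≤ (r ^ 2) ^ 3 * (720 * (Real.exp (r⁻¹ * Y) + Real.exp (-(r⁻¹ * Y)))) := by gcongr
      _ = _ := by ring
  refine (Finset.sum_le_sum fun x _ => e5 x).trans ?_
  rw [← Finset.mul_sum, Finset.sum_add_distrib]
  have e6 : (0 : ℝ) < 2 ^ Fintype.card ι := by positivity
  calc _ ≤ (Fintype.card ι : ℝ) ^ 3 * 720 * (2 ^ Fintype.card ι * 2 + 2 ^ Fintype.card ι * 2) := by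
        gcongr
        · exact e1.trans (by gcongr)
        · exact e2.trans (by gcongr)
    _ = _ := by ring

lemma sp_round (u : ℝ) : |(round u : ℝ)| ≤ (2 * u) ^ 6 := by
  have h1 := abs_sub_round u
  by_cases h : |u| < 1 / 2
  · have h2 : |(round u : ℝ)| < 1 := by
      have := abs_sub_abs_le_abs_sub (round u : ℝ) u
      rw [abs_sub_comm] at this
      linarith
    have h3 : round u = 0 := by
      have : |round u| < 1 := by exact_mod_cast h2
      exact Int.abs_lt_one_iff.1 this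
    rw [h3]; simp; positivity
  · have h2 : |(round u : ℝ)| ≤ 2 * |u| := by
      have := abs_sub_abs_le_abs_sub (round u : ℝ) u
      rw [abs_sub_comm] at this
      linarith
    have h3 : (2 * u) ^ 6 = (2 * |u|) ^ 6 := by
      rw [mul_pow, mul_pow, show (6 : ℕ) = 2 * 3 from rfl, pow_mul u, pow_mul |u|, sq_abs]
    rw [h3]
    exact h2.trans (le_self_pow₀ (by linarith) (by norm_num))

/-- an injective code of the integers -/
def spCode (z : ℤ) : ℕ := if 0 ≤ z then 2 * z.natAbs else 2 * z.natAbs - 1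

lemma spCode_inj : Function.Injective spCode := by
  intro a b h
  unfold spCode at h
  split_ifs at h <;> omega

lemma spCode_le (z : ℤ) : (spCode z : ℝ) ≤ 2 * |(z : ℝ)| := by
  have : spCode z ≤ 2 * z.natAbs := by unfold spCode; split_ifs <;> omega
  have h2 : ((z.natAbs : ℕ) : ℝ) = |(z : ℝ)| := by
    rw [← Int.cast_natCast, Int.natCast_natAbs, Int.cast_abs]
  rw [← h2]; exact_mod_cast this

lemma sp_weight_sum (a : ℝ) (ha : 0 ≤ a) (ha1 : a < 1) (t : Finset ℤ) :
    ∑ z ∈ t, (1 - a) * a ^ spCode z ≤ 1 := by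
  rw [← Finset.mul_sum, ← Finset.sum_image (s := t) (g := spCode) (f := fun k => a ^ k)
    spCode_inj.injOn]
  have := sum_le_hasSum (t.image spCode) (fun k _ => pow_nonneg ha k)
    (hasSum_geometric_of_lt_one ha ha1)
  have h1 : 0 < 1 - a := by linarith
  calc _ ≤ (1 - a) * (1 - a)⁻¹ := by gcongr
    _ = 1 := mul_inv_cancel₀ h1.ne'

lemma sp_ball {ι : Type} [Fintype ι] [DecidableEq ι] (x₀ : ι → Bool) (T : Finset (ι → Bool))
    (hT : ∀ x ∈ T, 10 * (univ.filter fun i => x i ≠ x₀ i).card ≤ Fintype.card ι) :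
    (T.card : ℝ) ≤ Real.exp (Fintype.card ι * (1 / 3 + 1 / 5)) := by
  have h1 : ∑ x : ι → Bool, ∏ i, (if x i ≠ x₀ i then Real.exp (-2) else 1) =
      (1 + Real.exp (-2)) ^ Fintype.card ι := by
    rw [← Fintype.piFinset_univ, ← Finset.prod_univ_sum (fun _ => (univ : Finset Bool))
      (fun i b => if b ≠ x₀ i then Real.exp (-2) else 1), ← Finset.card_univ, ← Finset.prod_const]
    refine Finset.prod_congr rfl fun i _ => ?_
    cases x₀ i <;> simp [add_comm]
  have h2 : ∀ x ∈ T, Real.exp (-(Fintype.card ι * (1 / 5))) ≤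
      ∏ i, (if x i ≠ x₀ i then Real.exp (-2) else 1) := by
    intro x hx
    rw [Finset.prod_ite, Finset.prod_const_one, mul_one, Finset.prod_const, ← Real.exp_nat_mul]
    apply Real.exp_le_exp.2
    have : (10 : ℝ) * (univ.filter fun i => x i ≠ x₀ i).card ≤ Fintype.card ι := by
      exact_mod_cast hT x hx
    linarith
  have h3 : (T.card : ℝ) * Real.exp (-(Fintype.card ι * (1 / 5))) ≤
      (1 + Real.exp (-2)) ^ Fintype.card ι := by
    rw [← h1, ← nsmul_eq_mul]
    refine (Finset.card_nsmul_le_sum _ _ _ h2).trans ?_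
    refine Finset.sum_le_sum_of_subset_of_nonneg (Finset.subset_univ _) fun x _ _ => ?_
    exact Finset.prod_nonneg fun i _ => by split_ifs <;> positivity
  have h4 : 1 + Real.exp (-2) ≤ Real.exp (1 / 3) := by
    have a1 := Real.add_one_le_exp (1 / 3 : ℝ)
    have a2 := Real.add_one_le_exp (2 : ℝ)
    have a3 : Real.exp (-2) ≤ 1 / 3 := by
      rw [Real.exp_neg, inv_eq_one_div]
      exact one_div_le_one_div_of_le (by norm_num) (by linarith)
    linarith
  have h5 : (1 + Real.exp (-2)) ^ Fintype.card ι ≤ Real.exp (Fintype.card ι * (1 / 3)) := by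
    rw [Real.exp_nat_mul]
    gcongr
  have h6 := h3.trans h5
  rw [Real.exp_neg, ← div_eq_mul_inv, div_le_iff₀ (Real.exp_pos _), ← Real.exp_add] at h6
  rwa [mul_add]

lemma sp_pigeon {Ω κ : Type} [Fintype Ω] [Fintype κ] (b : Ω → κ → ℤ) (a N : ℝ) (ha : 0 ≤ a)
    (ha1 : a < 1) (hN0 : 0 ≤ N)
    (hN : ∀ (x₀ : Ω) (T : Finset Ω), (∀ x ∈ T, b x = b x₀) → (T.card : ℝ) ≤ N) :
    ∑ x, ∏ j, ((1 - a) * a ^ spCode (b x j)) ≤ N := by
  classical
  have h0 : ∀ z, 0 ≤ (1 - a) * a ^ spCode z := fun z => mul_nonneg (by linarith) (pow_nonneg ha _)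
  rw [← Finset.sum_fiberwise_of_maps_to (s := univ) (t := univ.image b) (g := b)
    (fun x hx => Finset.mem_image_of_mem b hx)]
  have h1 : ∀ β ∈ univ.image b, ∑ x ∈ univ.filter (fun x => b x = β),
      ∏ j, ((1 - a) * a ^ spCode (b x j)) ≤ N * ∏ j, ((1 - a) * a ^ spCode (β j)) := by
    intro β hβ
    obtain ⟨x₀, -, rfl⟩ := Finset.mem_image.1 hβ
    rw [Finset.sum_congr rfl (g := fun _ => ∏ j, ((1 - a) * a ^ spCode (b x₀ j)))
      (fun x hx => by rw [(Finset.mem_filter.1 hx).2]), Finset.sum_const, nsmul_eq_mul]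
    exact mul_le_mul_of_nonneg_right (hN x₀ _ fun x hx => (Finset.mem_filter.1 hx).2)
      (Finset.prod_nonneg fun j _ => h0 _)
  refine (Finset.sum_le_sum h1).trans ?_
  rw [← Finset.mul_sum]
  refine mul_le_of_le_one_right hN0 ?_
  have h2 : univ.image b ⊆ Fintype.piFinset fun j => univ.image fun x => b x j := by
    intro β hβ
    obtain ⟨x₀, -, rfl⟩ := Finset.mem_image.1 hβ
    exact Fintype.mem_piFinset.2 fun j => Finset.mem_image.2 ⟨x₀, Finset.mem_univ _, rfl⟩
  refine (Finset.sum_le_sum_of_subset_of_nonneg h2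
    fun β _ _ => Finset.prod_nonneg fun j _ => h0 _).trans ?_
  rw [← Finset.prod_univ_sum (fun j => univ.image fun x => b x j)
    (fun _ z => (1 - a) * a ^ spCode z)]
  exact Finset.prod_le_one (fun j _ => Finset.sum_nonneg fun z _ => h0 z)
    fun j _ => sp_weight_sum a ha ha1 _

lemma sp_weight_ge (a K : ℝ) (ha : 0 < a) (ha1 : a ≤ 1 / 2) (hK : -Real.log a ≤ K) (u : ℝ) :
    Real.exp (-(2 * a + 2 * K * (2 * u) ^ 6)) ≤ (1 - a) * a ^ spCode (round u) := by
  have h1 : Real.exp (-(2 * a)) ≤ 1 - a := by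
    rw [Real.exp_neg, inv_le_comm₀ (Real.exp_pos _) (by linarith)]
    refine le_trans ?_ (Real.add_one_le_exp _)
    rw [inv_le_iff_one_le_mul₀ (by linarith)]
    nlinarith
  have hl : Real.log a ≤ 0 := Real.log_nonpos ha.le (by linarith)
  have h2 : Real.exp (-(2 * K * (2 * u) ^ 6)) ≤ a ^ spCode (round u) := by
    conv_rhs => rw [← Real.exp_log ha, ← Real.exp_nat_mul]
    apply Real.exp_le_exp.2
    have a1 := spCode_le (round u)
    have a2 := sp_round u
    have a3 : (0 : ℝ) ≤ spCode (round u) := Nat.cast_nonneg _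
    nlinarith
  rw [neg_add, Real.exp_add]
  exact mul_le_mul h1 h2 (Real.exp_pos _).le (by linarith)

theorem sp_partial {ι κ : Type} [Fintype ι] [DecidableEq ι] [Fintype κ] (v : κ → ι → ℝ)
    (hv : ∀ j i, |v j i| ≤ 1) (hn : 0 < Fintype.card ι) (hm : Fintype.card ι ≤ Fintype.card κ)
    (D : ℝ) (hD : 0 < D) (hD4 : D ^ 4 = Fintype.card ι * Fintype.card κ) :
    ∃ x x₀ : ι → Bool, Fintype.card ι < 10 * (univ.filter fun i => x i ≠ x₀ i).card ∧
      ∀ j, |∑ i, spSg (x i) * v j i - ∑ i, spSg (x₀ i) * v j i| ≤ 20 * D := by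
  by_contra hcon
  push Not at hcon
  obtain ⟨n, hn'⟩ : ∃ n : ℝ, n = Fintype.card ι := ⟨_, rfl⟩
  obtain ⟨m, hm'⟩ : ∃ m : ℝ, m = Fintype.card κ := ⟨_, rfl⟩
  have n0 : 0 < n := by rw [hn']; exact_mod_cast hn
  have nm : n ≤ m := by rw [hn', hm']; exact_mod_cast hm
  have m0 : 0 < m := n0.trans_le nm
  rw [← hn', ← hm'] at hD4
  let Y : (ι → Bool) → κ → ℝ := fun x j => ∑ i, spSg (x i) * v j i
  let b : (ι → Bool) → κ → ℤ := fun x j => round (Y x j / (20 * D))
  obtain ⟨a, ha⟩ : ∃ a : ℝ, a = n / (100 * m) := ⟨_, rfl⟩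
  have a0 : 0 < a := by rw [ha]; positivity
  have a1 : a ≤ 1 / 2 := by rw [ha, div_le_iff₀ (by positivity)]; linarith
  obtain ⟨K, hK⟩ : ∃ K : ℝ, K = 20 * D ^ 2 / n := ⟨_, rfl⟩
  have K0 : 0 ≤ K := by rw [hK]; positivity
  have hKa : -Real.log a ≤ K := by
    have e : a⁻¹ = (10 * D ^ 2 / n) ^ 2 := by
      rw [ha, div_pow, mul_pow, ← pow_mul, hD4]; field_simp; norm_num
    rw [← Real.log_inv, e, Real.log_pow]
    have := Real.log_le_sub_one_of_pos (x := 10 * D ^ 2 / n) (by positivity)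
    have e2 : K = 2 * (10 * D ^ 2 / n) := by rw [hK]; ring
    push_cast
    linarith
  have h1 := sp_pigeon b a (Real.exp (n * (1 / 3 + 1 / 5))) a0.le (by linarith)
    (Real.exp_pos _).le (by
      intro x₀ T hT
      rw [hn']
      refine sp_ball x₀ T fun x hx => ?_
      by_contra hlt
      obtain ⟨j, hj⟩ := hcon x x₀ (not_le.1 hlt)
      have e1 : round (Y x j / (20 * D)) = round (Y x₀ j / (20 * D)) := congrFun (hT x hx) j
      have e2 := abs_sub_round (Y x j / (20 * D))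
      have e3 := abs_sub_round (Y x₀ j / (20 * D))
      rw [e1] at e2
      have e4 : |Y x j / (20 * D) - Y x₀ j / (20 * D)| ≤ 1 := by
        have := abs_sub_le (Y x j / (20 * D)) (round (Y x₀ j / (20 * D)) : ℝ) (Y x₀ j / (20 * D))
        rw [abs_sub_comm (round (Y x₀ j / (20 * D)) : ℝ)] at this
        linarith
      rw [← sub_div, abs_div, abs_of_pos (by positivity : 0 < 20 * D),
        div_le_one (by positivity)] at e4
      exact absurd e4 (not_le.2 hj))
  let cost : (ι → Bool) → ℝ := fun x => ∑ j, (2 * a + 2 * K * (2 * (Y x j / (20 * D))) ^ 6)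
  have h2 : ∀ x, Real.exp (-cost x) ≤ ∏ j, ((1 - a) * a ^ spCode (b x j)) := by
    intro x
    simp only [cost]
    rw [← Finset.sum_neg_distrib, Real.exp_sum]
    exact Finset.prod_le_prod (fun j _ => (Real.exp_pos _).le)
      fun j _ => sp_weight_ge a K a0 a1 hKa _
  have h3 : ∑ x, cost x ≤ 2 ^ Fintype.card ι * (n * (7 / 50)) := by
    simp only [cost]
    rw [Finset.sum_comm]
    have : ∀ j, ∑ x : ι → Bool, (2 * a + 2 * K * (2 * (Y x j / (20 * D))) ^ 6) ≤
        2 ^ Fintype.card ι * (n / m * (7 / 50)) := by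
      intro j
      have e1 := sp_sixth (v j) (hv j) hn
      rw [← hn'] at e1
      have e2 : ∀ x, 2 * K * (2 * (Y x j / (20 * D))) ^ 6 =
          1 / (25000 * n ^ 2 * m) * Y x j ^ 6 := by
        intro x
        have : n ^ 2 * m = n * D ^ 4 := by rw [hD4]; ring
        rw [mul_assoc 25000, this, hK]
        field_simp
        ring
      simp only [e2]
      rw [Finset.sum_add_distrib, Finset.sum_const, Finset.card_univ,
        Fintype.card_fun, Fintype.card_bool, nsmul_eq_mul, ← Finset.mul_sum]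
      push_cast
      have e3 : 1 / (25000 * n ^ 2 * m) * ∑ x, Y x j ^ 6 ≤
          1 / (25000 * n ^ 2 * m) * (2 ^ Fintype.card ι * (2880 * n ^ 3)) := by
        gcongr
      have e4 : 1 / (25000 * n ^ 2 * m) * (2 ^ Fintype.card ι * (2880 * n ^ 3)) =
          2 ^ Fintype.card ι * (n / m * (72 / 625)) := by
        field_simp; norm_num
      have e5 : 2 * a = n / m * (1 / 50) := by rw [ha]; field_simp; norm_num
      rw [e5]
      have e6 : (0 : ℝ) < 2 ^ Fintype.card ι * (n / m) := by positivity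
      nlinarith
    refine (Finset.sum_le_sum fun j _ => this j).trans (le_of_eq ?_)
    rw [Finset.sum_const, Finset.card_univ, nsmul_eq_mul, ← hm']
    field_simp
  have h4 : ∀ x, Real.exp (-(n * (7 / 50))) * (1 + n * (7 / 50) - cost x) ≤ Real.exp (-cost x) := by
    intro x
    have := Real.add_one_le_exp (n * (7 / 50) - cost x)
    calc _ ≤ Real.exp (-(n * (7 / 50))) * Real.exp (n * (7 / 50) - cost x) := by
          gcongr; linarith
      _ = _ := by rw [← Real.exp_add]; congr 1; ring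
  have h5 : Real.exp (-(n * (7 / 50))) * 2 ^ Fintype.card ι ≤ Real.exp (n * (1 / 3 + 1 / 5)) := by
    refine le_trans ?_ ((Finset.sum_le_sum fun x _ => (h4 x).trans (h2 x)).trans h1)
    rw [← Finset.mul_sum]
    gcongr
    rw [Finset.sum_sub_distrib, Finset.sum_const, Finset.card_univ, Fintype.card_fun,
      Fintype.card_bool, nsmul_eq_mul]
    push_cast
    linarith
  have h6 : (2 : ℝ) ^ Fintype.card ι = Real.exp (n * Real.log 2) := by
    rw [hn', Real.exp_nat_mul, Real.exp_log (by norm_num)]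
  rw [h6, ← Real.exp_add, Real.exp_le_exp] at h5
  have := Real.log_two_gt_d9
  nlinarith

end Crest.Agent.R075
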