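import Mathlib
import Crest.Agent.R075.SpencerPart

/-! A weak form of Spencer's theorem (partial colouring), with bound `C (n m)^{1/4}`. -/

set_option autoImplicit false

namespace Crest.Agent.R075

open Finset

lemma sp_root4 (x : ℝ) (hx : 0 ≤ x) : (√(√x)) ^ 4 = x := by
  rw [show (4 : ℕ) = 2 * 2 from rfl, pow_mul, Real.sq_sqrt (Real.sqrt_nonneg _), Real.sq_sqrt hx]

lemma sp_partial' {ι κ : Type} [Fintype κ] (S : Finset ι) (v : κ → ι → ℝ)
    (hv : ∀ j i, |v j i| ≤ 1) (hn : 0 < S.card) (hm : S.card ≤ Fintype.card κ) :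
    ∃ (χ : ι → ℝ) (S' : Finset ι), S' ⊆ S ∧ 10 * S'.card < 9 * S.card ∧
      (∀ i ∈ S', χ i = 0) ∧ (∀ i, i ∉ S' → χ i = 1 ∨ χ i = -1) ∧
      ∀ j, |∑ i ∈ S, χ i * v j i| ≤ 10 * √(√((S.card : ℝ) * Fintype.card κ)) := by
  classical
  have hc : Fintype.card S = S.card := Fintype.card_coe S
  have hpos : (0 : ℝ) < (S.card : ℝ) * Fintype.card κ := by
    have : 0 < Fintype.card κ := hn.trans_le hm
    positivity
  obtain ⟨x, x₀, h1, h2⟩ := sp_partial (ι := S) (fun j i => v j i) (fun j i => hv j i)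
    (hc ▸ hn) (hc ▸ hm) (√(√((S.card : ℝ) * Fintype.card κ)))
    (Real.sqrt_pos.2 (Real.sqrt_pos.2 hpos)) (by rw [sp_root4 _ hpos.le, hc])
  refine ⟨fun i => if h : i ∈ S then (spSg (x ⟨i, h⟩) - spSg (x₀ ⟨i, h⟩)) / 2 else 1,
    (univ.filter fun i : S => x i = x₀ i).map (Function.Embedding.subtype _), ?_, ?_, ?_, ?_, ?_⟩
  · intro i hi
    obtain ⟨i, -, rfl⟩ := Finset.mem_map.1 hi
    exact i.2
  · rw [Finset.card_map]
    have := Finset.card_filter_add_card_filter_not (s := (univ : Finset S)) (fun i => x i = x₀ i)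
    rw [Finset.card_univ, hc] at this
    rw [hc] at h1
    simp only [ne_eq] at h1
    omega
  · intro i hi
    obtain ⟨i, hi', rfl⟩ := Finset.mem_map.1 hi
    have := (Finset.mem_filter.1 hi').2
    simp [this]
  · intro i hi
    by_cases h : i ∈ S
    · have : x ⟨i, h⟩ ≠ x₀ ⟨i, h⟩ := fun e =>
        hi (Finset.mem_map.2 ⟨⟨i, h⟩, Finset.mem_filter.2 ⟨Finset.mem_univ _, e⟩, rfl⟩)
      simp only [dif_pos h]
      revert this
      cases x ⟨i, h⟩ <;> cases x₀ ⟨i, h⟩ <;> norm_num [spSg]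
    · simp [h]
  · intro j
    have e : ∑ i ∈ S, (if h : i ∈ S then (spSg (x ⟨i, h⟩) - spSg (x₀ ⟨i, h⟩)) / 2 else 1) * v j i =
        (∑ i : S, spSg (x i) * v j i - ∑ i : S, spSg (x₀ i) * v j i) / 2 := by
      rw [← Finset.sum_coe_sort S, ← Finset.sum_sub_distrib, Finset.sum_div]
      refine Finset.sum_congr rfl fun i _ => ?_
      rw [dif_pos i.2]; ring
    rw [e, abs_div, abs_two]
    linarith [h2 j]

theorem spencer : ∃ C : ℝ, 0 < C ∧ ∀ (ι κ : Type) [Fintype κ] (S : Finset ι) (v : κ → ι → ℝ),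
    (∀ j i, |v j i| ≤ 1) → S.card ≤ Fintype.card κ →
    ∃ χ : ι → ℝ, (∀ i, χ i = 1 ∨ χ i = -1) ∧
      ∀ j, |∑ i ∈ S, χ i * v j i| ≤ C * √(√((S.card : ℝ) * Fintype.card κ)) := by
  refine ⟨400, by norm_num, fun ι κ _ S v hv => ?_⟩
  classical
  induction S using Finset.strongInduction with
  | H S ih =>
    intro hm
    rcases Nat.eq_zero_or_pos S.card with h0 | hn
    · rw [Finset.card_eq_zero] at h0
      subst h0
      exact ⟨fun _ => 1, fun _ => Or.inl rfl, fun j => by simp⟩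
    obtain ⟨χ, S', h1, h2, h3, h4, h5⟩ := sp_partial' S v hv hn hm
    have hss : S' ⊂ S := Finset.ssubset_iff_subset_ne.2 ⟨h1, fun e => by rw [e] at h2; omega⟩
    obtain ⟨χ', h6, h7⟩ := ih S' hss (by omega)
    refine ⟨fun i => if i ∈ S' then χ' i else χ i, fun i => ?_, fun j => ?_⟩
    · by_cases h : i ∈ S'
      · simp only [if_pos h]; exact h6 i
      · simp only [if_neg h]; exact h4 i h
    · have e : ∑ i ∈ S, (if i ∈ S' then χ' i else χ i) * v j i =
          ∑ i ∈ S, χ i * v j i + ∑ i ∈ S', χ' i * v j i := by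
        have : ∑ i ∈ S', χ' i * v j i = ∑ i ∈ S, if i ∈ S' then χ' i * v j i else 0 := by
          rw [Finset.sum_ite_mem, Finset.inter_eq_right.2 h1]
        rw [this, ← Finset.sum_add_distrib]
        refine Finset.sum_congr rfl fun i _ => ?_
        by_cases h : i ∈ S'
        · simp [h, h3 i h]
        · simp [h]
      have hD : √(√((S'.card : ℝ) * Fintype.card κ)) ≤
          39 / 40 * √(√((S.card : ℝ) * Fintype.card κ)) := by
        refine le_of_pow_le_pow_left₀ (n := 4) (by norm_num) (by positivity) ?_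
        rw [mul_pow, sp_root4 _ (by positivity), sp_root4 _ (by positivity)]
        have a1 : (10 : ℝ) * S'.card ≤ 9 * S.card := by exact_mod_cast h2.le
        have a2 : (0 : ℝ) ≤ Fintype.card κ := Nat.cast_nonneg _
        have a3 : (0 : ℝ) ≤ S.card := Nat.cast_nonneg _
        nlinarith [mul_le_mul_of_nonneg_right a1 a2, mul_nonneg a3 a2]
      rw [e]
      have := abs_add_le (∑ i ∈ S, χ i * v j i) (∑ i ∈ S', χ' i * v j i)
      linarith [h5 j, h7 j]

end Crest.Agent.R075
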