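import Crest.Agent.R075.Osc
import Crest.Agent.R075.Spencer

/-! Completing a family of lines to a tiling of the circle; signs for the leftover cells. -/

set_option autoImplicit false

namespace Crest.Agent.R075

open Real Crest.Agent.R210 Finset

theorem part_count {𝔅 : Type*} [Fintype 𝔅] (n : ℕ) (A len : 𝔅 → ℕ) (hB : ∀ b, A b + len b ≤ n)
    (hpart : ∀ j < n, ∑ b, ((if A b ≤ j ∧ j < A b + len b then 1 else 0 : ℕ) +
      (if A b ≤ n - 1 - j ∧ n - 1 - j < A b + len b then 1 else 0 : ℕ)) = 1) :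
    ∑ b, 2 * len b = n := by
  have c : ∀ b, ∑ j ∈ range n, (if A b ≤ j ∧ j < A b + len b then 1 else 0 : ℕ) = len b := by
    intro b
    rw [← card_filter]
    have : (range n).filter (fun j => A b ≤ j ∧ j < A b + len b) = Ico (A b) (A b + len b) := by
      ext j
      have := hB b
      simp only [mem_filter, mem_range, mem_Ico]
      omega
    rw [this, Nat.card_Ico]
    omega
  have := sum_congr rfl fun j (hj : j ∈ range n) => hpart j (mem_range.1 hj)
  rw [sum_comm] at this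
  simp only [sum_const, card_range, smul_eq_mul, mul_one, sum_add_distrib] at this
  rw [← this, ← sum_add_distrib]
  refine sum_congr rfl fun b _ => ?_
  rw [sum_range_reflect (fun j => (if A b ≤ j ∧ j < A b + len b then 1 else 0 : ℕ)), c]
  ring

theorem exists_tiling {𝓛 : Type} [Fintype 𝓛] (W : ℕ) (hW : Odd W) (X s : 𝓛 → ℕ)
    (hX : ∀ l, X l + s l ≤ W)
    (hd : ∀ l l' o o', o < s l → o' < s l' → X l + o = X l' + o' → l = l')
    (hr : ∀ l l' o o', o < s l → o' < s l' → X l + o + (X l' + o') + 1 ≠ W) :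
    ∃ 𝒥 : Finset ℕ, (∀ J ∈ 𝒥, J < W) ∧ 2 * ∑ l, s l + 2 * 𝒥.card + 1 = W ∧
      ∀ A len : 𝓛 ⊕ (𝒥 ⊕ Unit) → ℕ,
        A = Sum.elim (fun l => 2 * X l) (Sum.elim (fun J => 2 * J.1) fun _ => W - 1) →
        len = Sum.elim (fun l => 2 * s l) (Sum.elim (fun _ => 2) fun _ => 1) →
        (∀ b, A b + len b ≤ 2 * W) ∧
        ∀ j < 2 * W, ∑ b, ((if A b ≤ j ∧ j < A b + len b then 1 else 0 : ℕ) +
          (if A b ≤ 2 * W - 1 - j ∧ 2 * W - 1 - j < A b + len b then 1 else 0 : ℕ)) = 1 := by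
  classical
  obtain ⟨V, rfl⟩ := hW
  set 𝒥 := (range V).filter fun J => ∀ l, ¬ (X l ≤ J ∧ J < X l + s l) ∧
    ¬ (X l ≤ 2 * V - J ∧ 2 * V - J < X l + s l) with h𝒥
  have mem : ∀ J, J ∈ 𝒥 ↔ J < V ∧ ∀ l, ¬ (X l ≤ J ∧ J < X l + s l) ∧
      ¬ (X l ≤ 2 * V - J ∧ 2 * V - J < X l + s l) := fun J => by rw [h𝒥, mem_filter, mem_range]
  have hd' : ∀ l l' J, l ≠ l' → ¬ (X l ≤ J ∧ J < X l + s l ∧ X l' ≤ J ∧ J < X l' + s l') :=
    fun l l' J h _ => h (hd l l' (J - X l) (J - X l') (by omega) (by omega) (by omega))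
  have hr' : ∀ l l' J J', ¬ (X l ≤ J ∧ J < X l + s l ∧ X l' ≤ J' ∧ J' < X l' + s l' ∧
      J + J' = 2 * V) := fun l l' J J' _ =>
    hr l l' (J - X l) (J' - X l') (by omega) (by omega) (by omega)
  have key : ∀ A len : 𝓛 ⊕ (𝒥 ⊕ Unit) → ℕ,
      A = Sum.elim (fun l => 2 * X l) (Sum.elim (fun J => 2 * J.1) fun _ => 2 * V + 1 - 1) →
      len = Sum.elim (fun l => 2 * s l) (Sum.elim (fun _ => 2) fun _ => 1) →
      (∀ b, A b + len b ≤ 2 * (2 * V + 1)) ∧
      ∀ j < 2 * (2 * V + 1), ∑ b, ((if A b ≤ j ∧ j < A b + len b then 1 else 0 : ℕ) +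
        (if A b ≤ 2 * (2 * V + 1) - 1 - j ∧ 2 * (2 * V + 1) - 1 - j < A b + len b then 1 else 0 :
          ℕ)) = 1 := by
    rintro A len rfl rfl
    refine ⟨?_, fun j hj => ?_⟩
    · rintro (l | J | u)
      · have := hX l
        simp only [Sum.elim_inl]; omega
      · have := ((mem J).1 J.2).1
        simp only [Sum.elim_inl, Sum.elim_inr]; omega
      · simp only [Sum.elim_inr]; omega
    by_cases h1 : j / 2 = V
    · rw [sum_eq_single (Sum.inr (Sum.inr ()))]
      · simp only [Sum.elim_inr]; split_ifs <;> omega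
      · rintro (l | J | u) - hb
        · have := hr' l l V V
          simp only [Sum.elim_inl]; split_ifs <;> omega
        · have := ((mem J).1 J.2).1
          simp only [Sum.elim_inl, Sum.elim_inr]; split_ifs <;> omega
        · exact absurd rfl hb
      · simp
    by_cases h2 : ∃ l, (X l ≤ j / 2 ∧ j / 2 < X l + s l) ∨
        (X l ≤ 2 * V - j / 2 ∧ 2 * V - j / 2 < X l + s l)
    · obtain ⟨l₀, h2⟩ := h2
      rw [sum_eq_single (Sum.inl l₀)]
      · have := hr' l₀ l₀ (j / 2) (2 * V - j / 2)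
        simp only [Sum.elim_inl]; split_ifs <;> omega
      · rintro (l | J | u) - hb
        · have hb' : l ≠ l₀ := fun e => hb (by rw [e])
          have a1 := hd' l l₀ (j / 2) hb'
          have a2 := hd' l l₀ (2 * V - j / 2) hb'
          have a3 := hr' l l₀ (j / 2) (2 * V - j / 2)
          have a4 := hr' l l₀ (2 * V - j / 2) (j / 2)
          simp only [Sum.elim_inl]; split_ifs <;> omega
        · obtain ⟨a1, a2⟩ := (mem J).1 J.2
          have := a2 l₀
          simp only [Sum.elim_inl, Sum.elim_inr]; split_ifs <;> omega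
        · simp only [Sum.elim_inr]; split_ifs <;> omega
      · simp
    · push Not at h2
      have hJ : min (j / 2) (2 * V - j / 2) ∈ 𝒥 := by
        rw [mem]
        refine ⟨by omega, fun l => ?_⟩
        have := h2 l
        omega
      rw [sum_eq_single (Sum.inr (Sum.inl ⟨_, hJ⟩))]
      · simp only [Sum.elim_inl, Sum.elim_inr]; split_ifs <;> omega
      · rintro (l | J | u) - hb
        · have := h2 l
          simp only [Sum.elim_inl]; split_ifs <;> omega
        · have hb' : J.1 ≠ min (j / 2) (2 * V - j / 2) := fun e => hb (by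
            rw [show J = ⟨_, hJ⟩ from Subtype.ext e])
          have := ((mem J).1 J.2).1
          simp only [Sum.elim_inl, Sum.elim_inr]; split_ifs <;> omega
        · simp only [Sum.elim_inr]; split_ifs <;> omega
      · simp
  refine ⟨𝒥, fun J hJ => by have := ((mem J).1 hJ).1; omega, ?_, key⟩
  obtain ⟨k1, k2⟩ := key _ _ rfl rfl
  have := part_count _ _ _ k1 k2
  simp only [Fintype.sum_sum_type, Sum.elim_inl, Sum.elim_inr, sum_const, card_univ,
    Fintype.card_coe, smul_eq_mul, Fintype.card_unit, ← mul_sum] at this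
  omega

theorem junk_signs : ∃ C : ℝ, 0 < C ∧ ∀ (W : ℕ) (𝒥 : Finset ℕ), 0 < W → 𝒥.card ≤ W →
    ∃ c : ℕ → ℝ, ∀ k : ℤ, ‖∑ J ∈ 𝒥, ee (c J - k * (J / W))‖ ≤ C * √(√(2 * 𝒥.card * W)) := by
  obtain ⟨C, hC, h⟩ := spencer
  refine ⟨2 * C, by positivity, fun W 𝒥 hW hJ => ?_⟩
  obtain ⟨χ, hχ, H⟩ := h ℕ (Fin W × Bool) 𝒥
    (fun j J => if j.2 then (ee (-((j.1 : ℕ) * (J / W)))).re else (ee (-((j.1 : ℕ) * (J / W)))).im)
    (fun j J => by
      split_ifs
      · exact (Complex.abs_re_le_norm _).trans (norm_ee _).le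
      · exact (Complex.abs_im_le_norm _).trans (norm_ee _).le)
    (by simp only [Fintype.card_prod, Fintype.card_fin, Fintype.card_bool]; omega)
  refine ⟨fun J => if χ J = 1 then 0 else 1 / 2, fun k => ?_⟩
  have W0 : (0 : ℤ) < W := by exact_mod_cast hW
  have W0' : (W : ℝ) ≠ 0 := by exact_mod_cast hW.ne'
  obtain ⟨j, hj⟩ := Int.eq_ofNat_of_zero_le (Int.emod_nonneg k W0.ne')
  have hjW : j < W := by have := Int.emod_lt_of_pos k W0; omega
  have e : ∀ J : ℕ, ee ((if χ J = 1 then 0 else 1 / 2) - k * (J / W)) =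
      χ J * ee (-(j * (J / W))) := by
    intro J
    have hk : (k : ℝ) = W * (k / W : ℤ) + j := by
      have := Int.mul_ediv_add_emod k W
      rw [hj] at this
      exact_mod_cast this.symm
    rw [show (if χ J = 1 then 0 else 1 / 2) - k * (J / W : ℝ) = (if χ J = 1 then 0 else 1 / 2) +
      (-(j * (J / W)) + ((-(k / W * J) : ℤ) : ℝ)) by
        nth_rewrite 1 [hk]; push_cast; field_simp; ring, ee_add, ee_add, ee_int, mul_one]
    congr 1
    split_ifs with h1
    · rw [ee_zero, h1, Complex.ofReal_one]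
    · rw [(hχ J).resolve_left h1]
      simp only [ee]
      rw [show 2 * π * (1 / 2) = π by ring]
      simp
  simp only [e]
  have h1 := H (⟨j, hjW⟩, true)
  have h2 := H (⟨j, hjW⟩, false)
  simp only [if_true, Bool.false_eq_true, if_false, Fintype.card_prod, Fintype.card_fin,
    Fintype.card_bool] at h1 h2
  have e2 : (𝒥.card : ℝ) * ((W * 2 : ℕ) : ℝ) = 2 * 𝒥.card * W := by push_cast; ring
  rw [e2] at h1 h2
  refine (Complex.norm_le_abs_re_add_abs_im _).trans ?_
  simp only [Complex.re_sum, Complex.im_sum, Complex.re_ofReal_mul, Complex.im_ofReal_mul]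
  linarith

end Crest.Agent.R075
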