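import Crest.Agent.R075.Lines
import Crest.Agent.R075.Core
import Crest.Agent.R075.Tiling
import Crest.Agent.R075.Design
import Crest.Agent.R075.Flat

/-! A real coefficient sequence bounded by `1 + ε` whose polynomial is nearly flat. -/

set_option autoImplicit false

namespace Crest.Agent.R075

open Real Crest.Agent.R210 Finset Filter Topology

theorem line_sum {n : ℕ} (g : Fin n → ℂ) (X : Fin n → ℕ) (c : Fin n → ℝ) (ω E J : ℂ)
    (N W s ℓ m Δ k amp : ℝ) (hN : 0 ≤ N) (hm : 0 ≤ m) (hΔ : 0 < Δ)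
    (hc : ∀ j, ω * g j = ee (c j)) (hs : ∑ j, g j * ee (-(k * X j / W)) = (√n : ℝ) * E)
    (ha : amp = √(m / Δ) * √n) :
    ∑ j, 2 * ((√N : ℝ) * (m * ee (c j - k * (X j / W + s * ℓ)) * J)).re =
      2 * (amp * ω * (E * ee (s * -(k * ℓ))) * ((√(N * m * Δ) : ℝ) * J)).re := by
  rw [← mul_sum, ← Complex.re_sum]
  congr 2
  have e : ∀ j, ee (c j - k * (X j / W + s * ℓ)) =
      ω * ee (s * -(k * ℓ)) * (g j * ee (-(k * X j / W))) := fun j => by
    rw [show c j - k * (X j / W + s * ℓ) = c j + (s * -(k * ℓ) + -(k * X j / W)) by ring, ee_add,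
      ee_add, ← hc]
    ring
  have e2 : ((√N : ℝ) : ℂ) * m = (√(m / Δ) : ℝ) * (√(N * m * Δ) : ℝ) := by
    exact_mod_cast amp_eq hN hm hΔ
  simp only [e]
  rw [← mul_sum, ← sum_mul, ← mul_sum, ← mul_sum, hs, ha]
  push_cast
  linear_combination (ω * ee (s * -(k * ℓ)) * (√n : ℝ) * E * J) * e2

theorem exists_near (e : ℝ) (e0 : 0 < e) (e1 : e ≤ 1) : ∀ᶠ N : ℕ in atTop, ∃ a : Fin N → ℝ,
    (∀ j, |a j| ≤ 1 + 9 * e) ∧
    ∀ θ ∈ Set.Ico (0 : ℝ) 1, |‖∑ j : Fin N, (a j : ℂ) * ee ((j : ℕ) * θ)‖ - √N| ≤ e * √N := by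
  classical
  obtain ⟨B, _, s, r, α, hs, hdet, hα, hflat⟩ := exists_flat e e0
  obtain ⟨F, hF1, hF⟩ := fresnel
  obtain ⟨C, C0, hC⟩ := junk_signs
  set η := e / 12 with hη
  have η0 : 0 < η := by positivity
  have η1 : η ≤ 1 / 12 := by linarith
  obtain ⟨ζ, K, S, σ, σ₁, σ₂, h⟩ := exists_profile η ((32 * Fintype.card B + 1) ^ 2) η0
    (by linarith)
  obtain ⟨δ, ⟨⟨d1, d2⟩, d3⟩, δ0⟩ := ((((ev_small (fun δ => 2 * Fintype.card B * √δ) (by fun_prop)
    (by simp) e0).and (ev_small (fun δ => 32 * C * √(√(Fintype.card B * δ))) (by fun_prop)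
    (by simp) e0)).and (ev_small (fun δ => (Fintype.card B + 1) * δ) (by fun_prop) (by simp)
    one_pos)).and self_mem_nhdsWithin).exists
  replace δ0 : 0 < δ := δ0
  have cB : (0 : ℝ) ≤ Fintype.card B * δ := by positivity
  obtain ⟨W, L, n, X, g, τ₁, τ₂, hW₀, hW, L0, hX, hd, hr, hn, hg, hsum⟩ :=
    exists_design B s r hs hdet (fun b => 2 * ‖α b‖ ^ 2) (fun b => by positivity) hα δ δ0
      ⌈(32 / e) ^ 2⌉₊
  have W0 : (0 : ℝ) < W := by exact_mod_cast hW.pos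
  have L0' : (0 : ℝ) < L := by exact_mod_cast L0
  obtain ⟨𝒥, hJ, cnt, til⟩ := exists_tiling (𝓛 := Fin L × Σ b, Fin (n b)) W hW
    (fun l => X l.1 l.2) (fun l => s l.2.1) (fun l => hX _ _)
    (fun l l' o o' a b c => Prod.ext (hd _ _ _ _ _ _ a b c).1 (hd _ _ _ _ _ _ a b c).2)
    (fun l l' => hr _ _ _ _)
  obtain ⟨t1, t2⟩ := til _ _ rfl rfl
  obtain ⟨cJ, hcJ⟩ := hC W 𝒥 hW.pos (by omega)
  have cnt' : 2 * (𝒥.card : ℝ) * W ≤ Fintype.card B * δ * W ^ 2 := by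
    have a1 : ∑ b, (2 * ‖α b‖ ^ 2 - δ) ≤ ∑ b, 2 * (s b : ℝ) * n b * L / W :=
      sum_le_sum fun b _ => by linarith [(abs_le.1 (hn b)).1]
    rw [sum_sub_distrib, hα, sum_const, card_univ, nsmul_eq_mul, ← sum_div, le_div_iff₀ W0] at a1
    have a2 : ((2 * ∑ l : Fin L × Σ b, Fin (n b), s l.2.1 : ℕ) : ℝ) =
        ∑ b, 2 * (s b : ℝ) * n b * L := by
      simp only [Fintype.sum_prod_type, Fintype.sum_sigma, sum_const, card_univ, Fintype.card_fin,
        smul_eq_mul, mul_sum]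
      push_cast
      exact sum_congr rfl fun b _ => by ring
    have a3 : ((2 * ∑ l : Fin L × Σ b, Fin (n b), s l.2.1 : ℕ) : ℝ) + 2 * 𝒥.card + 1 = W := by
      exact_mod_cast cnt
    have a4 : 2 * (𝒥.card : ℝ) ≤ Fintype.card B * δ * W := by linarith
    calc _ ≤ Fintype.card B * δ * W * W := mul_le_mul_of_nonneg_right a4 W0.le
      _ = _ := by ring
  set wt : (Fin L × Σ b, Fin (n b)) ⊕ (𝒥 ⊕ Unit) → ℝ :=
    Sum.elim (fun l => s l.2.1) (Sum.elim (fun _ => 1) fun _ => 1 / 2) with hwt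
  have s0 : ∀ b, (0 : ℝ) < s b := fun b => by exact_mod_cast hs b
  have wt0 : ∀ x, 0 < wt x := by
    rintro (l | J | u)
    · exact s0 _
    · exact one_pos
    · exact one_half_pos
  obtain ⟨ℓ, ⟨l1, l2⟩, ℓ0⟩ := (((ev_small (fun ℓ => ∑ x, 32 * √(wt x * ℓ / η)) (by fun_prop)
    (by simp) e0).and (ev_small (fun ℓ => 2 * ℓ) (by fun_prop) (by simp)
    (show 0 < 1 / (W : ℝ) by positivity))).and self_mem_nhdsWithin).exists
  replace ℓ0 : 0 < ℓ := ℓ0
  set m := 1 / (W : ℝ) - 2 * ℓ with hm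
  have m0 : 0 < m := by linarith
  have m1 : m * W ≤ 1 := by rw [← le_div_iff₀ W0]; linarith
  set Δ := (1 - 3 * η) / L with hΔ
  have Δ0 : 0 < Δ := div_pos (by linarith) L0'
  have LΔ : L * Δ = 1 - 3 * η := by rw [hΔ]; field_simp
  choose ω hω hω' using fun b => exists_unit (α b) F hF1
  choose cL hcL using fun l : Fin L × Σ b, Fin (n b) =>
    exists_phase (show ‖ω l.2.1 * g l.1 l.2‖ = 1 by rw [norm_mul, hω, hg, mul_one])
  set κ := √(m * W / (1 - 3 * η)) with hκ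
  set a : B → ℝ := fun b => √(s b * n b * L / W) with ha
  have κ0 : 0 ≤ κ := sqrt_nonneg _
  have a0 : ∀ b, 0 ≤ a b := fun b => sqrt_nonneg _
  have asq : ∀ b, |a b ^ 2 - ‖α b‖ ^ 2| ≤ δ / 2 := fun b => by
    have := hn b
    rw [ha, Real.sq_sqrt (by positivity)]
    rw [show 2 * (s b : ℝ) * n b * L / W - 2 * ‖α b‖ ^ 2 =
      2 * (s b * n b * L / W - ‖α b‖ ^ 2) by ring, abs_mul, abs_two] at this
    linarith
  have ad : ∀ b, |a b - ‖α b‖| ≤ √δ := fun b => by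
    refine Real.abs_le_sqrt ?_
    have := abs_le.1 (asq b)
    rcases le_total (a b) ‖α b‖ with q | q
    · nlinarith [mul_nonneg (a0 b) (sub_nonneg.2 q)]
    · nlinarith [mul_nonneg (norm_nonneg (α b)) (sub_nonneg.2 q)]
  have a2 : ∀ b, κ * a b ≤ 2 := fun b => by
    have q1 : κ ≤ 2 := Real.sqrt_le_iff.2 ⟨zero_le_two, by
      rw [div_le_iff₀ (by linarith)]; linarith⟩
    have q2 : 2 * ‖α b‖ ^ 2 ≤ 1 := hα ▸ single_le_sum (f := fun b => 2 * ‖α b‖ ^ 2)
      (fun b _ => by positivity) (mem_univ b)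
    have q3 : a b ≤ 1 := by
      refine (pow_le_one_iff_of_nonneg (a0 b) two_ne_zero).1 ?_
      linarith [(abs_le.1 (asq b)).2]
    calc κ * a b ≤ 2 * 1 := mul_le_mul q1 q3 (a0 b) zero_le_two
      _ = 2 := by ring
  have hρ : κ ≤ (1 + e) * √(1 - η) := by
    refine Real.sqrt_le_iff.2 ⟨by positivity, ?_⟩
    rw [mul_pow, Real.sq_sqrt (by linarith), div_le_iff₀ (by linarith)]
    have q1 : 1 ≤ (1 + e) * (1 - 3 * η) := by rw [hη]; nlinarith
    have q2 : 1 ≤ (1 + e) * (1 - η) := by rw [hη]; nlinarith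
    have := one_le_mul_of_one_le_of_one_le q1 q2
    linarith
  have lin := lines_bound h (by positivity) hF1 hF s hs r α ω a (1 + e) κ (1 + e) √δ (1 + 5 * e) e L
    hflat κ0 a0 a2 hω hω' ad (sqrt_nonneg _) hρ (by nlinarith) (by
      rw [Real.sqrt_sq (by positivity), div_le_iff₀ (by positivity)]
      have : (0 : ℝ) ≤ e * (32 * Fintype.card B + 1) := by positivity
      linarith) e0
  have cr := core h η0 (2 * W) (by have := hW.pos; omega) _ _ (fun x => Nat.le_add_right _ _) t1 t2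
    (fun x => wt x * ℓ) (fun x => wt x * m)
    (Sum.elim (fun l => η + (l.1 : ℕ) * Δ) fun _ => η)
    (Sum.elim (fun l => η + (l.1 : ℕ) * Δ + Δ) fun _ => 1 - 2 * η)
    (Sum.elim cL (Sum.elim (fun J => cJ J.1) fun _ => 0))
    (fun x => mul_pos (wt0 x) ℓ0) (fun x => mul_pos (wt0 x) m0)
    (by
      rintro (l | x)
      · exact le_add_of_nonneg_right (by positivity)
      · exact le_rfl)
    (by
      rintro (l | x)
      · exact lt_add_of_pos_right _ Δ0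
      · show η < 1 - 2 * η
        linarith)
    (by
      rintro (l | x)
      · show η + (l.1 : ℕ) * Δ + Δ ≤ 1 - 2 * η
        have : ((l.1 : ℕ) : ℝ) + 1 ≤ L := by exact_mod_cast l.1.2
        have := mul_le_mul_of_nonneg_right this Δ0.le
        linarith
      · exact le_rfl)
    (by
      rintro (l | J | u) <;> simp only [hwt, hm, Sum.elim_inl, Sum.elim_inr] <;> push_cast <;>
        field_simp <;> ring) e e0
  filter_upwards [cr, (tendsto_natCast_atTop_atTop.atTop_mul_const (mul_pos m0 Δ0)).eventually lin,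
    eventually_gt_atTop 0] with N ⟨c, k, h1, h2⟩ h3 hN
  refine ⟨c, fun j => ?_, h2⟩
  have N0 : (0 : ℝ) < N := by exact_mod_cast hN
  have H := h1 j
  have sW := sqrt_pos.2 W0
  have hq : ∀ y : ℝ, y ≤ m → √(y / (1 - 2 * η - η)) * √W ≤ 2 := fun y hy => by
    rw [← Real.sqrt_mul' _ W0.le]
    refine Real.sqrt_le_iff.2 ⟨zero_le_two, ?_⟩
    rw [div_mul_eq_mul_div, div_le_iff₀ (by linarith)]
    have := mul_le_mul_of_nonneg_right hy W0.le
    linarith
  have D0 : 0 < 1 - 2 * η - η := by linarith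
  rw [Fintype.sum_sum_type, Fintype.sum_sum_type] at H
  simp only [hwt, Sum.elim_inl, Sum.elim_inr, Fintype.sum_unique] at H
  have b1 := h3 ((k j / N - η) / Δ) (fun i => τ₁ i (k j) - k j * ℓ) (fun i => τ₂ i (k j))
  have b2 := main_crude h N0 m0 D0 (∑ J ∈ 𝒥, ee (cJ J - k j * (J / W)) * ee (-(k j * ℓ)))
    ((k j / N - η) / (1 - 2 * η - η))
  have b3 := main_crude h N0 (show 0 < 1 / 2 * m by positivity) D0
    (ee (0 - k j * (((W - 1 : ℕ) : ℝ) / (2 * W : ℕ) + 1 / 2 * ℓ))) ((k j / N - η) / (1 - 2 * η - η))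
  have c2 : 16 * √(m / (1 - 2 * η - η)) *
      ‖∑ J ∈ 𝒥, ee (cJ J - k j * (J / W)) * ee (-(k j * ℓ))‖ ≤ e := by
    rw [← sum_mul, norm_mul, norm_ee, mul_one]
    have q1 : √(√(2 * 𝒥.card * W)) ≤ √(√(Fintype.card B * δ)) * √W := by
      rw [← Real.sqrt_mul (sqrt_nonneg _)]
      refine Real.sqrt_le_sqrt ((Real.sqrt_le_sqrt cnt').trans_eq ?_)
      rw [Real.sqrt_mul cB, Real.sqrt_sq W0.le]
    have q2 := (hcJ (k j)).trans (mul_le_mul_of_nonneg_left q1 C0.le)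
    have q3 := mul_le_mul_of_nonneg_left (hq m le_rfl)
      (show 0 ≤ 16 * C * √(√(Fintype.card B * δ)) by positivity)
    have q4 := mul_le_mul_of_nonneg_left q2
      (show 0 ≤ 16 * √(m / (1 - 2 * η - η)) by positivity)
    linarith
  have c3 : 16 * √(1 / 2 * m / (1 - 2 * η - η)) ≤ e := by
    have q1 : 32 / e ≤ √W := Real.le_sqrt_of_sq_le ((Nat.le_ceil _).trans (by exact_mod_cast hW₀))
    rw [div_le_iff₀ e0] at q1
    refine le_of_mul_le_mul_right ?_ sW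
    linarith [hq (1 / 2 * m) (by linarith)]
  rw [norm_ee, mul_one] at b3
  have g1 : ∑ l : Fin L × Σ b, Fin (n b), 2 * ((√N : ℝ) * ((s l.2.1 * m : ℝ) *
      ee (cL l - k j * (((2 * X l.1 l.2 : ℕ) : ℝ) / (2 * W : ℕ) + s l.2.1 * ℓ)) *
      JJ S (N * (s l.2.1 * m) * (η + (l.1 : ℕ) * Δ + Δ - (η + (l.1 : ℕ) * Δ)))
        ((k j / N - (η + (l.1 : ℕ) * Δ)) / (η + (l.1 : ℕ) * Δ + Δ - (η + (l.1 : ℕ) * Δ))))).re =
      ∑ i : Fin L, 2 * (∑ b, (κ * a b : ℝ) * ω b *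
        ee (s b * (τ₁ i (k j) - k j * ℓ) + r b * τ₂ i (k j)) *
        ((√(s b * (N * (m * Δ))) : ℝ) * JJ S (s b * (N * (m * Δ)))
          ((k j / N - η) / Δ - (i : ℕ)))).re := by
    rw [Fintype.sum_prod_type]
    refine sum_congr rfl fun i _ => ?_
    rw [Fintype.sum_sigma, Complex.re_sum, mul_sum]
    refine sum_congr rfl fun b _ => ?_
    have := line_sum (fun j => g i ⟨b, j⟩) (fun j => X i ⟨b, j⟩) (fun j => cL (i, ⟨b, j⟩)) (ω b) _
      (JJ S (s b * (N * (m * Δ))) ((k j / N - η) / Δ - (i : ℕ))) N W (s b) ℓ (s b * m) Δ (k j)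
      (κ * a b) N0.le (mul_pos (s0 b) m0).le Δ0 (fun j => hcL (i, ⟨b, j⟩)) (hsum i b (k j)) (by
        rw [hκ, ha, ← LΔ, ← Real.sqrt_mul (by positivity),
          ← Real.sqrt_mul (by have := s0 b; positivity)]
        congr 1
        field_simp)
    rw [← ee_add, show (N : ℝ) * (s b * m) * Δ = s b * (N * (m * Δ)) by ring,
      show s b * τ₁ i (k j) + r b * τ₂ i (k j) + s b * -(k j * ℓ) =
        s b * (τ₁ i (k j) - k j * ℓ) + r b * τ₂ i (k j) by ring] at this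
    rw [← this]
    refine sum_congr rfl fun j' _ => ?_
    congr 5
    · push_cast; field_simp
    · ring
    · rw [add_sub_cancel_left]; field_simp; ring
  have g2 : ∑ J : 𝒥, 2 * ((√N : ℝ) * ((1 * m : ℝ) *
      ee (cJ J - k j * (((2 * J.1 : ℕ) : ℝ) / (2 * W : ℕ) + 1 * ℓ)) *
      JJ S (N * (1 * m) * (1 - 2 * η - η)) ((k j / N - η) / (1 - 2 * η - η)))).re =
      2 * ((√N : ℝ) * (m * (∑ J ∈ 𝒥, ee (cJ J - k j * (J / W)) * ee (-(k j * ℓ))) *
        JJ S (N * m * (1 - 2 * η - η)) ((k j / N - η) / (1 - 2 * η - η)))).re := by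
    rw [mul_sum, sum_mul, mul_sum, Complex.re_sum, mul_sum, ← sum_coe_sort 𝒥]
    refine sum_congr rfl fun J _ => ?_
    rw [← ee_add, one_mul]
    congr 6
    push_cast; field_simp; ring
  rw [g1, g2] at H
  have := abs_le.1 H
  have := abs_le.1 b1
  have := abs_le.1 b2
  have := abs_le.1 b3
  rw [abs_le]
  constructor <;> linarith

end Crest.Agent.R075
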