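import Crest.Agent.R210.Char

/-! Oscillatory integrals: first and second derivative tests, a tail estimate. -/

set_option autoImplicit false

namespace Crest.Agent.R075

open Real Set intervalIntegral Crest.Agent.R210 ComplexConjugate

/-- `2πi`. -/
noncomputable def cI : ℂ := 2 * π * Complex.I

theorem norm_cI : ‖cI‖ = 2 * π := by
  simp [cI, abs_of_pos pi_pos]

theorem cI_ne : cI ≠ 0 := by
  rw [← norm_pos_iff, norm_cI]; positivity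

theorem ee_eq_exp (x : ℝ) : ee x = Complex.exp (cI * x) := by
  rw [ee, cI]; congr 1; push_cast; ring

@[simp] theorem norm_ee (x : ℝ) : ‖ee x‖ = 1 := by
  rw [ee, Complex.norm_exp_ofReal_mul_I]

theorem ee_neg (x : ℝ) : ee (-x) = conj (ee x) := by
  rw [ee, ee, ← Complex.exp_conj, map_mul, Complex.conj_ofReal, Complex.conj_I]
  congr 1; push_cast; ring

@[fun_prop] theorem continuous_ee : Continuous ee := by
  unfold ee; fun_prop

theorem hasDerivAt_ee {φ : ℝ → ℝ} {φ' x : ℝ} (h : HasDerivAt φ φ' x) :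
    HasDerivAt (fun x => ee (φ x)) (ee (φ x) * (cI * φ')) x := by
  simp_rw [ee_eq_exp]
  exact (h.ofReal_comp.const_mul cI).cexp

theorem norm_ee_sub (x y : ℝ) : ‖ee x - ee y‖ ≤ 2 * π * |x - y| := by
  have e : ee x - ee y = ee y * (ee (x - y) - 1) := by
    rw [mul_sub, ← ee_add, add_sub_cancel, mul_one]
  rw [e, norm_mul, norm_ee, one_mul, ee, mul_comm _ Complex.I]
  refine Real.norm_exp_I_mul_ofReal_sub_one_le.trans (le_of_eq ?_)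
  rw [Real.norm_eq_abs, abs_mul, abs_of_pos (by positivity : (0 : ℝ) < 2 * π)]

theorem mvt_abs {f f' : ℝ → ℝ} {a b C x y : ℝ} (h : ∀ x ∈ Icc a b, HasDerivAt f (f' x) x)
    (hb : ∀ x ∈ Icc a b, |f' x| ≤ C) (hx : x ∈ Icc a b) (hy : y ∈ Icc a b) :
    |f y - f x| ≤ C * |y - x| :=
  Convex.norm_image_sub_le_of_norm_hasDerivWithin_le (fun x hx => (h x hx).hasDerivWithinAt) hb
    (convex_Icc a b) hx hy

theorem mvt_ge {f f' : ℝ → ℝ} {C x y : ℝ} (h : ∀ x, HasDerivAt f (f' x) x) (hxy : x ≤ y)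
    (hb : ∀ t ∈ Icc x y, C ≤ f' t) : C * (y - x) ≤ f y - f x := by
  rcases hxy.eq_or_lt with rfl | hlt
  · simp
  obtain ⟨c, hc, e⟩ := exists_hasDerivAt_eq_slope f f' hlt
    (fun t _ => (h t).continuousAt.continuousWithinAt) (fun t _ => h t)
  have := hb c (Ioo_subset_Icc_self hc)
  rwa [e, le_div_iff₀ (sub_pos.2 hlt)] at this

/-- A phase with three derivatives. -/
structure Phase (φ φ₁ φ₂ φ₃ : ℝ → ℝ) : Prop where
  d₀ : ∀ x, HasDerivAt φ (φ₁ x) x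
  d₁ : ∀ x, HasDerivAt φ₁ (φ₂ x) x
  d₂ : ∀ x, HasDerivAt φ₂ (φ₃ x) x
  c₃ : Continuous φ₃

variable {φ φ₁ φ₂ φ₃ : ℝ → ℝ}

theorem Phase.c₀ (h : Phase φ φ₁ φ₂ φ₃) : Continuous φ :=
  continuous_iff_continuousAt.2 fun x => (h.d₀ x).continuousAt
theorem Phase.c₁ (h : Phase φ φ₁ φ₂ φ₃) : Continuous φ₁ :=
  continuous_iff_continuousAt.2 fun x => (h.d₁ x).continuousAt
theorem Phase.c₂ (h : Phase φ φ₁ φ₂ φ₃) : Continuous φ₂ :=
  continuous_iff_continuousAt.2 fun x => (h.d₂ x).continuousAt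

theorem Phase.neg (h : Phase φ φ₁ φ₂ φ₃) :
    Phase (fun x => -φ x) (fun x => -φ₁ x) (fun x => -φ₂ x) (fun x => -φ₃ x) :=
  ⟨fun x => (h.d₀ x).neg, fun x => (h.d₁ x).neg, fun x => (h.d₂ x).neg, h.c₃.neg⟩

theorem integral_ee_neg (φ : ℝ → ℝ) (a b : ℝ) :
    ∫ x in a..b, ee (-φ x) = conj (∫ x in a..b, ee (φ x)) := by
  simp_rw [ee_neg]
  simp only [intervalIntegral, integral_conj, map_sub]

theorem first_deriv_test (h : Phase φ φ₁ φ₂ φ₃) {a b D : ℝ} (hab : a ≤ b) (hD : 0 < D)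
    (h1 : ∀ x ∈ Icc a b, D ≤ |φ₁ x|) (h2 : ∀ x ∈ Icc a b, 0 ≤ φ₂ x) :
    ‖∫ x in a..b, ee (φ x)‖ ≤ 1 / D := by
  have hne : ∀ x ∈ uIcc a b, φ₁ x ≠ 0 := fun x hx => by
    rw [uIcc_of_le hab] at hx; exact abs_pos.1 (hD.trans_le (h1 x hx))
  have hG : ∀ x ∈ uIcc a b, HasDerivAt (fun x => ee (φ x) * (cI⁻¹ * ((φ₁ x)⁻¹ : ℝ)))
      (ee (φ x) - ee (φ x) * (cI⁻¹ * (φ₂ x / φ₁ x ^ 2 : ℝ))) x := by
    intro x hx
    have h3 := ((h.d₁ x).inv (hne x hx)).ofReal_comp.const_mul cI⁻¹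
    refine ((hasDerivAt_ee (h.d₀ x)).mul h3).congr_deriv ?_
    have : (φ₁ x : ℂ) ≠ 0 := by exact_mod_cast hne x hx
    have := cI_ne
    simp only [Pi.inv_apply]
    push_cast
    field_simp
    ring
  have c1 : ContinuousOn (fun x => φ₂ x / φ₁ x ^ 2) (uIcc a b) :=
    h.c₂.continuousOn.div (h.c₁.pow 2).continuousOn fun x hx => pow_ne_zero _ (hne x hx)
  have c0 : Continuous fun x => ee (φ x) := continuous_ee.comp h.c₀
  have c2 : ContinuousOn (fun x => ee (φ x) * (cI⁻¹ * (φ₂ x / φ₁ x ^ 2 : ℝ))) (uIcc a b) :=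
    c0.continuousOn.mul (continuousOn_const.mul (Complex.continuous_ofReal.comp_continuousOn c1))
  have e := integral_eq_sub_of_hasDerivAt hG (c0.continuousOn.sub c2).intervalIntegrable
  rw [integral_sub (c0.intervalIntegrable _ _) c2.intervalIntegrable, sub_eq_iff_eq_add] at e
  have hR : ∫ x in a..b, φ₂ x / φ₁ x ^ 2 = (φ₁ a)⁻¹ - (φ₁ b)⁻¹ := by
    have := integral_eq_sub_of_hasDerivAt (f := fun x => -(φ₁ x)⁻¹)
      (f' := fun x => φ₂ x / φ₁ x ^ 2) (a := a) (b := b) (fun x hx =>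
        ((h.d₁ x).inv (hne x hx)).neg.congr_deriv (by ring)) c1.intervalIntegrable
    rw [this]; ring
  have ni : ‖cI⁻¹‖ ≤ 1 / 4 := by
    rw [norm_inv, norm_cI, inv_le_comm₀ (by positivity) (by positivity)]
    linarith [pi_gt_three]
  have bd : ∀ x ∈ Icc a b, |(φ₁ x)⁻¹| ≤ 1 / D := fun x hx => by
    rw [abs_inv, one_div]; exact inv_anti₀ hD (h1 x hx)
  have b1 : ∀ x ∈ Icc a b, ‖ee (φ x) * (cI⁻¹ * ((φ₁ x)⁻¹ : ℝ))‖ ≤ 1 / 4 * (1 / D) := by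
    intro x hx
    rw [norm_mul, norm_ee, one_mul, norm_mul, Complex.norm_real, Real.norm_eq_abs]
    exact mul_le_mul ni (bd x hx) (abs_nonneg _) (by norm_num)
  have b2 : ‖∫ x in a..b, ee (φ x) * (cI⁻¹ * (φ₂ x / φ₁ x ^ 2 : ℝ))‖ ≤
      ∫ x in a..b, 1 / 4 * (φ₂ x / φ₁ x ^ 2) := by
    refine norm_integral_le_of_norm_le hab (Filter.Eventually.of_forall fun x hx => ?_)
      (continuousOn_const.mul c1).intervalIntegrable
    have : 0 ≤ φ₂ x / φ₁ x ^ 2 := div_nonneg (h2 x (Ioc_subset_Icc_self hx)) (sq_nonneg _)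
    rw [norm_mul, norm_ee, one_mul, norm_mul, Complex.norm_real, Real.norm_of_nonneg this]
    exact mul_le_mul_of_nonneg_right ni this
  rw [integral_const_mul, hR] at b2
  have ba := bd a (left_mem_Icc.2 hab)
  have bb := bd b (right_mem_Icc.2 hab)
  rw [abs_le] at ba bb
  rw [e]
  refine (norm_add_le _ _).trans ?_
  have := (norm_sub_le _ _).trans (add_le_add (b1 b (right_mem_Icc.2 hab))
    (b1 a (left_mem_Icc.2 hab)))
  linarith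

theorem exists_level_pt {f : ℝ → ℝ} (hf : Continuous f) {a b : ℝ} (hab : a ≤ b) (t : ℝ) :
    ∃ c ∈ Icc a b, (c = a ∨ f c ≤ t) ∧ (c = b ∨ t ≤ f c) := by
  by_cases h1 : t ≤ f a
  · exact ⟨a, left_mem_Icc.2 hab, Or.inl rfl, Or.inr h1⟩
  by_cases h2 : f b ≤ t
  · exact ⟨b, right_mem_Icc.2 hab, Or.inr h2, Or.inl rfl⟩
  obtain ⟨c, hc, e⟩ := intermediate_value_Icc hab hf.continuousOn
    (show t ∈ Icc (f a) (f b) from ⟨(not_le.1 h1).le, (not_le.1 h2).le⟩)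
  exact ⟨c, hc, Or.inr e.le, Or.inr e.ge⟩

theorem second_deriv_test (h : Phase φ φ₁ φ₂ φ₃) {a b l : ℝ} (hab : a ≤ b) (hl : 0 < l)
    (h2 : ∀ x ∈ Icc a b, l ≤ φ₂ x) : ‖∫ x in a..b, ee (φ x)‖ ≤ 4 / √l := by
  set D := √l with hD
  have D0 : 0 < D := sqrt_pos.2 hl
  have DD : D * D = l := mul_self_sqrt hl.le
  obtain ⟨c₁, hc₁, p1, p2⟩ := exists_level_pt h.c₁ hab (-D)
  obtain ⟨c₂, hc₂, p3, p4⟩ := exists_level_pt h.c₁ hc₁.2 D
  have mono : ∀ x y, a ≤ x → x ≤ y → y ≤ b → l * (y - x) ≤ φ₁ y - φ₁ x := fun x y hx hxy hy =>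
    mvt_ge h.d₁ hxy fun t ht => h2 t ⟨hx.trans ht.1, ht.2.trans hy⟩
  have c0 : Continuous fun x => ee (φ x) := continuous_ee.comp h.c₀
  have D1 : 0 ≤ 1 / D := by positivity
  have i1 : ‖∫ x in a..c₁, ee (φ x)‖ ≤ 1 / D := by
    rcases p1 with rfl | p1
    · simpa using D0.le
    refine first_deriv_test h hc₁.1 D0 (fun x hx => ?_)
      (fun x hx => hl.le.trans (h2 x ⟨hx.1, hx.2.trans hc₁.2⟩))
    have := mono x c₁ hx.1 hx.2 hc₁.2
    have := mul_nonneg hl.le (sub_nonneg.2 hx.2)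
    exact le_abs.2 (Or.inr (by linarith))
  have i3 : ‖∫ x in c₂..b, ee (φ x)‖ ≤ 1 / D := by
    rcases p4 with rfl | p4
    · simpa using D0.le
    refine first_deriv_test h hc₂.2 D0 (fun x hx => ?_)
      (fun x hx => hl.le.trans (h2 x ⟨(hc₁.1.trans hc₂.1).trans hx.1, hx.2⟩))
    have := mono c₂ x (hc₁.1.trans hc₂.1) hx.1 hx.2
    have := mul_nonneg hl.le (sub_nonneg.2 hx.1)
    exact le_abs.2 (Or.inl (by linarith))
  have i2 : ‖∫ x in c₁..c₂, ee (φ x)‖ ≤ 2 / D := by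
    refine (norm_integral_le_of_norm_le_const (C := 1) fun x _ => (norm_ee _).le).trans ?_
    rw [one_mul, abs_of_nonneg (sub_nonneg.2 hc₂.1), le_div_iff₀ D0]
    rcases p2 with rfl | p2
    · have : c₂ = c₁ := le_antisymm hc₂.2 hc₂.1
      simp [this]
    rcases p3 with rfl | p3
    · simp
    have := mono c₁ c₂ hc₁.1 hc₂.1 hc₂.2
    have e : D * ((c₂ - c₁) * D) ≤ D * 2 := by nlinarith
    exact le_of_mul_le_mul_left e D0
  rw [← integral_add_adjacent_intervals (b := c₁) (c0.intervalIntegrable _ _)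
    (c0.intervalIntegrable _ _), ← integral_add_adjacent_intervals (a := c₁) (b := c₂)
    (c0.intervalIntegrable _ _) (c0.intervalIntegrable _ _)]
  refine (norm_add_le _ _).trans ((add_le_add i1 ((norm_add_le _ _).trans
    (add_le_add i2 i3))).trans (le_of_eq ?_))
  ring

theorem second_deriv_test' (h : Phase φ φ₁ φ₂ φ₃) {a b l : ℝ} (hab : a ≤ b) (hl : 0 < l)
    (h2 : ∀ x ∈ Icc a b, φ₂ x ≤ -l) : ‖∫ x in a..b, ee (φ x)‖ ≤ 4 / √l := by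
  have := second_deriv_test h.neg hab hl fun x hx => by linarith [h2 x hx]
  rwa [integral_ee_neg, Complex.norm_conj] at this

theorem tail_test (h : Phase φ φ₁ φ₂ φ₃) {a b D K₂ K₃ : ℝ} (hab : a ≤ b) (hD : 0 < D)
    (h1 : ∀ x ∈ Icc a b, D ≤ |φ₁ x|) (h2 : ∀ x ∈ Icc a b, |φ₂ x| ≤ K₂)
    (h3 : ∀ x ∈ Icc a b, |φ₃ x| ≤ K₃) :
    ‖(∫ x in a..b, ee (φ x)) - (ee (φ b) / (cI * φ₁ b) - ee (φ a) / (cI * φ₁ a))‖ ≤
      2 * (K₂ / D ^ 3) + (K₃ / D ^ 3 + 3 * (K₂ ^ 2 / D ^ 4)) * (b - a) := by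
  have hne : ∀ x ∈ uIcc a b, φ₁ x ≠ 0 := fun x hx => by
    rw [uIcc_of_le hab] at hx; exact abs_pos.1 (hD.trans_le (h1 x hx))
  have hG : ∀ x ∈ uIcc a b, HasDerivAt
      (fun x => ee (φ x) * (cI⁻¹ * ((φ₁ x)⁻¹ : ℝ) + cI⁻¹ ^ 2 * (φ₂ x / φ₁ x ^ 3 : ℝ)))
      (ee (φ x) + ee (φ x) * (cI⁻¹ ^ 2 * (φ₃ x / φ₁ x ^ 3 - 3 * (φ₂ x ^ 2 / φ₁ x ^ 4) : ℝ))) x := by
    intro x hx
    have h3 := ((h.d₁ x).inv (hne x hx)).ofReal_comp.const_mul cI⁻¹
    have h4 := ((h.d₂ x).div ((h.d₁ x).pow 3) (pow_ne_zero _ (hne x hx))).ofReal_comp.const_mul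
      (cI⁻¹ ^ 2)
    refine ((hasDerivAt_ee (h.d₀ x)).mul (h3.add h4)).congr_deriv ?_
    have : (φ₁ x : ℂ) ≠ 0 := by exact_mod_cast hne x hx
    have := cI_ne
    simp only [Pi.add_apply, Pi.pow_apply, Pi.div_apply, Pi.inv_apply]
    push_cast
    field_simp
    ring
  have c1 : ContinuousOn (fun x => φ₃ x / φ₁ x ^ 3 - 3 * (φ₂ x ^ 2 / φ₁ x ^ 4)) (uIcc a b) :=
    (h.c₃.continuousOn.div (h.c₁.pow 3).continuousOn fun x hx => pow_ne_zero _ (hne x hx)).sub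
      (continuousOn_const.mul ((h.c₂.pow 2).continuousOn.div (h.c₁.pow 4).continuousOn
        fun x hx => pow_ne_zero _ (hne x hx)))
  have c0 : Continuous fun x => ee (φ x) := continuous_ee.comp h.c₀
  have c2 : ContinuousOn (fun x => ee (φ x) *
      (cI⁻¹ ^ 2 * (φ₃ x / φ₁ x ^ 3 - 3 * (φ₂ x ^ 2 / φ₁ x ^ 4) : ℝ))) (uIcc a b) :=
    c0.continuousOn.mul (continuousOn_const.mul (Complex.continuous_ofReal.comp_continuousOn c1))
  have e := integral_eq_sub_of_hasDerivAt hG (c0.continuousOn.add c2).intervalIntegrable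
  rw [integral_add (c0.intervalIntegrable _ _) c2.intervalIntegrable, ← eq_sub_iff_add_eq] at e
  have ni : ‖cI⁻¹ ^ 2‖ ≤ 1 := by
    rw [norm_pow]
    refine pow_le_one₀ (norm_nonneg _) ?_
    rw [norm_inv, norm_cI]
    exact inv_le_one_of_one_le₀ (by linarith [pi_gt_three])
  have q : ∀ x ∈ Icc a b, ∀ (y K : ℝ) (n : ℕ), |y| ≤ K → |y / φ₁ x ^ n| ≤ K / D ^ n := by
    intro x hx y K n hy
    rw [abs_div, abs_pow]
    exact div_le_div₀ ((abs_nonneg _).trans hy) hy (by positivity)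
      (pow_le_pow_left₀ hD.le (h1 x hx) n)
  have b1 : ∀ x ∈ Icc a b, ‖ee (φ x) * (cI⁻¹ ^ 2 * (φ₂ x / φ₁ x ^ 3 : ℝ))‖ ≤ K₂ / D ^ 3 := by
    intro x hx
    rw [norm_mul, norm_ee, one_mul, norm_mul, Complex.norm_real, Real.norm_eq_abs]
    exact (mul_le_of_le_one_left (abs_nonneg _) ni).trans (q x hx _ _ 3 (h2 x hx))
  have b2 : ‖∫ x in a..b, ee (φ x) *
      (cI⁻¹ ^ 2 * (φ₃ x / φ₁ x ^ 3 - 3 * (φ₂ x ^ 2 / φ₁ x ^ 4) : ℝ))‖ ≤
      (K₃ / D ^ 3 + 3 * (K₂ ^ 2 / D ^ 4)) * |b - a| := by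
    refine norm_integral_le_of_norm_le_const fun x hx => ?_
    rw [uIoc_of_le hab] at hx
    have hx' := Ioc_subset_Icc_self hx
    rw [norm_mul, norm_ee, one_mul, norm_mul, Complex.norm_real, Real.norm_eq_abs]
    refine (mul_le_of_le_one_left (abs_nonneg _) ni).trans ((abs_sub _ _).trans ?_)
    rw [abs_mul, abs_of_pos (by norm_num : (0 : ℝ) < 3)]
    have := q x hx' (φ₂ x ^ 2) (K₂ ^ 2) 4 (by
      rw [abs_pow]; exact pow_le_pow_left₀ (abs_nonneg _) (h2 x hx') 2)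
    have := q x hx' _ _ 3 (h3 x hx')
    linarith
  rw [abs_of_nonneg (sub_nonneg.2 hab)] at b2
  have e2 : (∫ x in a..b, ee (φ x)) - (ee (φ b) / (cI * φ₁ b) - ee (φ a) / (cI * φ₁ a)) =
      ee (φ b) * (cI⁻¹ ^ 2 * (φ₂ b / φ₁ b ^ 3 : ℝ)) - ee (φ a) * (cI⁻¹ ^ 2 * (φ₂ a / φ₁ a ^ 3 : ℝ))
      - ∫ x in a..b, ee (φ x) *
        (cI⁻¹ ^ 2 * (φ₃ x / φ₁ x ^ 3 - 3 * (φ₂ x ^ 2 / φ₁ x ^ 4) : ℝ)) := by
    rw [e]; push_cast; ring
  rw [e2]
  refine (norm_sub_le _ _).trans ?_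
  have := (norm_sub_le _ _).trans (add_le_add (b1 b (right_mem_Icc.2 hab))
    (b1 a (left_mem_Icc.2 hab)))
  linarith

end Crest.Agent.R075
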