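import Crest.Agent.R075.Stat

/-! Uniform estimates for the model integral and the sum over the pieces. -/

set_option autoImplicit false

namespace Crest.Agent.R075

open Real Crest.Agent.R210 Finset Filter Topology

variable {η Λ ζ K : ℝ} {S σ σ₁ σ₂ : ℝ → ℝ}

theorem J_unif (h : Profile η Λ ζ K S σ σ₁ σ₂) (hΛ : 0 < Λ) {F : ℂ}
    (hF : ∀ r : ℝ, 0 < r → ‖(∫ x in -r..r, ee (x ^ 2 / 2)) - F‖ ≤ 1 / r) (τ : ℝ) (hτ : 0 < τ) :
    ∀ᶠ l : ℝ in atTop,
      (∀ w, ζ ≤ w → w ≤ 1 - ζ →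
        ‖(√l : ℝ) * JJ S l (σ w) - F * ee (l * (S w - σ w * w)) / √(σ₁ w)‖ ≤ τ) ∧
      (∀ z, z ≤ σ ζ ∨ σ (1 - ζ) ≤ z → ‖(√l : ℝ) * JJ S l z‖ ≤ 4 / √Λ + τ) ∧
      ∀ z, z ≤ -(ζ / 2) ∨ 1 + ζ / 2 ≤ z → ‖(√l : ℝ) * JJ S l z‖ ≤ τ := by
  have z0 := h.ζ0
  set ρ : ℝ := 12 / τ with hρ
  have ρ0 : 0 < ρ := by positivity
  have lim : ∀ x y : ℝ, 0 < y → ∀ᶠ l : ℝ in atTop, x / √l ≤ y := fun x y hy =>
    (tendsto_const_nhds.div_atTop tendsto_sqrt_atTop).eventually (ge_mem_nhds hy)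
  filter_upwards [lim ρ ζ z0, lim (4 * π * K * ρ ^ 4) (τ / 2) (by positivity),
    lim (2 / ζ) τ hτ, eventually_gt_atTop 0] with l h1 h2 h3 hl
  have s0 := sqrt_pos.2 hl
  have ss : √l * √l = l := mul_self_sqrt hl.le
  have nm : ∀ z : ℂ, ‖(√l : ℝ) * z‖ = √l * ‖z‖ := fun z => by
    rw [norm_mul, Complex.norm_real, Real.norm_of_nonneg s0.le]
  have e0 : √l * (1 / (l * (ζ / 2))) = 2 / ζ / √l := by
    nth_rewrite 2 [← ss]; field_simp
  refine ⟨fun w hw hw' => ?_, fun z hz => ?_, fun z hz => ?_⟩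
  · have H := h.J_stat hF hl (show 0 < ρ / √l by positivity) (h1.trans hw) (by linarith)
    have p := sqrt_pos.2 (show 0 < σ₁ w by linarith [h.half w])
    have e : (√l : ℝ) * JJ S l (σ w) - F * ee (l * (S w - σ w * w)) / √(σ₁ w) =
        (√l : ℝ) * (JJ S l (σ w) - F * ee (l * (S w - σ w * w)) / √(l * σ₁ w)) := by
      have a1 : ((√l : ℝ) : ℂ) ≠ 0 := by exact_mod_cast s0.ne'
      have a2 : ((√(σ₁ w) : ℝ) : ℂ) ≠ 0 := by exact_mod_cast p.ne'
      rw [Real.sqrt_mul hl.le]; push_cast; field_simp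
    rw [e, nm]
    refine (mul_le_mul_of_nonneg_left H s0.le).trans ?_
    have e2 : √l * (6 / (l * (ρ / √l)) + 4 * π * l * K * (ρ / √l) ^ 4) =
        τ / 2 + 4 * π * K * ρ ^ 4 / √l := by
      generalize √l = t at ss s0
      subst ss
      rw [hρ]; field_simp; ring
    rw [e2]; linarith
  · rw [nm]
    refine (mul_le_mul_of_nonneg_left (h.J_edge hΛ hl hz) s0.le).trans ?_
    rw [mul_add, e0, Real.sqrt_mul hl.le]
    have : √l * (4 / (√l * √Λ)) = 4 / √Λ := by field_simp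
    rw [this]; linarith
  · rw [nm]
    refine (mul_le_mul_of_nonneg_left (h.J_far hl (by positivity) hz) s0.le).trans ?_
    rw [e0]; exact h3

theorem sum_ite_le {L : ℕ} (f : ℤ) {x : ℝ} (hx : 0 ≤ x) :
    ∑ i : Fin L, (if ((i : ℕ) : ℤ) = f then x else 0) ≤ x := by
  rw [← sum_filter, sum_const, nsmul_eq_mul]
  have : (univ.filter fun i : Fin L => ((i : ℕ) : ℤ) = f).card ≤ 1 := by
    rw [card_le_one]
    intro i hi j hj
    rw [mem_filter] at hi hj
    exact Fin.ext (by omega)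
  exact mul_le_of_le_one_left hx (by exact_mod_cast this)

theorem sum_pieces (h : Profile η Λ ζ K S σ σ₁ σ₂) {L : ℕ} (T : Fin L → ℝ) (z τ M : ℝ)
    (hτ : 0 ≤ τ) (hM : 0 ≤ M)
    (far : ∀ i : Fin L, z - (i : ℕ) ≤ -(ζ / 2) ∨ 1 + ζ / 2 ≤ z - (i : ℕ) → |T i| ≤ τ)
    (edge : ∀ i : Fin L, z - (i : ℕ) ≤ σ ζ ∨ σ (1 - ζ) ≤ z - (i : ℕ) → |T i| ≤ M / 2)
    (mid : ∀ (i : Fin L) w, ζ ≤ w → w ≤ 1 - ζ → z - (i : ℕ) = σ w → |T i| ≤ M) :
    |∑ i, T i| ≤ M + L * τ := by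
  have z0 := h.ζ0
  have z1 := h.ζ1
  have a1 := h.incr z0.le
  have a2 := h.incr (show 1 - ζ ≤ 1 by linarith)
  rw [h.σ0] at a1
  rw [h.σ1] at a2
  have cτ : ∑ _i : Fin L, τ = L * τ := by simp
  refine (abs_sum_le_sum_abs _ _).trans ?_
  by_cases hm : ∃ i : Fin L, σ ζ < z - (i : ℕ) ∧ z - (i : ℕ) < σ (1 - ζ)
  · obtain ⟨i₀, b1, b2⟩ := hm
    obtain ⟨w, hw, e⟩ := intermediate_value_Icc (show ζ ≤ 1 - ζ by linarith)
      h.ph.c₁.continuousOn ⟨b1.le, b2.le⟩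
    have : ∀ i : Fin L, |T i| ≤ (if ((i : ℕ) : ℤ) = (i₀ : ℕ) then M else 0) + τ := by
      intro i
      split_ifs with hi
      · have : i = i₀ := Fin.ext (by omega)
        subst this
        linarith [mid i w hw.1 hw.2 e.symm]
      · rw [zero_add]
        refine far i ?_
        rcases lt_or_gt_of_ne hi with hi | hi
        · right
          have : ((i : ℕ) : ℝ) + 1 ≤ (i₀ : ℕ) := by exact_mod_cast hi
          linarith
        · left
          have : ((i₀ : ℕ) : ℝ) + 1 ≤ (i : ℕ) := by exact_mod_cast hi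
          linarith
    refine (sum_le_sum fun i _ => this i).trans ?_
    rw [sum_add_distrib, cτ]
    linarith [sum_ite_le (L := L) (i₀ : ℕ) hM]
  · push Not at hm
    have : ∀ i : Fin L, |T i| ≤ (if ((i : ℕ) : ℤ) = ⌊z + ζ / 2⌋ then M / 2 else 0) +
        (if ((i : ℕ) : ℤ) = ⌊z + ζ / 2⌋ - 1 then M / 2 else 0) + τ := by
      intro i
      have e := edge i ((le_or_gt _ _).imp id (hm i))
      split_ifs with h1 h2 h2
      · linarith
      · linarith
      · linarith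
      · rw [add_zero, zero_add]
        refine far i ?_
        have f1 := Int.floor_le (z + ζ / 2)
        have f2 := Int.lt_floor_add_one (z + ζ / 2)
        rcases lt_or_gt_of_ne h1 with hi | hi
        · right
          have : (((i : ℕ) : ℤ) : ℝ) + 2 ≤ ⌊z + ζ / 2⌋ := by exact_mod_cast (by omega)
          push_cast at this
          linarith
        · left
          have : (⌊z + ζ / 2⌋ : ℝ) + 1 ≤ (((i : ℕ) : ℤ) : ℝ) := by exact_mod_cast hi
          push_cast at this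
          linarith
    refine (sum_le_sum fun i _ => this i).trans ?_
    rw [sum_add_distrib, sum_add_distrib, cτ]
    linarith [sum_ite_le (L := L) ⌊z + ζ / 2⌋ (show 0 ≤ M / 2 by linarith),
      sum_ite_le (L := L) (⌊z + ζ / 2⌋ - 1) (show 0 ≤ M / 2 by linarith)]

theorem piece_crude {B : Type*} [Fintype B] (amp : B → ℝ) (ω E J : B → ℂ) (x : ℝ)
    (h0 : ∀ b, 0 ≤ amp b) (h2 : ∀ b, amp b ≤ 2) (hω : ∀ b, ‖ω b‖ = 1) (hE : ∀ b, ‖E b‖ = 1)
    (hJ : ∀ b, ‖J b‖ ≤ x) :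
    |2 * (∑ b, amp b * ω b * E b * J b).re| ≤ 4 * Fintype.card B * x := by
  rw [abs_mul, abs_two]
  have := (Complex.abs_re_le_norm _).trans (norm_sum_le_of_le (s := univ)
    (f := fun b => amp b * ω b * E b * J b) (n := fun _ => 2 * x) fun b _ => by
      rw [norm_mul, norm_mul, norm_mul, hω, hE, Complex.norm_real, Real.norm_of_nonneg (h0 b),
        mul_one, mul_one]
      exact mul_le_mul (h2 b) (hJ b) (norm_nonneg _) zero_le_two)
  rw [sum_const, card_univ, nsmul_eq_mul] at this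
  linarith

theorem piece_mid {B : Type*} [Fintype B] (a : B → ℝ) (α ω E J e : B → ℂ) (F : ℂ) (κ p x M d : ℝ)
    (hκ : 0 ≤ κ) (hp : 0 < p) (h0 : ∀ b, 0 ≤ a b) (h2 : ∀ b, κ * a b ≤ 2) (hω : ∀ b, ‖ω b‖ = 1)
    (hE : ∀ b, ‖E b‖ = 1) (he : ∀ b, ‖e b‖ = 1) (hF : ‖F‖ = 1)
    (hα : ∀ b, α b = ‖α b‖ * (ω b * F)) (hJ : ∀ b, ‖J b - F * e b / p‖ ≤ x)
    (hM : |2 * (∑ b, α b * (E b * e b)).re| ≤ M) (hd : ∀ b, |a b - ‖α b‖| ≤ d) :
    |2 * (∑ b, (κ * a b : ℝ) * ω b * E b * J b).re| ≤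
      κ / p * (M + 2 * Fintype.card B * d) + 4 * Fintype.card B * x := by
  have c1 := piece_crude (fun b => κ * a b) ω E (fun b => J b - F * e b / p) x
    (fun b => mul_nonneg hκ (h0 b)) h2 hω hE hJ
  have c2 : |2 * (∑ b, ((a b - ‖α b‖ : ℝ) : ℂ) * (ω b * F * (E b * e b))).re| ≤
      2 * Fintype.card B * d := by
    rw [abs_mul, abs_two]
    have := (Complex.abs_re_le_norm _).trans (norm_sum_le_of_le (s := univ)
      (f := fun b => ((a b - ‖α b‖ : ℝ) : ℂ) * (ω b * F * (E b * e b))) (n := fun _ => d)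
      fun b _ => by
        rw [norm_mul, norm_mul, norm_mul, norm_mul, hω, hE, he, hF, Complex.norm_real]
        simpa using hd b)
    rw [sum_const, card_univ, nsmul_eq_mul] at this
    linarith
  have e1 : ∑ b, (κ * a b : ℝ) * ω b * E b * J b =
      ((κ / p : ℝ) : ℂ) * (∑ b, α b * (E b * e b) +
        ∑ b, ((a b - ‖α b‖ : ℝ) : ℂ) * (ω b * F * (E b * e b))) +
      ∑ b, (κ * a b : ℝ) * ω b * E b * (J b - F * e b / p) := by
    rw [← sum_add_distrib, mul_sum, ← sum_add_distrib]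
    refine sum_congr rfl fun b _ => ?_
    have := hα b
    push_cast
    linear_combination (-(κ / p) * (E b * e b)) * this
  rw [e1, Complex.add_re, Complex.re_ofReal_mul, Complex.add_re, mul_add]
  refine (abs_add_le _ _).trans (add_le_add ?_ c1)
  rw [mul_left_comm, abs_mul, abs_of_nonneg (div_nonneg hκ hp.le), mul_add]
  exact mul_le_mul_of_nonneg_left ((abs_add_le _ _).trans (add_le_add hM c2)) (div_nonneg hκ hp.le)

end Crest.Agent.R075
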