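import Crest.Agent.R210.Char

/-! Interpolation of a trigonometric polynomial of degree `< N` from the grid `j / (2N)`. -/

set_option autoImplicit false

namespace Crest.Agent.R075

open Finset Crest.Agent.R210

theorem round_norm_ee (θ : ℝ) : ‖ee θ‖ = 1 := by
  rw [ee, Complex.norm_exp_ofReal_mul_I]

theorem round_conj_ee (θ : ℝ) : (starRingEnd ℂ) (ee θ) = ee (-θ) := by
  rw [ee, ee, ← Complex.exp_conj, map_mul, Complex.conj_ofReal, Complex.conj_I]; congr 1
  push_cast; ring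

/-- Orthogonality of characters on the grid. -/
theorem round_orth (L : ℕ) (n : ℤ) (hn : |n| < L) :
    ∑ j ∈ range L, ee (n * ((j : ℝ) / L)) = if n = 0 then (L : ℂ) else 0 := by
  split_ifs with h
  · subst h; simp [ee_zero]
  · have hL : (0 : ℝ) < L := by
      have : (0 : ℤ) < L := (abs_nonneg n).trans_lt hn
      exact_mod_cast this
    have e1 : ∀ j : ℕ, ee (n * ((j : ℝ) / L)) = ee (n / L) ^ j := by
      intro j; rw [ee_pow]; congr 1; ring
    simp_rw [e1]
    have h1 : ee (n / L) ≠ 1 := by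
      intro h1
      rw [← ee_zero] at h1
      obtain ⟨m, hm⟩ := ee_eq h1
      have h2 : (n : ℝ) = m * L := by
        rw [zero_add, div_eq_iff hL.ne'] at hm; exact hm
      have h3 : n = m * L := by exact_mod_cast h2
      have h4 : m ≠ 0 := by rintro rfl; simp at h3; exact h h3
      have h5 : (1 : ℤ) ≤ |m| := Int.one_le_abs h4
      rw [h3, abs_mul, abs_of_nonneg (by positivity : (0 : ℤ) ≤ L)] at hn
      have : (0 : ℤ) < L := by exact_mod_cast hL
      nlinarith
    rw [geom_sum_eq h1, ee_pow, mul_div_cancel₀ _ hL.ne', ee_int, sub_self, zero_div]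

/-- The Dirichlet-type kernel. -/
noncomputable def roundG (n : ℕ) (s : ℝ) : ℂ := ∑ a ∈ range n, ee (a * s)

theorem round_norm_G_neg (n : ℕ) (s : ℝ) : ‖roundG n (-s)‖ = ‖roundG n s‖ := by
  rw [← Complex.norm_conj (roundG n s), roundG, roundG, map_sum]
  congr 1
  refine sum_congr rfl fun a _ => ?_
  rw [round_conj_ee]; congr 1; ring

theorem round_parseval (L n : ℕ) (hn : n ≤ L) (t : ℝ) :
    ∑ j ∈ range L, ‖roundG n (t - (j : ℝ) / L)‖ ^ 2 = L * n := by
  have key : ∑ j ∈ range L, roundG n (t - (j : ℝ) / L) *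
      (starRingEnd ℂ) (roundG n (t - (j : ℝ) / L)) = L * n := by
    have e1 : ∀ j : ℕ, roundG n (t - (j : ℝ) / L) * (starRingEnd ℂ) (roundG n (t - (j : ℝ) / L)) =
        ∑ a ∈ range n, ∑ b ∈ range n, ee ((a - b) * t) * ee (((b : ℤ) - a : ℤ) * ((j : ℝ) / L)) := by
      intro j
      rw [roundG, map_sum, sum_mul_sum]
      refine sum_congr rfl fun a _ => sum_congr rfl fun b _ => ?_
      rw [round_conj_ee, ← ee_add, ← ee_add]; congr 1; push_cast; ring
    simp_rw [e1]
    rw [sum_comm]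
    have e2 : ∀ a ∈ range n, ∑ j ∈ range L, ∑ b ∈ range n,
        ee ((a - b) * t) * ee (((b : ℤ) - a : ℤ) * ((j : ℝ) / L)) = (L : ℂ) := by
      intro a ha
      rw [sum_comm]
      have e3 : ∀ b ∈ range n, ∑ j ∈ range L,
          ee ((a - b) * t) * ee (((b : ℤ) - a : ℤ) * ((j : ℝ) / L)) =
          if b = a then (L : ℂ) else 0 := by
        intro b hb
        rw [← mul_sum, round_orth L _ (by
          rw [mem_range] at ha hb; rw [abs_lt]; constructor <;> omega)]
        by_cases h : b = a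
        · subst h; simp [ee_zero]
        · rw [if_neg (by omega), if_neg h, mul_zero]
      rw [sum_congr rfl e3, sum_ite_eq' , if_pos ha]
    rw [sum_congr rfl e2]; simp [mul_comm]
  simp_rw [Complex.mul_conj, Complex.normSq_eq_norm_sq] at key
  exact_mod_cast key

theorem round_interp_eq (N : ℕ) (d : Fin N → ℂ) (t : ℝ) :
    ∑ j ∈ range (2 * N), (∑ k : Fin N, d k * ee ((k : ℕ) * ((j : ℝ) / (2 * N : ℕ)))) *
      (roundG (2 * N) (t - (j : ℝ) / (2 * N : ℕ)) * roundG N (-(t - (j : ℝ) / (2 * N : ℕ)))) =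
      ((2 * N : ℕ) : ℂ) * N * ∑ k : Fin N, d k * ee ((k : ℕ) * t) := by
  have e1 : ∀ j : ℕ, (∑ k : Fin N, d k * ee ((k : ℕ) * ((j : ℝ) / (2 * N : ℕ)))) *
      (roundG (2 * N) (t - (j : ℝ) / (2 * N : ℕ)) * roundG N (-(t - (j : ℝ) / (2 * N : ℕ)))) =
      ∑ k : Fin N, ∑ b ∈ range N, ∑ a ∈ range (2 * N), d k * ee ((a - b) * t) *
        ee ((((k : ℕ) : ℤ) + b - a : ℤ) * ((j : ℝ) / (2 * N : ℕ))) := by
    intro j
    rw [sum_mul]
    refine sum_congr rfl fun k _ => ?_
    rw [mul_comm (roundG _ _), roundG, roundG, sum_mul_sum, mul_sum]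
    refine sum_congr rfl fun b _ => ?_
    rw [mul_sum]
    refine sum_congr rfl fun a _ => ?_
    rw [mul_assoc, mul_assoc, ← ee_add, ← ee_add, ← ee_add]
    congr 2; push_cast; ring
  simp_rw [e1]
  rw [sum_comm, mul_sum]
  refine sum_congr rfl fun k _ => ?_
  rw [sum_comm]
  have e2 : ∀ b ∈ range N, ∑ j ∈ range (2 * N), ∑ a ∈ range (2 * N), d k * ee ((a - b) * t) *
      ee ((((k : ℕ) : ℤ) + b - a : ℤ) * ((j : ℝ) / (2 * N : ℕ))) =
      ((2 * N : ℕ) : ℂ) * (d k * ee ((k : ℕ) * t)) := by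
    intro b hb
    rw [sum_comm]
    have hk := k.2
    rw [mem_range] at hb
    have e3 : ∀ a ∈ range (2 * N), ∑ j ∈ range (2 * N), d k * ee ((a - b) * t) *
        ee ((((k : ℕ) : ℤ) + b - a : ℤ) * ((j : ℝ) / (2 * N : ℕ))) =
        if a = k + b then ((2 * N : ℕ) : ℂ) * (d k * ee ((k : ℕ) * t)) else 0 := by
      intro a ha
      rw [mem_range] at ha
      rw [← mul_sum, round_orth (2 * N) _ (by rw [abs_lt]; constructor <;> omega)]
      by_cases h : a = k + b
      · rw [if_pos (by omega), if_pos h, h, mul_comm]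
        congr 3; push_cast; ring
      · rw [if_neg (by omega), if_neg h, mul_zero]
    rw [sum_congr rfl e3, sum_ite_eq', if_pos (by rw [mem_range]; omega)]
  rw [sum_congr rfl e2]
  simp only [sum_const, card_range, nsmul_eq_mul]; ring

/-- Grid interpolation. -/
theorem round_interp (N : ℕ) (hN : 0 < N) (d : Fin N → ℂ) (M : ℝ)
    (h : ∀ j < 2 * N, ‖∑ k : Fin N, d k * ee ((k : ℕ) * ((j : ℝ) / (2 * N : ℕ)))‖ ≤ M) (t : ℝ) :
    ‖∑ k : Fin N, d k * ee ((k : ℕ) * t)‖ ≤ 2 * M := by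
  have hM : 0 ≤ M := (norm_nonneg _).trans (h 0 (by omega))
  have h1 := congrArg norm (round_interp_eq N d t)
  rw [norm_mul, norm_mul, Complex.norm_natCast, Complex.norm_natCast] at h1
  have h2 : ‖∑ j ∈ range (2 * N), (∑ k : Fin N, d k * ee ((k : ℕ) * ((j : ℝ) / (2 * N : ℕ)))) *
      (roundG (2 * N) (t - (j : ℝ) / (2 * N : ℕ)) * roundG N (-(t - (j : ℝ) / (2 * N : ℕ))))‖ ≤
      ∑ j ∈ range (2 * N), M * ((‖roundG (2 * N) (t - (j : ℝ) / (2 * N : ℕ))‖ ^ 2 +
        ‖roundG N (t - (j : ℝ) / (2 * N : ℕ))‖ ^ 2) / 2) := by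
    refine (norm_sum_le _ _).trans (sum_le_sum fun j hj => ?_)
    rw [norm_mul, norm_mul, round_norm_G_neg]
    refine mul_le_mul (h j (mem_range.1 hj)) ?_ (by positivity) hM
    nlinarith [sq_nonneg (‖roundG (2 * N) (t - (j : ℝ) / (2 * N : ℕ))‖ -
      ‖roundG N (t - (j : ℝ) / (2 * N : ℕ))‖)]
  rw [← mul_sum, ← sum_div, sum_add_distrib, round_parseval _ _ le_rfl,
    round_parseval _ _ (by omega), h1] at h2
  have hN' : (0 : ℝ) < N := by exact_mod_cast hN
  push_cast at h2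
  have h3 : (2 * N * N : ℝ) * ‖∑ k : Fin N, d k * ee ((k : ℕ) * t)‖ ≤ (2 * N * N) * (2 * M) := by
    have : 0 ≤ M * N * N := by positivity
    nlinarith
  exact le_of_mul_le_mul_left h3 (by positivity)

end Crest.Agent.R075
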