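import Crest.Agent.R210.Char
import Crest.Agent.R075.Spencer
import Crest.Agent.R075.RoundInterp

/-! Rounding a sequence in `[-1,1]` that is close to `±1` on average to signs, with a small
sup-norm error of the trigonometric polynomial. -/

set_option autoImplicit false

namespace Crest.Agent.R075

open Finset Crest.Agent.R210

theorem round_sqrt_pow (n : ℕ) (X : ℝ) (hX : 0 ≤ X) :
    √(√(2 ^ n * X)) ≤ (3 / 2) ^ n * √(√X) := by
  have h1 : (2 : ℝ) ^ n * X ≤ (((3 / 2) ^ n) ^ 2) ^ 2 * X := by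
    refine mul_le_mul_of_nonneg_right ?_ hX
    rw [← pow_mul, ← pow_mul, mul_comm n, pow_mul]
    exact pow_le_pow_left₀ (by norm_num) (by norm_num) n
  refine (Real.sqrt_le_sqrt (Real.sqrt_le_sqrt h1)).trans_eq ?_
  rw [Real.sqrt_mul (by positivity), Real.sqrt_sq (by positivity), Real.sqrt_mul (by positivity),
    Real.sqrt_sq (by positivity)]

/-- Dyadic rounding. -/
theorem round_dyadic : ∃ C : ℝ, 0 < C ∧ ∀ (ι κ : Type) [Fintype ι] [Fintype κ] (w : κ → ι → ℝ)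
    (B : ℝ), (∀ j i, |w j i| ≤ 1) → Fintype.card ι ≤ Fintype.card κ → 0 ≤ B →
    ∀ (T : ℕ) (z : ι → ℕ), (∀ k, z k ≤ 2 ^ T) → (∑ k, (z k : ℝ)) ≤ 2 ^ T * B →
    ∃ r : ι → ℝ, (∀ k, r k = 0 ∨ r k = 1) ∧ ∀ j, |∑ k, ((z k : ℝ) / 2 ^ T - r k) * w j k| ≤
      3 * (1 - (3 / 4) ^ T) * (C * √(√(B * Fintype.card κ))) := by
  classical
  obtain ⟨C, hC, hsp⟩ := spencer
  refine ⟨C, hC, fun ι κ _ _ w B hw hc hB T => ?_⟩
  induction T with
  | zero =>
    intro z hz _
    refine ⟨fun k => z k, fun k => ?_, fun j => by simp⟩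
    have := hz k
    rcases (by omega : z k = 0 ∨ z k = 1) with h | h <;> simp [h]
  | succ T ih =>
    intro z hz hs
    set S : Finset ι := univ.filter fun k => z k % 2 = 1 with hS
    have hSc : (S.card : ℝ) ≤ 2 ^ (T + 1) * B := by
      refine le_trans ?_ hs
      rw [card_eq_sum_ones, Nat.cast_sum]
      refine (sum_le_sum fun k hk => ?_).trans
        (sum_le_sum_of_subset_of_nonneg (subset_univ S) fun _ _ _ => Nat.cast_nonneg _)
      have : z k % 2 = 1 := by simpa [hS] using hk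
      exact_mod_cast (by omega : 1 ≤ z k)
    obtain ⟨χ, hχ, hneg, hd⟩ : ∃ χ : ι → ℝ, (∀ i, χ i = 1 ∨ χ i = -1) ∧ ∑ i ∈ S, χ i ≤ 0 ∧
        ∀ j, |∑ i ∈ S, χ i * w j i| ≤ C * √(√((S.card : ℝ) * Fintype.card κ)) := by
      obtain ⟨χ, hχ, hd⟩ := hsp ι κ S w hw ((card_le_univ S).trans hc)
      by_cases h : ∑ i ∈ S, χ i ≤ 0
      · exact ⟨χ, hχ, h, hd⟩
      · refine ⟨fun i => -χ i, fun i => ?_, ?_, fun j => ?_⟩
        · rcases hχ i with h | h <;> simp [h]
        · rw [sum_neg_distrib]; linarith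
        · simp_rw [neg_mul]; rw [sum_neg_distrib, abs_neg]; exact hd j
    set z' : ι → ℕ := fun k => if z k % 2 = 1 ∧ χ k = 1 then (z k + 1) / 2 else z k / 2 with hz'
    have e1 : ∀ k, (z' k : ℝ) = (z k + if k ∈ S then χ k else 0) / 2 := by
      intro k
      by_cases h1 : z k % 2 = 1
      · have hk : k ∈ S := by simpa [hS] using h1
        rw [if_pos hk]
        rcases hχ k with h | h
        · have : 2 * z' k = z k + 1 := by simp only [hz', h1, h, and_self, if_true]; omega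
          have : (2 : ℝ) * z' k = z k + 1 := by exact_mod_cast this
          rw [h]; linarith
        · have h' : χ k ≠ 1 := by rw [h]; norm_num
          have : 2 * z' k + 1 = z k := by simp only [hz', h', and_false, if_false]; omega
          have : (2 : ℝ) * z' k + 1 = z k := by exact_mod_cast this
          rw [h]; linarith
      · have hk : k ∉ S := by simpa [hS] using h1
        rw [if_neg hk]
        have : 2 * z' k = z k := by simp only [hz', h1, false_and, if_false]; omega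
        have : (2 : ℝ) * z' k = z k := by exact_mod_cast this
        linarith
    have e2 : ∀ f : ι → ℝ, ∑ k, (if k ∈ S then χ k else 0) * f k = ∑ k ∈ S, χ k * f k := by
      intro f
      simp_rw [ite_mul, zero_mul]
      rw [sum_ite_mem, univ_inter]
    obtain ⟨r, hr, hb⟩ := ih z' (fun k => by
      have := hz k
      rw [pow_succ] at this
      simp only [hz']
      split_ifs with h
      · have := h.1; omega
      · omega) (by
      simp_rw [e1]
      rw [← sum_div, sum_add_distrib, sum_ite_mem, univ_inter]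
      rw [pow_succ] at hs
      linarith)
    refine ⟨r, hr, fun j => ?_⟩
    have e3 : ∑ k, ((z k : ℝ) / 2 ^ (T + 1) - r k) * w j k =
        ∑ k, ((z' k : ℝ) / 2 ^ T - r k) * w j k - (∑ k ∈ S, χ k * w j k) / 2 ^ (T + 1) := by
      rw [← e2, sum_div, ← sum_sub_distrib]
      refine sum_congr rfl fun k _ => ?_
      rw [e1]; field_simp; ring
    have h4 : |(∑ k ∈ S, χ k * w j k) / 2 ^ (T + 1)| ≤
        (3 / 4) ^ (T + 1) * (C * √(√(B * Fintype.card κ))) := by
      rw [abs_div, abs_of_pos (by positivity : (0 : ℝ) < 2 ^ (T + 1)),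
        div_le_iff₀ (by positivity)]
      refine (hd j).trans ?_
      have h5 : √(√((S.card : ℝ) * Fintype.card κ)) ≤
          (3 / 2) ^ (T + 1) * √(√(B * Fintype.card κ)) := by
        refine le_trans ?_ (round_sqrt_pow (T + 1) _ (by positivity))
        refine Real.sqrt_le_sqrt (Real.sqrt_le_sqrt ?_)
        rw [← mul_assoc]
        exact mul_le_mul_of_nonneg_right hSc (Nat.cast_nonneg _)
      have h6 : ((3 : ℝ) / 2) ^ (T + 1) = (3 / 4) ^ (T + 1) * 2 ^ (T + 1) := by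
        rw [← mul_pow]; norm_num
      calc C * √(√((S.card : ℝ) * Fintype.card κ))
          ≤ C * ((3 / 2) ^ (T + 1) * √(√(B * Fintype.card κ))) := by gcongr
        _ = _ := by rw [h6]; ring
    rw [e3]
    refine (abs_sub _ _).trans ((add_le_add (hb j) h4).trans_eq ?_)
    ring

/-- Rounding of real numbers in `[0,1]` with a small sum. -/
theorem round_real : ∃ C : ℝ, 0 < C ∧ ∀ (ι κ : Type) [Fintype ι] [Fintype κ] (w : κ → ι → ℝ)
    (B : ℝ), (∀ j i, |w j i| ≤ 1) → Fintype.card ι ≤ Fintype.card κ →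
    ∀ (p : ι → ℝ), (∀ k, 0 ≤ p k) → (∀ k, p k ≤ 1) → (∑ k, p k) ≤ B → ∀ ε : ℝ, 0 < ε →
    ∃ r : ι → ℝ, (∀ k, r k = 0 ∨ r k = 1) ∧ ∀ j, |∑ k, (p k - r k) * w j k| ≤
      C * √(√(B * Fintype.card κ)) + ε := by
  obtain ⟨C, hC, h⟩ := round_dyadic
  refine ⟨3 * C, by positivity, fun ι κ _ _ w B hw hc p hp0 hp1 hs ε hε => ?_⟩
  have hB : 0 ≤ B := (sum_nonneg fun k _ => hp0 k).trans hs
  obtain ⟨T, hT⟩ := pow_unbounded_of_one_lt ((Fintype.card ι : ℝ) / ε) (one_lt_two (α := ℝ))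
  have h2 : (0 : ℝ) < 2 ^ T := by positivity
  have hfl : ∀ k, ((⌊2 ^ T * p k⌋₊ : ℕ) : ℝ) ≤ 2 ^ T * p k := fun k =>
    Nat.floor_le (mul_nonneg h2.le (hp0 k))
  obtain ⟨r, hr, hb⟩ := h ι κ w B hw hc hB T (fun k => ⌊2 ^ T * p k⌋₊) (fun k => by
    have : ((⌊2 ^ T * p k⌋₊ : ℕ) : ℝ) ≤ 2 ^ T := (hfl k).trans (by nlinarith [hp1 k])
    exact_mod_cast this) (by
    refine (sum_le_sum fun k _ => hfl k).trans ?_
    rw [← mul_sum]; gcongr)
  refine ⟨r, hr, fun j => ?_⟩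
  have e1 : ∑ k, (p k - r k) * w j k = ∑ k, (((⌊2 ^ T * p k⌋₊ : ℕ) : ℝ) / 2 ^ T - r k) * w j k +
      ∑ k, (p k - ((⌊2 ^ T * p k⌋₊ : ℕ) : ℝ) / 2 ^ T) * w j k := by
    rw [← sum_add_distrib]
    exact sum_congr rfl fun k _ => by ring
  have h3 : |∑ k, (p k - ((⌊2 ^ T * p k⌋₊ : ℕ) : ℝ) / 2 ^ T) * w j k| ≤ ε := by
    refine (abs_sum_le_sum_abs _ _).trans ?_
    have h4 : ∀ k ∈ (univ : Finset ι),
        |(p k - ((⌊2 ^ T * p k⌋₊ : ℕ) : ℝ) / 2 ^ T) * w j k| ≤ 1 / 2 ^ T := by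
      intro k _
      rw [abs_mul]
      have h5 := Nat.lt_floor_add_one (2 ^ T * p k)
      have h6 : p k - ((⌊2 ^ T * p k⌋₊ : ℕ) : ℝ) / 2 ^ T =
          (2 ^ T * p k - ((⌊2 ^ T * p k⌋₊ : ℕ) : ℝ)) / 2 ^ T := by field_simp
      have h7 : |p k - ((⌊2 ^ T * p k⌋₊ : ℕ) : ℝ) / 2 ^ T| ≤ 1 / 2 ^ T := by
        rw [h6, abs_of_nonneg (div_nonneg (by linarith [hfl k]) h2.le)]
        gcongr; linarith
      calc _ ≤ 1 / 2 ^ T * 1 := mul_le_mul h7 (hw j k) (abs_nonneg _) (by positivity)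
        _ = _ := mul_one _
    refine (sum_le_card_nsmul _ _ _ h4).trans ?_
    rw [card_univ, nsmul_eq_mul, mul_one_div, div_le_iff₀ h2]
    rw [div_lt_iff₀ hε] at hT
    linarith
  rw [e1]
  refine (abs_add_le _ _).trans (add_le_add ((hb j).trans ?_) h3)
  have h8 : (0 : ℝ) ≤ (3 / 4) ^ T * (C * √(√(B * Fintype.card κ))) := by positivity
  nlinarith

theorem round_signs : ∃ C : ℝ, 0 < C ∧ ∀ (N : ℕ) (a : Fin N → ℝ) (δ : ℝ), 0 < δ →
    (∀ k, |a k| ≤ 1) → ∑ k, (1 - |a k|) ≤ δ * N →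
    ∃ c : Fin N → ℤˣ, ∀ θ : ℝ,
      ‖∑ k : Fin N, (((c k : ℤ) : ℂ) - (a k : ℂ)) * ee ((k : ℕ) * θ)‖ ≤ C * √(√δ) * √N := by
  classical
  obtain ⟨C, hC, h⟩ := round_real
  refine ⟨8 * (2 * C + 1), by positivity, fun N a δ hδ ha hs => ?_⟩
  rcases Nat.eq_zero_or_pos N with rfl | hN
  · exact ⟨fun _ => 1, fun θ => by simp⟩
  have hN' : (0 : ℝ) < N := by exact_mod_cast hN
  set σ : Fin N → ℝ := fun k => if 0 ≤ a k then 1 else -1 with hσ
  have hσa : ∀ k, σ k * |a k| = a k := by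
    intro k; simp only [hσ]; split_ifs with h0
    · rw [abs_of_nonneg h0, one_mul]
    · rw [abs_of_neg (not_le.1 h0)]; ring
  have hσ1 : ∀ k, |σ k| = 1 := by
    intro k; simp only [hσ]; split_ifs <;> simp
  set w : Fin (2 * N) × Bool → Fin N → ℝ := fun j k =>
    σ k * (if j.2 then (ee ((k : ℕ) * (((j.1 : ℕ) : ℝ) / (2 * N : ℕ)))).re
      else (ee ((k : ℕ) * (((j.1 : ℕ) : ℝ) / (2 * N : ℕ)))).im) with hw
  have hε : 0 < √(√δ) * √(N : ℝ) := by positivity
  obtain ⟨r, hr, hb⟩ := h (Fin N) (Fin (2 * N) × Bool) w (δ * N) (fun j k => by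
      simp only [hw]
      rw [abs_mul, hσ1, one_mul]
      split_ifs
      · exact (Complex.abs_re_le_norm _).trans (round_norm_ee _).le
      · exact (Complex.abs_im_le_norm _).trans (round_norm_ee _).le)
    (by simp; omega) (fun k => (1 - |a k|) / 2) (fun k => by linarith [ha k])
    (fun k => by linarith [abs_nonneg (a k)]) (by
      rw [← sum_div]; have : 0 < δ * N := by positivity
      linarith) _ hε
  have hD : √(√(δ * N * Fintype.card (Fin (2 * N) × Bool))) ≤ 2 * (√(√δ) * √(N : ℝ)) := by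
    have e1 : δ * N * Fintype.card (Fin (2 * N) × Bool) = δ * (2 * N) ^ 2 := by
      simp; ring
    rw [e1, Real.sqrt_mul hδ.le, Real.sqrt_sq (by positivity), Real.sqrt_mul (by positivity),
      Real.sqrt_mul (by norm_num)]
    have : √(2 : ℝ) ≤ 2 := Real.sqrt_le_iff.2 ⟨by norm_num, by norm_num⟩
    nlinarith
  set c : Fin N → ℤˣ := fun k => if (0 ≤ a k ↔ r k = 0) then 1 else -1 with hc
  have hca : ∀ k, ((c k : ℤ) : ℂ) - (a k : ℂ) = ((2 * (((1 - |a k|) / 2 - r k) * σ k) : ℝ) : ℂ) := by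
    intro k
    have e1 : ((c k : ℤ) : ℝ) = σ k * (1 - 2 * r k) := by
      simp only [hc, hσ]
      by_cases h0 : 0 ≤ a k <;> rcases hr k with h1 | h1 <;> simp [h0, h1] <;> norm_num
    have e2 : ((c k : ℤ) : ℝ) - a k = 2 * (((1 - |a k|) / 2 - r k) * σ k) := by
      rw [e1]; nth_rewrite 1 [← hσa k]; ring
    rw [← e2]; push_cast; ring
  refine ⟨c, fun θ => ?_⟩
  have key := round_interp N hN (fun k => ((c k : ℤ) : ℂ) - (a k : ℂ))
    (4 * ((2 * C + 1) * (√(√δ) * √(N : ℝ)))) (fun j hj => by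
      refine (Complex.norm_le_abs_re_add_abs_im _).trans ?_
      have h1 := hb (⟨j, hj⟩, true)
      have h2 := hb (⟨j, hj⟩, false)
      have e1 : (∑ k : Fin N, (((c k : ℤ) : ℂ) - (a k : ℂ)) *
          ee ((k : ℕ) * ((j : ℝ) / (2 * N : ℕ)))).re =
          2 * ∑ k, ((1 - |a k|) / 2 - r k) * w (⟨j, hj⟩, true) k := by
        rw [Complex.re_sum, mul_sum]
        refine sum_congr rfl fun k _ => ?_
        rw [hca, Complex.re_ofReal_mul]; simp only [hw, if_true]; ring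
      have e2 : (∑ k : Fin N, (((c k : ℤ) : ℂ) - (a k : ℂ)) *
          ee ((k : ℕ) * ((j : ℝ) / (2 * N : ℕ)))).im =
          2 * ∑ k, ((1 - |a k|) / 2 - r k) * w (⟨j, hj⟩, false) k := by
        rw [Complex.im_sum, mul_sum]
        refine sum_congr rfl fun k _ => ?_
        rw [hca, Complex.im_ofReal_mul]; simp only [hw, Bool.false_eq_true, if_false]; ring
      rw [e1, e2, abs_mul, abs_mul, abs_two]
      have h3 := mul_le_mul_of_nonneg_left hD hC.le
      nlinarith) θ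
  refine key.trans_eq ?_
  ring

end Crest.Agent.R075
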