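import Crest.Agent.R075.Stat

/-! One segment of the phase: entry connector, main chirp, exit connector. -/

set_option autoImplicit false

namespace Crest.Agent.R075

open Real Set intervalIntegral Crest.Agent.R210 ComplexConjugate

/-- Clamp to `[0,1]`. -/
noncomputable def cl (x : ℝ) : ℝ := max 0 (min x 1)

@[fun_prop] theorem continuous_cl : Continuous cl := by unfold cl; fun_prop

theorem cl_of_le {x : ℝ} (h : x ≤ 0) : cl x = 0 := max_eq_left ((min_le_left _ _).trans h)
theorem cl_of_ge {x : ℝ} (h : 1 ≤ x) : cl x = 1 := by rw [cl, min_eq_right h]; simp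
theorem cl_of_mem {x : ℝ} (h : x ∈ Icc (0 : ℝ) 1) : cl x = x := by
  rw [cl, min_eq_left h.2, max_eq_right h.1]

/-- Entry connector. -/
noncomputable def P1 (p ξ v : ℝ) : ℝ := p * (v ^ 2 / 2) + ξ * (3 * v ^ 2 - 2 * v ^ 3)
/-- Exit connector. -/
noncomputable def P3 (p ξ v : ℝ) : ℝ := p * (v - v ^ 2 / 2) + ξ * (3 * v ^ 2 - 2 * v ^ 3)

/-- The phase of one segment. -/
noncomputable def seg (S : ℝ → ℝ) (N A l m ya yb c θ : ℝ) : ℝ :=
  P1 (N * l * ya) (Int.fract (c - N * l * ya / 2)) (cl ((θ - A) / l)) +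
  (N * m * ya * cl ((θ - (A + l)) / m) + N * m * (yb - ya) * S (cl ((θ - (A + l)) / m))) +
  P3 (N * l * yb) (Int.fract (-(c + (N * m * ya + N * m * (yb - ya) * S 1) + N * l * yb / 2)))
    (cl ((θ - (A + l + m)) / l))

theorem ee_fract (x : ℝ) : ee (Int.fract x) = ee x := by
  conv_rhs => rw [← Int.floor_add_fract x, ee_add, ee_int, one_mul]

theorem phase_P1 (p ξ a b : ℝ) : Phase (fun v => P1 p ξ v + (a + b * v))
    (fun v => p * v + ξ * (6 * v - 6 * v ^ 2) + b) (fun v => p + ξ * (6 - 12 * v))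
    (fun _ => ξ * -12) := by
  refine ⟨fun v => ?_, fun v => ?_, fun v => ?_, continuous_const⟩
  · refine (((((hasDerivAt_pow 2 v).div_const 2).const_mul p).add
      ((((hasDerivAt_pow 2 v).const_mul 3).sub ((hasDerivAt_pow 3 v).const_mul 2)).const_mul ξ)).add
      (((hasDerivAt_id v).const_mul b).const_add a)).congr_deriv ?_
    push_cast; ring
  · refine ((((hasDerivAt_id v).const_mul p).add ((((hasDerivAt_id v).const_mul 6).sub
      ((hasDerivAt_pow 2 v).const_mul 6)).const_mul ξ)).add_const b).congr_deriv ?_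
    push_cast; ring
  · refine (((((hasDerivAt_id v).const_mul 12).const_sub 6).const_mul ξ).const_add p).congr_deriv ?_
    ring

theorem phase_P3 (p ξ a b : ℝ) : Phase (fun v => P3 p ξ v + (a + b * v))
    (fun v => p * (1 - v) + ξ * (6 * v - 6 * v ^ 2) + b) (fun v => -p + ξ * (6 - 12 * v))
    (fun _ => ξ * -12) := by
  have h := phase_P1 (-p) ξ a (b + p)
  have e1 : (fun v => P3 p ξ v + (a + b * v)) = fun v => P1 (-p) ξ v + (a + (b + p) * v) := by
    funext v; rw [P1, P3]; ring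
  have e2 : (fun v => p * (1 - v) + ξ * (6 * v - 6 * v ^ 2) + b) =
      fun v => -p * v + ξ * (6 * v - 6 * v ^ 2) + (b + p) := by funext v; ring
  rw [e1, e2]; exact h

variable {η Λ ζ K : ℝ} {S σ σ₁ σ₂ : ℝ → ℝ}

theorem seg_continuous (hS : Continuous S) (N A l m ya yb c : ℝ) :
    Continuous (seg S N A l m ya yb c) := by
  unfold seg P1 P3; fun_prop

theorem seg_left (S0 : S 0 = 0) {N A l m ya yb c θ : ℝ} (hl : 0 < l) (hm : 0 < m) (h : θ ≤ A) :
    ee (seg S N A l m ya yb c θ) = 1 := by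
  rw [seg, cl_of_le (div_nonpos_of_nonpos_of_nonneg (by linarith) hl.le),
    cl_of_le (div_nonpos_of_nonpos_of_nonneg (by linarith) hm.le),
    cl_of_le (div_nonpos_of_nonpos_of_nonneg (by linarith) hl.le)]
  simp [P1, P3, S0, ee_zero]

theorem ee_P1_one (p c : ℝ) : ee (P1 p (Int.fract (c - p / 2)) 1) = ee c := by
  rw [show P1 p (Int.fract (c - p / 2)) 1 = p / 2 + Int.fract (c - p / 2) by rw [P1]; ring,
    ee_add, ee_fract, ← ee_add, add_sub_cancel]

theorem ee_P3_one (p c x : ℝ) : ee (P3 p (Int.fract (-(c + p / 2))) 1 + (c + x)) = ee x := by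
  rw [show P3 p (Int.fract (-(c + p / 2))) 1 + (c + x) =
    Int.fract (-(c + p / 2)) + (p / 2 + c + x) by rw [P3]; ring, ee_add, ee_fract, ← ee_add]
  congr 1; ring

theorem seg_right {N A l m ya yb c θ : ℝ} (hl : 0 < l) (hm : 0 < m) (h : A + l + m + l ≤ θ) :
    ee (seg S N A l m ya yb c θ) = 1 := by
  rw [seg, cl_of_ge ((one_le_div hl).2 (by linarith)), cl_of_ge ((one_le_div hm).2 (by linarith)),
    cl_of_ge ((one_le_div hl).2 (by linarith)), ee_add, ee_add, ee_P1_one, ← ee_add, ← ee_add,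
    add_comm, mul_one, ← ee_zero, ← ee_P3_one (N * l * yb)
      (c + (N * m * ya + N * m * (yb - ya) * S 1)) 0, add_zero]

theorem atom_int (f g : ℝ → ℂ) (a len : ℝ)
    (h : ∀ v ∈ Icc (0 : ℝ) 1, f (a + len * v) = g v) :
    ∫ θ in a..a + len, f θ = len * ∫ v in (0 : ℝ)..1, g v := by
  have := smul_integral_comp_add_mul (f := f) (a := 0) (b := 1) len a
  rw [mul_zero, add_zero, mul_one] at this
  rw [← this, Complex.real_smul]
  congr 1
  exact integral_congr fun v hv => h v (by rwa [uIcc_of_le zero_le_one] at hv)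

theorem seg_int (hS : Continuous S) (S0 : S 0 = 0) {N A l m ya yb c : ℝ} (hl : 0 < l) (hm : 0 < m)
    (k : ℝ) :
    ∫ θ in A..A + l + m + l, ee (seg S N A l m ya yb c θ - k * θ) =
      l * (∫ v in (0 : ℝ)..1, ee (P1 (N * l * ya) (Int.fract (c - N * l * ya / 2)) v +
        (-(k * A) + -(k * l) * v))) +
      m * (∫ v in (0 : ℝ)..1, ee (N * m * (yb - ya) * S v +
        (c - k * (A + l) + (N * m * ya - k * m) * v))) +
      l * (∫ v in (0 : ℝ)..1, ee (P3 (N * l * yb)
        (Int.fract (-(c + (N * m * ya + N * m * (yb - ya) * S 1) + N * l * yb / 2))) v +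
        (c + (N * m * ya + N * m * (yb - ya) * S 1) + -(k * (A + l + m)) + -(k * l) * v))) := by
  have c0 : Continuous fun θ => ee (seg S N A l m ya yb c θ - k * θ) := by
    have := seg_continuous hS N A l m ya yb c
    fun_prop
  rw [← integral_add_adjacent_intervals (b := A + l + m) (c0.intervalIntegrable _ _)
    (c0.intervalIntegrable _ _), ← integral_add_adjacent_intervals (a := A) (b := A + l)
    (c0.intervalIntegrable _ _) (c0.intervalIntegrable _ _)]
  congr 1
  · congr 1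
    · refine atom_int _ _ _ _ fun v hv => ?_
      have := mul_le_of_le_one_right hl.le hv.2
      rw [seg, add_sub_cancel_left, mul_div_cancel_left₀ _ hl.ne', cl_of_mem hv,
        cl_of_le (div_nonpos_of_nonpos_of_nonneg (by linarith) hm.le),
        cl_of_le (div_nonpos_of_nonpos_of_nonneg (by linarith) hl.le)]
      congr 1
      simp only [P3, S0]; ring
    · refine atom_int _ _ _ _ fun v hv => ?_
      have := mul_le_of_le_one_right hm.le hv.2
      have := mul_nonneg hm.le hv.1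
      rw [seg, add_sub_cancel_left, mul_div_cancel_left₀ _ hm.ne', cl_of_mem hv,
        cl_of_ge ((one_le_div hl).2 (by linarith)),
        cl_of_le (div_nonpos_of_nonpos_of_nonneg (by linarith) hl.le), add_assoc, add_sub_assoc,
        ee_add, ee_P1_one, ← ee_add]
      congr 1
      simp only [P3]; ring
  · refine atom_int _ _ _ _ fun v hv => ?_
    have := mul_nonneg hl.le hv.1
    rw [seg, add_sub_cancel_left, mul_div_cancel_left₀ _ hl.ne', cl_of_mem hv,
      cl_of_ge ((one_le_div hl).2 (by linarith)), cl_of_ge ((one_le_div hm).2 (by linarith)),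
      add_assoc, add_sub_assoc, ee_add, ee_P1_one, ← ee_add]
    congr 1
    ring

theorem seg_main (h : Profile η Λ ζ K S σ σ₁ σ₂) (hη : 0 < η) {N A l m ya yb c : ℝ} (hN : 0 < N)
    (hl : 0 < l) (hm : 0 < m) (ha : η ≤ ya) (hab : ya < yb) (hNl : 12 ≤ N * l * η) (k : ℝ) :
    √N * ‖(∫ θ in A..A + l + m + l, ee (seg S N A l m ya yb c θ - k * θ)) -
      m * ee (c - k * (A + l)) * JJ S (N * m * (yb - ya)) ((k / N - ya) / (yb - ya))‖ ≤
      16 * √(l / η) := by
  rw [seg_int h.ph.c₀ h.S0 hl hm]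
  have e : ∫ v in (0 : ℝ)..1, ee (N * m * (yb - ya) * S v +
      (c - k * (A + l) + (N * m * ya - k * m) * v)) =
      ee (c - k * (A + l)) * JJ S (N * m * (yb - ya)) ((k / N - ya) / (yb - ya)) := by
    rw [JJ, ← integral_const_mul]
    refine integral_congr fun v _ => ?_
    simp only [← ee_add]
    congr 1
    have := sub_pos.2 hab
    field_simp
    ring
  rw [e]
  have e2 : ∀ a b c : ℂ, l * a + m * (ee (0 : ℝ) * 0 + b) + l * c - m * b = l * (a + c) :=
    fun _ _ _ => by ring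
  have e3 : ∀ a b c d : ℂ, l * a + m * (d * b) + l * c - m * d * b = l * (a + c) :=
    fun _ _ _ _ => by ring
  rw [e3, norm_mul, Complex.norm_real, Real.norm_of_nonneg hl.le]
  have Nl : 0 < N * l := mul_pos hN hl
  have p1 : N * l * η ≤ N * l * ya := mul_le_mul_of_nonneg_left ha Nl.le
  have p2 : N * l * η ≤ N * l * yb := mul_le_mul_of_nonneg_left (ha.trans hab.le) Nl.le
  have q : ∀ x v : ℝ, v ∈ Icc (0 : ℝ) 1 → |Int.fract x * (6 - 12 * v)| ≤ 6 := by
    intro x v hv
    rw [abs_mul, abs_of_nonneg (Int.fract_nonneg x)]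
    refine (mul_le_of_le_one_left (abs_nonneg _) (Int.fract_lt_one x).le).trans ?_
    rw [abs_le]; constructor <;> linarith [hv.1, hv.2]
  have L0 : 0 < N * l * η / 4 := by linarith
  have i1 := second_deriv_test (phase_P1 (N * l * ya) (Int.fract (c - N * l * ya / 2)) (-(k * A))
    (-(k * l))) zero_le_one L0 fun v hv => by
      have := (abs_le.1 (q (c - N * l * ya / 2) v hv)).1; linarith
  have i3 := second_deriv_test' (phase_P3 (N * l * yb)
    (Int.fract (-(c + (N * m * ya + N * m * (yb - ya) * S 1) + N * l * yb / 2)))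
    (c + (N * m * ya + N * m * (yb - ya) * S 1) + -(k * (A + l + m))) (-(k * l))) zero_le_one L0
    fun v hv => by
      have := (abs_le.1 (q (-(c + (N * m * ya + N * m * (yb - ya) * S 1) + N * l * yb / 2)) v hv)).2
      linarith
  have i := (norm_add_le _ _).trans (add_le_add i1 i3)
  refine (mul_le_mul_of_nonneg_left (mul_le_mul_of_nonneg_left i hl.le) (sqrt_nonneg _)).trans
    (le_of_eq ?_)
  have s1 : √(N * l * η / 4) = √N * √l * √η / 2 := by
    rw [Real.sqrt_div (by positivity), Real.sqrt_mul Nl.le, Real.sqrt_mul hN.le,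
      show (4 : ℝ) = 2 ^ 2 by norm_num, Real.sqrt_sq (by norm_num)]
  have := sqrt_pos.2 hN
  have := sqrt_pos.2 hl
  have := sqrt_pos.2 hη
  rw [s1, Real.sqrt_div hl.le]
  nth_rewrite 1 [← Real.mul_self_sqrt hl.le]
  field_simp
  ring

theorem atom_tail {φ φ₁ φ₂ φ₃ : ℝ → ℝ} (h : Phase φ φ₁ φ₂ φ₃) {a C T : ℝ} (ha : 0 < a)
    (hT : 0 < T) (h1 : ∀ x ∈ Icc (0 : ℝ) 1, a * T ≤ |φ₁ x|)
    (h2 : ∀ x ∈ Icc (0 : ℝ) 1, |φ₂ x| ≤ C * T) (h3 : ∀ x ∈ Icc (0 : ℝ) 1, |φ₃ x| ≤ C * T) :
    ‖(∫ x in (0 : ℝ)..1, ee (φ x)) - (ee (φ 1) / (cI * φ₁ 1) - ee (φ 0) / (cI * φ₁ 0))‖ ≤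
      (3 * C / a ^ 3 + 3 * C ^ 2 / a ^ 4) / T ^ 2 := by
  refine (tail_test h zero_le_one (mul_pos ha hT) h1 h2 h3).trans (le_of_eq ?_)
  field_simp
  ring

theorem seg_tail (h : Profile η Λ ζ K S σ σ₁ σ₂) (hη : 0 < η) (A l m ya yb c : ℝ)
    (hl : 0 < l) (hm : 0 < m) (ha : η ≤ ya) (hab : ya < yb) (hb : yb ≤ 1 - 2 * η) :
    ∃ C : ℝ, ∀ N : ℝ, 1 ≤ N → 4 ≤ N * l * η → ∀ k : ℝ, k ≤ -(η * N) ∨ (1 - η) * N ≤ k →
      ‖(∫ θ in A..A + l + m + l, ee (seg S N A l m ya yb c θ - k * θ)) -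
        ∫ θ in A..A + l + m + l, ee (-(k * θ))‖ ≤ C / (N + |k|) ^ 2 := by
  refine ⟨2 * (l * (3 * (l + 12) / (l * (η / 4)) ^ 3 + 3 * (l + 12) ^ 2 / (l * (η / 4)) ^ 4)) +
    m * (3 * (m * K) / (m * (η / 4)) ^ 3 + 3 * (m * K) ^ 2 / (m * (η / 4)) ^ 4),
    fun N hN hNl k hk => ?_⟩
  set T := N + |k| with hT
  have T1 : N ≤ T := le_add_of_nonneg_right (abs_nonneg k)
  have T0 : 0 < T := by linarith
  have η1 := h.η1
  have N0 : 0 < N := by linarith
  have far : ∀ f, 0 ≤ f → f ≤ N * (1 - 2 * η) + η * N / 2 → η / 4 * T ≤ |f - k| := by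
    intro f f0 f1
    rcases hk with hk | hk
    · have k0 : k ≤ 0 := by nlinarith
      rw [hT, abs_of_nonpos k0]
      refine le_abs.2 (Or.inl ?_)
      nlinarith
    · have k0 : 0 ≤ k := by nlinarith
      rw [hT, abs_of_nonneg k0]
      refine le_abs.2 (Or.inr ?_)
      nlinarith [mul_nonneg (mul_nonneg hη.le hη.le) N0.le,
        mul_le_mul_of_nonneg_left hk (show 0 ≤ 1 - η / 4 by linarith)]
  have ne : ∀ f, 0 ≤ f → f ≤ N * (1 - 2 * η) + η * N / 2 → ((f - k : ℝ) : ℂ) ≠ 0 := by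
    intro f f0 f1
    exact_mod_cast abs_pos.1 (lt_of_lt_of_le (by positivity) (far f f0 f1))
  have ηN : 0 ≤ η * N / 2 := by positivity
  have ya0 : 0 ≤ ya := by linarith
  have conn : ∀ (x y v w : ℝ), v ∈ Icc (0 : ℝ) 1 → 0 ≤ w → w ≤ 1 → 0 ≤ y → y ≤ 1 - 2 * η →
      l * (η / 4) * T ≤ |N * l * y * w + Int.fract x * (6 * v - 6 * v ^ 2) + -(k * l)| := by
    intro x y v w hv w0 w1 y0 y1
    have b0 : 0 ≤ 6 * v - 6 * v ^ 2 := by nlinarith [hv.1, hv.2]
    have b1 : 6 * v - 6 * v ^ 2 ≤ 2 := by nlinarith [sq_nonneg (2 * v - 1)]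
    have b2 : Int.fract x * (6 * v - 6 * v ^ 2) ≤ 2 :=
      (mul_le_of_le_one_left b0 (Int.fract_lt_one x).le).trans b1
    have b3 := mul_nonneg (Int.fract_nonneg x) b0
    have e : N * l * y * w + Int.fract x * (6 * v - 6 * v ^ 2) + -(k * l) =
        l * (N * (y * w) + Int.fract x * (6 * v - 6 * v ^ 2) / l - k) := by field_simp; ring
    rw [e, abs_mul, abs_of_pos hl, mul_assoc]
    refine mul_le_mul_of_nonneg_left (far _ (by positivity) (add_le_add ?_ ?_)) hl.le
    · exact mul_le_mul_of_nonneg_left ((mul_le_of_le_one_right y0 w1).trans y1) N0.le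
    · rw [div_le_iff₀ hl]; nlinarith
  have c2 : ∀ (x y v : ℝ), v ∈ Icc (0 : ℝ) 1 → |y| ≤ 1 →
      |N * l * y + Int.fract x * (6 - 12 * v)| ≤ (l + 12) * T := by
    intro x y v hv hy
    refine (abs_add_le _ _).trans ?_
    rw [abs_mul, abs_mul (Int.fract x), abs_of_nonneg (Int.fract_nonneg x),
      abs_of_pos (mul_pos N0 hl)]
    have b1 : |6 - 12 * v| ≤ 6 := by rw [abs_le]; constructor <;> linarith [hv.1, hv.2]
    have b2 := mul_le_of_le_one_left (abs_nonneg (6 - 12 * v)) (Int.fract_lt_one x).le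
    have b3 := mul_le_of_le_one_right (mul_pos N0 hl).le hy
    have b4 := mul_le_mul_of_nonneg_left T1 hl.le
    nlinarith
  have c3 : ∀ x : ℝ, |Int.fract x * -12| ≤ (l + 12) * T := by
    intro x
    rw [abs_mul, abs_of_nonneg (Int.fract_nonneg x)]
    have := Int.fract_lt_one x
    have := mul_pos hl T0
    norm_num
    nlinarith
  have t1 := atom_tail (phase_P1 (N * l * ya) (Int.fract (c - N * l * ya / 2)) (-(k * A))
    (-(k * l))) (show 0 < l * (η / 4) by positivity) T0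
    (fun v hv => conn _ ya v v hv hv.1 hv.2 ya0 (by linarith))
    (fun v hv => c2 _ ya v hv (by rw [abs_le]; constructor <;> linarith)) (fun _ _ => c3 _)
  have t3 := atom_tail (phase_P3 (N * l * yb)
    (Int.fract (-(c + (N * m * ya + N * m * (yb - ya) * S 1) + N * l * yb / 2)))
    (c + (N * m * ya + N * m * (yb - ya) * S 1) + -(k * (A + l + m))) (-(k * l)))
    (show 0 < l * (η / 4) by positivity) T0
    (fun v hv => conn _ yb v (1 - v) hv (by linarith [hv.2]) (by linarith [hv.1]) (by linarith) hb)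
    (fun v hv => by
      have := c2 (-(c + (N * m * ya + N * m * (yb - ya) * S 1) + N * l * yb / 2)) (-yb) v hv
        (by rw [abs_le]; constructor <;> linarith)
      rwa [mul_neg] at this) (fun _ _ => c3 _)
  have ph2 : Phase (fun v => N * m * (yb - ya) * S v +
      (c - k * (A + l) + (N * m * ya - k * m) * v))
      (fun v => N * m * (yb - ya) * σ v + (N * m * ya - k * m))
      (fun v => N * m * (yb - ya) * σ₁ v) (fun v => N * m * (yb - ya) * σ₂ v) :=
    ⟨fun v => (((h.ph.d₀ v).const_mul _).add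
      (((hasDerivAt_id v).const_mul _).const_add _)).congr_deriv (by simp),
      fun v => ((h.ph.d₁ v).const_mul _).add_const _, fun v => (h.ph.d₂ v).const_mul _,
      h.ph.c₃.const_mul _⟩
  have c4 : ∀ w, |w| ≤ K → |N * m * (yb - ya) * w| ≤ m * K * T := by
    intro w hw
    rw [abs_mul, abs_of_pos (mul_pos (mul_pos N0 hm) (sub_pos.2 hab))]
    calc N * m * (yb - ya) * |w| ≤ T * m * 1 * K := by gcongr; linarith
      _ = _ := by ring
  have t2 := atom_tail ph2 (show 0 < m * (η / 4) by positivity) T0 (fun v hv => by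
      have e : N * m * (yb - ya) * σ v + (N * m * ya - k * m) =
          m * (N * (ya + (yb - ya) * σ v) - k) := by ring
      have s := h.mem hv
      have := mul_nonneg (sub_pos.2 hab).le s.1
      have := mul_le_of_le_one_right (sub_pos.2 hab).le s.2
      rw [e, abs_mul, abs_of_pos hm, mul_assoc]
      refine mul_le_mul_of_nonneg_left (far _ (by positivity) ?_) hm.le
      have := mul_le_mul_of_nonneg_left (show ya + (yb - ya) * σ v ≤ 1 - 2 * η by linarith) N0.le
      linarith)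
    (fun v hv => c4 _ (h.K1 v hv)) (fun v hv => c4 _ (h.K2 v hv))
  have k0 := ne 0 le_rfl (by nlinarith)
  have k1 := ne (N * ya) (by positivity) (by nlinarith)
  have k2 := ne (N * yb) (by nlinarith) (by nlinarith)
  have hI : ∫ θ in A..A + l + m + l, ee (-(k * θ)) =
      ee (-(k * (A + l + m + l))) / (cI * ((0 - k : ℝ) : ℂ)) -
        ee (-(k * A)) / (cI * ((0 - k : ℝ) : ℂ)) := by
    refine integral_eq_sub_of_hasDerivAt (f := fun θ => ee (-(k * θ)) / (cI * ((0 - k : ℝ) : ℂ)))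
      (fun θ _ => ?_) (Continuous.intervalIntegrable (by fun_prop) _ _)
    refine ((hasDerivAt_ee ((hasDerivAt_id θ).const_mul k).neg).div_const _).congr_deriv ?_
    have := cI_ne
    simp only [id, Pi.neg_apply, mul_one, zero_sub] at k0 ⊢
    field_simp
  simp only [h.S0, h.σ0, h.σ1] at t2
  have v1 : ee (P1 (N * l * ya) (Int.fract (c - N * l * ya / 2)) 1 + (-(k * A) + -(k * l) * 1)) =
      ee (c - k * (A + l)) := by
    rw [ee_add, ee_P1_one, ← ee_add]; congr 1; ring
  have v2 : ee (P3 (N * l * yb)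
      (Int.fract (-(c + (N * m * ya + N * m * (yb - ya) * S 1) + N * l * yb / 2))) 1 +
      (c + (N * m * ya + N * m * (yb - ya) * S 1) + -(k * (A + l + m)) + -(k * l) * 1)) =
      ee (-(k * (A + l + m + l))) := by
    rw [add_assoc (c + _), ee_P3_one]; congr 1; ring
  have v3 : P1 (N * l * ya) (Int.fract (c - N * l * ya / 2)) 0 + (-(k * A) + -(k * l) * 0) =
      -(k * A) := by simp [P1]
  have v4 : P3 (N * l * yb)
      (Int.fract (-(c + (N * m * ya + N * m * (yb - ya) * S 1) + N * l * yb / 2))) 0 +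
      (c + (N * m * ya + N * m * (yb - ya) * S 1) + -(k * (A + l + m)) + -(k * l) * 0) =
      N * m * (yb - ya) * S 1 + (c - k * (A + l) + (N * m * ya - k * m) * 1) := by
    simp only [P3]; ring
  have v5 : N * m * (yb - ya) * 0 + (c - k * (A + l) + (N * m * ya - k * m) * 0) =
      c - k * (A + l) := by ring
  rw [v1, v3] at t1
  rw [v2, v4] at t3
  rw [v5] at t2
  rw [seg_int h.ph.c₀ h.S0 hl hm, hI]
  refine le_trans (le_of_eq ?_) (((norm_add_le _ _).trans (add_le_add ((norm_add_le _ _).trans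
    (add_le_add ((norm_mul_le (l : ℂ) _).trans (mul_le_mul_of_nonneg_left t1 (norm_nonneg _)))
    ((norm_mul_le (m : ℂ) _).trans (mul_le_mul_of_nonneg_left t2 (norm_nonneg _)))))
    ((norm_mul_le (l : ℂ) _).trans (mul_le_mul_of_nonneg_left t3 (norm_nonneg _))))).trans
    (le_of_eq ?_))
  · congr 1
    have l0 : (l : ℂ) ≠ 0 := by exact_mod_cast hl.ne'
    have m0 : (m : ℂ) ≠ 0 := by exact_mod_cast hm.ne'
    have := cI_ne
    have w1 : N * l * ya * 1 + Int.fract (c - N * l * ya / 2) * (6 * 1 - 6 * 1 ^ 2) + -(k * l) =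
        l * (N * ya - k) := by ring
    have w2 : N * l * ya * 0 + Int.fract (c - N * l * ya / 2) * (6 * 0 - 6 * 0 ^ 2) + -(k * l) =
        l * (0 - k) := by ring
    have w3 : N * m * (yb - ya) * 1 + (N * m * ya - k * m) = m * (N * yb - k) := by ring
    have w4 : N * m * (yb - ya) * 0 + (N * m * ya - k * m) = m * (N * ya - k) := by ring
    have w5 : ∀ ξ : ℝ, N * l * yb * (1 - 1) + ξ * (6 * 1 - 6 * 1 ^ 2) + -(k * l) = l * (0 - k) :=
      fun _ => by ring
    have w6 : ∀ ξ : ℝ, N * l * yb * (1 - 0) + ξ * (6 * 0 - 6 * 0 ^ 2) + -(k * l) =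
        l * (N * yb - k) := fun _ => by ring
    rw [w1, w2, w3, w4, w5, w6, Complex.ofReal_mul l, Complex.ofReal_mul l, Complex.ofReal_mul l,
      Complex.ofReal_mul m, Complex.ofReal_mul m]
    generalize ((0 - k : ℝ) : ℂ) = z0 at k0 ⊢
    generalize ((N * ya - k : ℝ) : ℂ) = z1 at k1 ⊢
    generalize ((N * yb - k : ℝ) : ℂ) = z2 at k2 ⊢
    field_simp
    ring
  · rw [Complex.norm_real, Complex.norm_real, Real.norm_of_nonneg hl.le, Real.norm_of_nonneg hm.le]
    ring

end Crest.Agent.R075
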