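import Crest.Agent.R075.Osc

/-! The Fresnel integral, the tapering profile and the stationary phase estimates. -/

set_option autoImplicit false

namespace Crest.Agent.R075

open Real Set intervalIntegral Crest.Agent.R210 ComplexConjugate Filter Topology

theorem gauss_tail {b : ℂ} (hb : 0 ≤ b.re) (hb' : 3 ≤ ‖b‖) {r R : ℝ} (hr : 0 < r) (hR : r ≤ R) :
    ‖∫ x in r..R, Complex.exp (-b * (x : ℂ) ^ 2)‖ ≤ 1 / (2 * r) := by
  have b0 : b ≠ 0 := by rintro rfl; norm_num at hb'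
  have hne : ∀ x ∈ uIcc r R, x ≠ 0 := fun x hx => by
    rw [uIcc_of_le hR] at hx; exact (hr.trans_le hx.1).ne'
  have hG : ∀ x ∈ uIcc r R, HasDerivAt
      (fun x : ℝ => Complex.exp (-b * (x : ℂ) ^ 2) * (-(2 * b)⁻¹ * (x⁻¹ : ℝ)))
      (Complex.exp (-b * (x : ℂ) ^ 2) +
        Complex.exp (-b * (x : ℂ) ^ 2) * ((2 * b)⁻¹ * ((x ^ 2)⁻¹ : ℝ))) x := by
    intro x hx
    have h1 : HasDerivAt (fun x : ℝ => Complex.exp (-b * (x : ℂ) ^ 2))
        (Complex.exp (-b * (x : ℂ) ^ 2) * (-b * (2 * x))) x := by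
      have := (((hasDerivAt_id x).ofReal_comp.pow 2).const_mul (-b)).cexp
      simpa using this
    have h2 := (hasDerivAt_inv (hne x hx)).ofReal_comp.const_mul (-(2 * b)⁻¹)
    refine (h1.mul h2).congr_deriv ?_
    have : (x : ℂ) ≠ 0 := by exact_mod_cast hne x hx
    push_cast
    field_simp
  have c0 : Continuous fun x : ℝ => Complex.exp (-b * (x : ℂ) ^ 2) := by fun_prop
  have c1 : ContinuousOn (fun x : ℝ => (x ^ 2)⁻¹) (uIcc r R) :=
    (continuous_pow 2).continuousOn.inv₀ fun x hx => pow_ne_zero _ (hne x hx)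
  have c2 : ContinuousOn
      (fun x : ℝ => Complex.exp (-b * (x : ℂ) ^ 2) * ((2 * b)⁻¹ * ((x ^ 2)⁻¹ : ℝ))) (uIcc r R) :=
    c0.continuousOn.mul (continuousOn_const.mul (Complex.continuous_ofReal.comp_continuousOn c1))
  have e := integral_eq_sub_of_hasDerivAt hG (c0.continuousOn.add c2).intervalIntegrable
  rw [integral_add (c0.intervalIntegrable _ _) c2.intervalIntegrable, ← eq_sub_iff_add_eq] at e
  have ne : ∀ x : ℝ, ‖Complex.exp (-b * (x : ℂ) ^ 2)‖ ≤ 1 := fun x => by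
    rw [norm_cexp_neg_mul_sq, Real.exp_le_one_iff]
    nlinarith [sq_nonneg x]
  have ni : ‖(2 * b)⁻¹‖ ≤ 1 / 6 := by
    rw [norm_inv, norm_mul, inv_le_comm₀ (by simp [b0]) (by norm_num)]
    simp; linarith
  have b1 : ∀ x, r ≤ x →
      ‖Complex.exp (-b * (x : ℂ) ^ 2) * (-(2 * b)⁻¹ * (x⁻¹ : ℝ))‖ ≤ 1 / 6 * r⁻¹ := by
    intro x hx
    rw [norm_mul, norm_mul, norm_neg, Complex.norm_real,
      Real.norm_of_nonneg (inv_nonneg.2 (hr.le.trans hx))]
    refine (mul_le_of_le_one_left (by have := hr.trans_le hx; positivity) (ne x)).trans ?_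
    exact mul_le_mul ni (inv_anti₀ hr hx) (inv_nonneg.2 (hr.le.trans hx)) (by norm_num)
  have b2 : ‖∫ x in r..R, Complex.exp (-b * (x : ℂ) ^ 2) * ((2 * b)⁻¹ * ((x ^ 2)⁻¹ : ℝ))‖ ≤
      ∫ x in r..R, 1 / 6 * (x ^ 2)⁻¹ := by
    refine norm_integral_le_of_norm_le hR (Filter.Eventually.of_forall fun x _ => ?_)
      (continuousOn_const.mul c1).intervalIntegrable
    rw [norm_mul, norm_mul, Complex.norm_real, Real.norm_of_nonneg (by positivity)]
    refine (mul_le_of_le_one_left (by positivity) (ne x)).trans ?_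
    exact mul_le_mul_of_nonneg_right ni (by positivity)
  have hI : ∫ x in r..R, (x ^ 2)⁻¹ = r⁻¹ - R⁻¹ := by
    have := integral_eq_sub_of_hasDerivAt (f := fun x : ℝ => -x⁻¹) (f' := fun x => (x ^ 2)⁻¹)
      (a := r) (b := R) (fun x hx => (hasDerivAt_inv (hne x hx)).neg.congr_deriv (by ring))
      c1.intervalIntegrable
    rw [this]; ring
  rw [integral_const_mul, hI] at b2
  rw [e]
  refine (norm_sub_le _ _).trans ?_
  have h3 := (norm_sub_le _ _).trans (add_le_add (b1 R hR) (b1 r le_rfl))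
  have h4 : 0 ≤ R⁻¹ := inv_nonneg.2 (hr.le.trans hR)
  have h5 : 1 / (2 * r) = 1 / 2 * r⁻¹ := by field_simp
  linarith

theorem gauss_trunc {b : ℂ} (hb : 0 < b.re) (hb' : 3 ≤ ‖b‖) {r : ℝ} (hr : 0 < r) :
    ‖(∫ x in -r..r, Complex.exp (-b * (x : ℂ) ^ 2)) - (π / b) ^ (1 / 2 : ℂ)‖ ≤ 1 / r := by
  have c0 : Continuous fun x : ℝ => Complex.exp (-b * (x : ℂ) ^ 2) := by fun_prop
  have lim := MeasureTheory.intervalIntegral_tendsto_integral (integrable_cexp_neg_mul_sq hb)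
    tendsto_neg_atTop_atBot tendsto_id
  rw [integral_gaussian_complex hb] at lim
  refine le_of_tendsto ((lim.const_sub (∫ x in -r..r, Complex.exp (-b * (x : ℂ) ^ 2))).norm) ?_
  filter_upwards [eventually_ge_atTop r] with R hR
  have t := gauss_tail hb.le hb' hr hR
  have s : ∫ x in -R..-r, Complex.exp (-b * (x : ℂ) ^ 2) =
      ∫ x in r..R, Complex.exp (-b * (x : ℂ) ^ 2) := by
    rw [← integral_comp_neg]; simp
  rw [id, ← integral_add_adjacent_intervals (a := -R) (b := -r) (c0.intervalIntegrable _ _)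
    (c0.intervalIntegrable _ _), ← integral_add_adjacent_intervals (a := -r) (b := r) (c := R)
    (c0.intervalIntegrable _ _) (c0.intervalIntegrable _ _), s]
  have e : ∀ A B : ℂ, A - (B + (A + B)) = -(B + B) := fun A B => by ring
  rw [e, norm_neg]
  refine (norm_add_le _ _).trans ((add_le_add t t).trans (le_of_eq ?_))
  field_simp; norm_num

theorem fresnel : ∃ F : ℂ, ‖F‖ = 1 ∧ ∀ r : ℝ, 0 < r →
    ‖(∫ x in -r..r, ee (x ^ 2 / 2)) - F‖ ≤ 1 / r := by
  have hπ : (π : ℂ) ≠ 0 := by exact_mod_cast pi_ne_zero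
  have e0 : (π : ℂ) / (((0 : ℝ) : ℂ) - π * Complex.I) = Complex.I := by
    rw [div_eq_iff (by simp [pi_ne_zero])]
    push_cast
    linear_combination (π : ℂ) * Complex.I_sq
  refine ⟨Complex.I ^ (1 / 2 : ℂ), ?_, fun r hr => ?_⟩
  · have := Complex.norm_cpow_real Complex.I (1 / 2)
    simpa using this
  have c1 : Continuous fun ε : ℝ =>
      ∫ x in -r..r, Complex.exp (-((ε : ℂ) - π * Complex.I) * (x : ℂ) ^ 2) :=
    continuous_parametric_intervalIntegral_of_continuous' (by unfold Function.uncurry; fun_prop) _ _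
  have c2 : ContinuousAt (fun ε : ℝ => ((π : ℂ) / ((ε : ℂ) - π * Complex.I)) ^ (1 / 2 : ℂ)) 0 := by
    refine ContinuousAt.cpow (ContinuousAt.div continuousAt_const (by fun_prop)
      (by simp [pi_ne_zero])) continuousAt_const ?_
    rw [e0]; simp [Complex.slitPlane]
  have lim := ((c1.continuousAt (x := 0)).sub c2).norm.tendsto.mono_left
    (nhdsWithin_le_nhds (s := Ioi 0))
  have e1 : ∀ x : ℝ, Complex.exp (-(((0 : ℝ) : ℂ) - π * Complex.I) * (x : ℂ) ^ 2) =
      ee (x ^ 2 / 2) := fun x => by rw [ee]; congr 1; push_cast; ring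
  simp only [Pi.sub_apply, e0, e1] at lim
  refine le_of_tendsto lim ?_
  filter_upwards [self_mem_nhdsWithin] with ε hε
  refine gauss_trunc (by simpa using hε) ?_ hr
  have := Complex.abs_im_le_norm ((ε : ℂ) - π * Complex.I)
  simp only [Complex.sub_im, Complex.ofReal_im, Complex.mul_im, Complex.ofReal_re, Complex.I_im,
    mul_one, Complex.I_re, mul_zero, add_zero, zero_sub, abs_neg, abs_of_pos pi_pos] at this
  linarith [pi_gt_three]

/-- The tapering profile. -/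
structure Profile (η Λ ζ K : ℝ) (S σ σ₁ σ₂ : ℝ → ℝ) : Prop where
  ph : Phase S σ σ₁ σ₂
  S0 : S 0 = 0
  σ0 : σ 0 = 0
  σ1 : σ 1 = 1
  η1 : η ≤ 1 / 2
  lo : ∀ v, 1 - η ≤ σ₁ v
  ends : ∀ v ∈ Icc (0 : ℝ) 1, v ≤ 2 * ζ ∨ 1 - 2 * ζ ≤ v → Λ ≤ σ₁ v
  K1 : ∀ v ∈ Icc (0 : ℝ) 1, |σ₁ v| ≤ K
  K2 : ∀ v ∈ Icc (0 : ℝ) 1, |σ₂ v| ≤ K
  ζ0 : 0 < ζ
  ζ1 : ζ ≤ 1 / 4

theorem exists_profile (η Λ : ℝ) (h0 : 0 < η) (h1 : η ≤ 1 / 2) :
    ∃ ζ K S σ σ₁ σ₂, Profile η Λ ζ K S σ σ₁ σ₂ := by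
  obtain ⟨n, hn⟩ := exists_nat_ge (Λ / η)
  rw [div_le_iff₀ h0] at hn
  have hd : ∀ (m : ℕ) (v : ℝ), HasDerivAt (fun v : ℝ => (2 * v - 1) ^ (m + 1))
      ((m + 1) * (2 * v - 1) ^ m * 2) v := by
    intro m v
    exact ((((hasDerivAt_id v).const_mul 2).sub_const 1).pow (m + 1)).congr_deriv (by simp)
  have ph : Phase
      (fun v => (1 - η) * (v ^ 2 / 2) +
        η / 2 * (((2 * v - 1) ^ (2 * n + 2 + 1 + 1) - 1) / (2 * (2 * n + 4)) + v))
      (fun v => (1 - η) * v + η / 2 * ((2 * v - 1) ^ (2 * n + 2 + 1) + 1))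
      (fun v => (1 - η) + η * (2 * n + 3) * (2 * v - 1) ^ (2 * n + 1 + 1))
      (fun v => η * (2 * n + 3) * ((2 * n + 2) * (2 * v - 1) ^ (2 * n + 1) * 2)) := by
    refine ⟨fun v => ?_, fun v => ?_, fun v => ?_, by fun_prop⟩
    · refine ((((hasDerivAt_pow 2 v).div_const 2).const_mul _).add
        (((((hd _ v).sub_const 1).div_const _).add (hasDerivAt_id v)).const_mul _)).congr_deriv ?_
      push_cast; field_simp; ring
    · refine (((hasDerivAt_id v).const_mul _).add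
        (((hd _ v).add_const 1).const_mul _)).congr_deriv ?_
      push_cast; ring
    · refine (((hd _ v).const_mul _).const_add _).congr_deriv ?_
      push_cast; ring
  obtain ⟨K₁, hK₁⟩ := isCompact_Icc.exists_bound_of_continuousOn (s := Icc (0 : ℝ) 1)
    ph.c₂.continuousOn
  obtain ⟨K₂, hK₂⟩ := isCompact_Icc.exists_bound_of_continuousOn (s := Icc (0 : ℝ) 1)
    ph.c₃.continuousOn
  have n0 : (0 : ℝ) ≤ n := Nat.cast_nonneg n
  have ev : Even (2 * n + 1 + 1) := ⟨n + 1, by ring⟩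
  refine ⟨1 / (16 * (n + 1)), max K₁ K₂, _, _, _, _, ph, ?_, ?_, by norm_num, h1,
    fun v => ?_, fun v hv h => ?_, fun v hv => (hK₁ v hv).trans (le_max_left _ _),
    fun v hv => (hK₂ v hv).trans (le_max_right _ _), by positivity, ?_⟩
  · have : Even (2 * n + 2 + 1 + 1) := ⟨n + 2, by ring⟩
    simp [this.neg_one_pow]
  · have : Odd (2 * n + 2 + 1) := ⟨n + 1, by ring⟩
    simp [this.neg_one_pow]
  · have := ev.pow_nonneg (2 * v - 1)
    have : 0 ≤ η * (2 * n + 3) * (2 * v - 1) ^ (2 * n + 1 + 1) := by positivity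
    linarith
  · set ζ : ℝ := 1 / (16 * (n + 1)) with hζ
    have z1 : ζ * (16 * (n + 1)) = 1 := by rw [hζ]; field_simp
    have z0 : 0 < ζ := by positivity
    have a1 : 1 - 4 * ζ ≤ |2 * v - 1| := by
      rcases h with h | h
      · exact le_abs.2 (Or.inr (by linarith))
      · exact le_abs.2 (Or.inl (by linarith))
    have a2 := one_add_mul_le_pow (a := -(4 * ζ)) (by nlinarith) (2 * n + 1 + 1)
    have a3 : (1 + -(4 * ζ)) ^ (2 * n + 1 + 1) ≤ (2 * v - 1) ^ (2 * n + 1 + 1) := by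
      rw [← ev.pow_abs (2 * v - 1)]
      exact pow_le_pow_left₀ (by nlinarith) (by linarith) _
    push_cast at a2
    have a4 : 1 / 2 ≤ (2 * v - 1) ^ (2 * n + 1 + 1) := by nlinarith
    have a5 := mul_le_mul_of_nonneg_left a4 (show 0 ≤ η * (2 * n + 3) by positivity)
    show Λ ≤ (1 - η) + η * (2 * n + 3) * (2 * v - 1) ^ (2 * n + 1 + 1)
    nlinarith
  · rw [div_le_div_iff₀ (by positivity) (by norm_num)]; linarith

/-- The model integral. -/
noncomputable def JJ (S : ℝ → ℝ) (l z : ℝ) : ℂ := ∫ v in (0 : ℝ)..1, ee (l * (S v - z * v))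

variable {η Λ ζ K : ℝ} {S σ σ₁ σ₂ : ℝ → ℝ}

theorem Profile.phase (h : Profile η Λ ζ K S σ σ₁ σ₂) (l z : ℝ) :
    Phase (fun v => l * (S v - z * v)) (fun v => l * (σ v - z)) (fun v => l * σ₁ v)
      (fun v => l * σ₂ v) :=
  ⟨fun v => (((h.ph.d₀ v).sub ((hasDerivAt_id v).const_mul z)).const_mul l).congr_deriv (by simp),
    fun v => ((h.ph.d₁ v).sub_const z).const_mul l, fun v => (h.ph.d₂ v).const_mul l,
    h.ph.c₃.const_mul l⟩

theorem Profile.half (h : Profile η Λ ζ K S σ σ₁ σ₂) (v : ℝ) : 1 / 2 ≤ σ₁ v := by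
  linarith [h.lo v, h.η1]

theorem Profile.incr (h : Profile η Λ ζ K S σ σ₁ σ₂) {x y : ℝ} (hxy : x ≤ y) :
    1 / 2 * (y - x) ≤ σ y - σ x := mvt_ge h.ph.d₁ hxy fun t _ => h.half t

theorem Profile.mem (h : Profile η Λ ζ K S σ σ₁ σ₂) {v : ℝ} (hv : v ∈ Icc (0 : ℝ) 1) :
    0 ≤ σ v ∧ σ v ≤ 1 := by
  have a := h.incr hv.1
  have b := h.incr hv.2
  rw [h.σ0] at a
  rw [h.σ1] at b
  constructor <;> linarith [hv.1, hv.2]

theorem Profile.J_all (h : Profile η Λ ζ K S σ σ₁ σ₂) {l : ℝ} (hl : 0 < l) (z : ℝ) :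
    √l * ‖JJ S l z‖ ≤ 8 := by
  have := second_deriv_test (h.phase l z) zero_le_one (show 0 < l / 4 by positivity)
    fun x _ => by nlinarith [h.half x]
  have e : √(l / 4) = √l / 2 := by
    rw [Real.sqrt_div hl.le, show (4 : ℝ) = 2 ^ 2 by norm_num, Real.sqrt_sq (by norm_num)]
  have p := sqrt_pos.2 hl
  rw [e, le_div_iff₀ (by positivity)] at this
  rw [JJ]; linarith

theorem Profile.part (h : Profile η Λ ζ K S σ σ₁ σ₂) {l z a b κ : ℝ} (hl : 0 < l) (hab : a ≤ b)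
    (hκ : 0 < κ) (hz : z + κ ≤ σ a ∨ σ b ≤ z - κ) :
    ‖∫ v in a..b, ee (l * (S v - z * v))‖ ≤ 1 / (l * κ) := by
  refine first_deriv_test (h.phase l z) hab (mul_pos hl hκ) (fun x hx => ?_)
    (fun x _ => mul_nonneg hl.le (by linarith [h.half x]))
  rw [abs_mul, abs_of_pos hl]
  refine mul_le_mul_of_nonneg_left ?_ hl.le
  have a1 := h.incr hx.1
  have a2 := h.incr hx.2
  rcases hz with hz | hz
  · exact le_abs.2 (Or.inl (by linarith [hx.1]))
  · exact le_abs.2 (Or.inr (by linarith [hx.2]))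

theorem Profile.J_far (h : Profile η Λ ζ K S σ σ₁ σ₂) {l z κ : ℝ} (hl : 0 < l) (hκ : 0 < κ)
    (hz : z ≤ -κ ∨ 1 + κ ≤ z) : ‖JJ S l z‖ ≤ 1 / (l * κ) :=
  h.part hl zero_le_one hκ (by rw [h.σ0, h.σ1]; exact hz.imp (by intro; linarith) (by intro; linarith))

theorem Profile.J_edge (h : Profile η Λ ζ K S σ σ₁ σ₂) (hΛ : 0 < Λ) {l z : ℝ} (hl : 0 < l)
    (hz : z ≤ σ ζ ∨ σ (1 - ζ) ≤ z) : ‖JJ S l z‖ ≤ 4 / √(l * Λ) + 1 / (l * (ζ / 2)) := by
  have c0 : Continuous fun v => ee (l * (S v - z * v)) := continuous_ee.comp (h.phase l z).c₀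
  have z0 := h.ζ0
  have z1 := h.ζ1
  rcases hz with hz | hz
  · rw [JJ, ← integral_add_adjacent_intervals (b := 2 * ζ) (c0.intervalIntegrable _ _)
      (c0.intervalIntegrable _ _)]
    refine (norm_add_le _ _).trans (add_le_add ?_ ?_)
    · exact second_deriv_test (h.phase l z) (by linarith) (mul_pos hl hΛ) fun x hx =>
        mul_le_mul_of_nonneg_left (h.ends x ⟨hx.1, by linarith [hx.2]⟩ (Or.inl hx.2)) hl.le
    · refine h.part hl (by linarith) (by linarith) (Or.inl ?_)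
      linarith [h.incr (show ζ ≤ 2 * ζ by linarith)]
  · rw [JJ, ← integral_add_adjacent_intervals (b := 1 - 2 * ζ) (c0.intervalIntegrable _ _)
      (c0.intervalIntegrable _ _), add_comm]
    refine (norm_add_le _ _).trans (add_le_add ?_ ?_)
    · exact second_deriv_test (h.phase l z) (by linarith) (mul_pos hl hΛ) fun x hx =>
        mul_le_mul_of_nonneg_left (h.ends x ⟨by linarith [hx.1], hx.2⟩ (Or.inr hx.1)) hl.le
    · refine h.part hl (by linarith) (by linarith) (Or.inr ?_)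
      linarith [h.incr (show 1 - 2 * ζ ≤ 1 - ζ by linarith)]

theorem Profile.J_stat (h : Profile η Λ ζ K S σ σ₁ σ₂) {F : ℂ}
    (hF : ∀ r : ℝ, 0 < r → ‖(∫ x in -r..r, ee (x ^ 2 / 2)) - F‖ ≤ 1 / r) {l w r : ℝ} (hl : 0 < l)
    (hr : 0 < r) (hw : r ≤ w) (hw' : w + r ≤ 1) :
    ‖JJ S l (σ w) - F * ee (l * (S w - σ w * w)) / √(l * σ₁ w)‖ ≤
      6 / (l * r) + 4 * π * l * K * r ^ 4 := by
  have c0 : Continuous fun v => ee (l * (S v - σ w * v)) :=
    continuous_ee.comp (h.phase l (σ w)).c₀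
  have i1 : ‖∫ v in (0 : ℝ)..w - r, ee (l * (S v - σ w * v))‖ ≤ 1 / (l * (r / 2)) :=
    h.part hl (by linarith) (by linarith) (Or.inr (by
      linarith [h.incr (show w - r ≤ w by linarith)]))
  have i3 : ‖∫ v in w + r..1, ee (l * (S v - σ w * v))‖ ≤ 1 / (l * (r / 2)) :=
    h.part hl hw' (by linarith) (Or.inl (by linarith [h.incr (show w ≤ w + r by linarith)]))
  have hwm : w ∈ Icc (w - r) (w + r) := ⟨by linarith, by linarith⟩
  have sub : ∀ v ∈ Icc (w - r) (w + r), v ∈ Icc (0 : ℝ) 1 := fun v hv =>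
    ⟨by linarith [hv.1], by linarith [hv.2]⟩
  have ab : ∀ v ∈ Icc (w - r) (w + r), |v - w| ≤ r := fun v hv =>
    abs_le.2 ⟨by linarith [hv.1], by linarith [hv.2]⟩
  have K0 : 0 ≤ K := (abs_nonneg _).trans (h.K1 w (sub w hwm))
  have t1 : ∀ v ∈ Icc (w - r) (w + r), |σ₁ v - σ₁ w| ≤ K * r := fun v hv =>
    (mvt_abs (fun x _ => h.ph.d₂ x) (fun x hx => h.K2 x (sub x hx)) hwm hv).trans
      (mul_le_mul_of_nonneg_left (ab v hv) K0)
  have t2 : ∀ v ∈ Icc (w - r) (w + r), |σ v - σ w - σ₁ w * (v - w)| ≤ K * r * r := by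
    intro v hv
    have := mvt_abs (f := fun v => σ v - σ w - σ₁ w * (v - w)) (f' := fun v => σ₁ v - σ₁ w)
      (fun x _ => (((h.ph.d₁ x).sub_const _).sub
        (((hasDerivAt_id x).sub_const w).const_mul _)).congr_deriv (by simp)) t1 hwm hv
    simp only [sub_self, mul_zero, sub_zero] at this
    exact this.trans (mul_le_mul_of_nonneg_left (ab v hv) (by positivity))
  have t3 : ∀ v ∈ Icc (w - r) (w + r),
      |S v - S w - σ w * (v - w) - σ₁ w * ((v - w) ^ 2 / 2)| ≤ K * r * r * r := by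
    intro v hv
    have := mvt_abs (f := fun v => S v - S w - σ w * (v - w) - σ₁ w * ((v - w) ^ 2 / 2))
      (f' := fun v => σ v - σ w - σ₁ w * (v - w))
      (fun x _ => ((((h.ph.d₀ x).sub_const _).sub
        (((hasDerivAt_id x).sub_const w).const_mul _)).sub
        (((((hasDerivAt_id x).sub_const w).pow 2).div_const 2).const_mul _)).congr_deriv
          (by simp)) t2 hwm hv
    simp only [sub_self, mul_zero, sub_zero, ne_eq, OfNat.ofNat_ne_zero, not_false_eq_true,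
      zero_pow, zero_div] at this
    exact this.trans (mul_le_mul_of_nonneg_left (ab v hv) (by positivity))
  set a := l * σ₁ w with ha
  have a1 : l / 2 ≤ a := by rw [ha]; nlinarith [h.half w]
  have a0 : 0 < a := by linarith
  have sa := sqrt_pos.2 a0
  have aa : √a * √a = a := mul_self_sqrt a0.le
  set c := l * (S w - σ w * w) with hc
  have c1 : Continuous fun v : ℝ => ee c * ee ((√a * (v - w)) ^ 2 / 2) := by fun_prop
  have i2 : ‖(∫ v in w - r..w + r, ee (l * (S v - σ w * v))) -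
      ∫ v in w - r..w + r, ee c * ee ((√a * (v - w)) ^ 2 / 2)‖ ≤ 4 * π * l * K * r ^ 4 := by
    rw [← integral_sub (c0.intervalIntegrable _ _) (c1.intervalIntegrable _ _)]
    refine (norm_integral_le_of_norm_le_const (C := 2 * π * (l * (K * r * r * r)))
      fun v hv => ?_).trans (le_of_eq ?_)
    · rw [uIoc_of_le (by linarith)] at hv
      rw [← ee_add]
      refine (norm_ee_sub _ _).trans (mul_le_mul_of_nonneg_left ?_ (by positivity))
      have e : l * (S v - σ w * v) - (c + (√a * (v - w)) ^ 2 / 2) =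
          l * (S v - S w - σ w * (v - w) - σ₁ w * ((v - w) ^ 2 / 2)) := by
        rw [mul_pow, Real.sq_sqrt a0.le, hc, ha]; ring
      rw [e, abs_mul, abs_of_pos hl]
      exact mul_le_mul_of_nonneg_left (t3 v (Ioc_subset_Icc_self hv)) hl.le
    · rw [show w + r - (w - r) = 2 * r by ring, abs_of_pos (by positivity)]; ring
  have i4 : ‖(∫ v in w - r..w + r, ee c * ee ((√a * (v - w)) ^ 2 / 2)) - F * ee c / √a‖ ≤
      2 / (l * r) := by
    have e1 : ∫ v in w - r..w + r, ee ((√a * (v - w)) ^ 2 / 2) =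
        (√a)⁻¹ • ∫ x in -(√a * r)..√a * r, ee (x ^ 2 / 2) := by
      rw [integral_comp_sub_right (fun v => ee ((√a * v) ^ 2 / 2)),
        integral_comp_mul_left (fun x => ee (x ^ 2 / 2)) sa.ne']
      congr 2 <;> ring
    have e2 : ∀ A : ℂ, ee c * ((√a)⁻¹ • A) - F * ee c / √a = ee c * ((√a)⁻¹ • (A - F)) := by
      intro A; simp only [Complex.real_smul]; push_cast; ring
    rw [integral_const_mul, e1, e2, norm_mul, norm_ee, one_mul, norm_smul, norm_inv,
      Real.norm_of_nonneg sa.le]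
    refine (mul_le_mul_of_nonneg_left (hF _ (by positivity)) (by positivity)).trans ?_
    rw [show (√a)⁻¹ * (1 / (√a * r)) = 1 / (√a * √a * r) by field_simp, aa,
      div_le_div_iff₀ (by positivity) (by positivity)]
    nlinarith
  rw [JJ, ← integral_add_adjacent_intervals (b := w - r) (c0.intervalIntegrable _ _)
    (c0.intervalIntegrable _ _), ← integral_add_adjacent_intervals (a := w - r) (b := w + r)
    (c0.intervalIntegrable _ _) (c0.intervalIntegrable _ _)]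
  have e : ∀ A B C D E : ℂ, A + (B + C) - E = A + C + (B - D) + (D - E) := fun _ _ _ _ _ => by ring
  rw [e _ _ _ (∫ v in w - r..w + r, ee c * ee ((√a * (v - w)) ^ 2 / 2))]
  refine (norm_add_le _ _).trans ((add_le_add ((norm_add_le _ _).trans (add_le_add
    ((norm_add_le _ _).trans (add_le_add i1 i3)) i2)) i4).trans (le_of_eq ?_))
  field_simp; ring

end Crest.Agent.R075
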